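import Vale.Agent.P318.Q.Stmt
import Vale.Agent.Lib.PCP.NPBridge

/-!
Track Q: from the promise problem of the library to the textbook statements.
-/

namespace Vale.Agent.P318.Q

open Vale.Agent.Lib.PolyTime Vale.Agent.Lib.PCP Vale.Agent.Lib.NP Finset
open scoped BigOperators Classical

namespace Bridge

/-- The instance given by a matrix of natural numbers. -/
def toInst (I : UI) (h : UWF I) : Inst where
  n := I.1.length
  c i j := ucap I i j
  two_le := h.two
  isCap := ⟨fun i j => by simp only [h.symm i j], fun i j => by positivity,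
    fun i => by simp [h.diag]⟩

/-- The data of the code. -/
def dat (I : UI) : ℕ × List (List (ℕ × ℕ)) := (I.1.length, I.1.map fun r => r.map fun x => (x, 1))

theorem pt_dat : PT ∅ dat :=
  PT.fst'.length.pair (PT.map PT.fst' (PT.map PT.snd' (PT.snd'.pair (PT.const 1))))

theorem ratW_nat (n : ℕ) : ratW (n : ℚ) = enc (n, 1) := by
  rw [ratW, Rat.num_natCast, Rat.den_natCast, Int.natAbs_natCast, pairW_eq_pr]
  rfl

theorem code_eq (I : UI) (h : UWF I) : (toInst I h).code = enc (dat I) := by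
  rw [Inst.code, dat, enc_pair, ← listW_map_enc, pairW_eq_pr]
  congr 2
  refine List.ext_getElem (by simp [toInst]) fun i h1 h2 => ?_
  have hi : i < I.1.length := by simpa using h2
  rw [List.getElem_ofFn, List.getElem_map, List.getElem_map, ← listW_map_enc]
  congr 1
  have hr := h.row _ (List.getElem_mem hi)
  refine List.ext_getElem (by simp [toInst, hr]) fun j h3 h4 => ?_
  have hj : j < I.1[i].length := by simpa using h4
  rw [List.getElem_ofFn, List.getElem_map, List.getElem_map, ← ratW_nat]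
  simp only [toInst, ucap]
  rw [List.getD_eq_getElem _ _ hi, List.getD_eq_getElem _ _ hj]

theorem den_pos {n : ℕ} {S : Finset (Fin n)} (h1 : S.Nonempty) (h2 : S ≠ univ) :
    0 < S.card * (n - S.card) := by
  have h3 := (card_lt_iff_ne_univ S).2 h2
  rw [Fintype.card_fin] at h3
  exact Nat.mul_pos h1.card_pos (by omega)

theorem ratio_eq (I : UI) (h : UWF I) (S : Finset (Fin I.1.length)) :
    cutRatio (toInst I h).cap S = (ucut I S : ℝ) / (S.card * (I.1.length - S.card) : ℕ) := by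
  have h3 : S.card ≤ I.1.length := by simpa using card_le_univ S
  rw [ucut, Nat.cast_mul, Nat.cast_sub h3, Nat.cast_sum]
  refine congrArg₂ (· / ·) (Finset.sum_congr rfl fun i _ => ?_) rfl
  rw [Nat.cast_sum]
  exact Finset.sum_congr (by congr) fun j _ => Rat.cast_natCast _

theorem fin_set {n : ℕ} (c : Fin n → Fin n → ℝ) :
    {r | ∃ S : Finset (Fin n), S.Nonempty ∧ S ≠ univ ∧ r = cutRatio c S}.Finite :=
  (Set.finite_range (cutRatio c)).subset fun _ ⟨S, _, _, e⟩ => ⟨S, e.symm⟩

theorem phi_le {n : ℕ} (c : Fin n → Fin n → ℝ) {S : Finset (Fin n)} (h1 : S.Nonempty)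
    (h2 : S ≠ univ) : Phi c ≤ cutRatio c S :=
  csInf_le (fin_set c).bddBelow ⟨S, h1, h2, rfl⟩

theorem phi_mem {n : ℕ} (hn : 2 ≤ n) (c : Fin n → Fin n → ℝ) :
    ∃ S : Finset (Fin n), S.Nonempty ∧ S ≠ univ ∧ Phi c = cutRatio c S := by
  refine Set.Nonempty.csInf_mem (s := {r | ∃ S : Finset (Fin n), S.Nonempty ∧ S ≠ univ ∧
    r = cutRatio c S}) ⟨_, {⟨0, by omega⟩}, singleton_nonempty _, fun e => ?_, rfl⟩ (fin_set c)
  have := congrArg card e
  rw [card_singleton, card_univ, Fintype.card_fin] at this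
  omega

theorem ratio_le_iff {I : UI} (h : UWF I) {S : Finset (Fin I.1.length)} (h1 : S.Nonempty)
    (h2 : S ≠ univ) (C : ℝ) : cutRatio (toInst I h).cap S ≤ C * ((I.2.1 : ℝ) / I.2.2) ↔
      ((ucut I S * I.2.2 : ℕ) : ℝ) ≤ C * (I.2.1 * (S.card * (I.1.length - S.card)) : ℕ) := by
  have hb : (0 : ℝ) < I.2.2 := by exact_mod_cast h.b_pos
  have hd : (0 : ℝ) < (S.card * (I.1.length - S.card) : ℕ) := by exact_mod_cast den_pos h1 h2
  rw [ratio_eq, ← mul_div_assoc, div_le_div_iff₀ hd hb, Nat.cast_mul (ucut I S),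
    Nat.cast_mul I.2.1, mul_assoc]

theorem yes_phi {C : ℝ} {I : UI} (h : (USC C).yes I) :
    Phi (toInst I h.1).cap ≤ (I.2.1 : ℝ) / I.2.2 := by
  obtain ⟨S, h1, h2, h3⟩ := h.2
  refine (phi_le _ h1 h2).trans (le_of_le_of_eq ((ratio_le_iff h.1 h1 h2 1).2 ?_) (one_mul _))
  rw [one_mul]
  exact_mod_cast h3

theorem no_ratio {C C' : ℝ} (hC : C' < C) {I : UI} (h : (USC C).no I)
    {S : Finset (Fin I.1.length)} (h1 : S.Nonempty) (h2 : S ≠ univ) :
    C' * ((I.2.1 : ℝ) / I.2.2) < cutRatio (toInst I h.1).cap S := by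
  rw [← not_le, ratio_le_iff h.1 h1 h2, not_le]
  refine lt_of_lt_of_le (mul_lt_mul_of_pos_right hC ?_) (h.2 S h1 h2)
  exact_mod_cast Nat.mul_pos h.1.a_pos (den_pos h1 h2)

/-- The size of the set with characteristic word `w`. -/
def sz (n : ℕ) (w : List Bool) : ℕ :=
  ((List.range n).map fun i => bif w.getD i false then 1 else 0).sum

/-- The weight of the cut with characteristic word `w`. -/
def ct (I : UI) (w : List Bool) : ℕ :=
  ((List.range I.1.length).map fun i => ((List.range I.1.length).map fun j =>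
    bif w.getD i false && !w.getD j false then ucap I i j else 0).sum).sum

theorem getD_setW {n : ℕ} (S : Finset (Fin n)) (i : Fin n) :
    (setW S).getD i false = decide (i ∈ S) := by
  rw [setW, List.getD_eq_getElem _ _ (by simp), List.getElem_ofFn]

theorem sz_setW {n : ℕ} (S : Finset (Fin n)) : sz n (setW S) = S.card := by
  rw [sz, sum_map_range, Finset.sum_range]
  simp only [getD_setW, Bool.cond_decide]
  rw [Finset.sum_boole]
  simp

theorem ct_setW (I : UI) (S : Finset (Fin I.1.length)) : ct I (setW S) = ucut I S := by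
  rw [ct, sum_map_range, Finset.sum_range, ucut, ← Finset.sum_filter_add_sum_filter_not univ
    (fun i => i ∈ S), Finset.sum_eq_zero (s := univ.filter fun i => ¬ i ∈ S), add_zero]
  · refine Finset.sum_congr (by ext; simp) fun i hi => ?_
    rw [sum_map_range, Finset.sum_range]
    simp only [getD_setW, hi, decide_true, Bool.true_and, ← decide_not, Bool.cond_decide]
    rw [← Finset.sum_filter]
    exact Finset.sum_congr (by ext; simp) fun _ _ => rfl
  · intro i hi
    have : i ∉ S := (mem_filter.1 hi).2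
    rw [sum_map_range, getD_setW]
    simp [this]

theorem pt_sz {w : UI → List Bool} (hw : PT ∅ w) : PT ∅ fun I => sz I.1.length (w I) :=
  (PT.map (PT.range PT.fst'.length (PBd.length (A := ∅) PT.fst'))
    (PT.cond (PT.getD (hw.comp PT.fst') PT.snd' (PT.const false)) (PT.const 1) (PT.const 0))).sum

theorem pt_ct {w : UI → List Bool} (hw : PT ∅ w) : PT ∅ fun I => ct I (w I) :=
  (PT.map (PT.range PT.fst'.length (PBd.length (A := ∅) PT.fst'))
    (PT.map (PT.range PT.fst'.fst.length (PBd.length (A := ∅) PT.fst'.fst))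
      (PT.cond ((PT.getD (hw.comp PT.fst'.fst) PT.fst'.snd (PT.const false)).and
        (PT.getD (hw.comp PT.fst'.fst) PT.snd' (PT.const false)).not)
        (PT.getD (PT.getD PT.fst'.fst.fst PT.fst'.snd (PT.const [])) PT.snd' (PT.const 0))
        (PT.const 0))).sum).sum

end Bridge

open Bridge in
theorem bridge_proof : BridgeStmt := by
  intro C hC hH
  obtain ⟨r, h1, h2⟩ := exists_rat_btwn hC
  have hcode : ∀ (I : UI) (h : UWF I), pairW (toInst I h).code (pairW I.2.1.bits I.2.2.bits) =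
      enc (dat I, I.2.1, I.2.2) := fun I h => by
    rw [code_eq, pairW_eq_pr]; rfl
  refine ⟨r, h1, hH.npHard _ _ _ (fun I => (dat I, I.2.1, I.2.2)) (pt_dat.pair PT.snd')
    (fun I h => ⟨(toInst I h.1, I.2.1, I.2.2), hcode I h.1, h.1.a_pos, h.1.b_pos, yes_phi h⟩)
    (fun I h => ⟨(toInst I h.1, I.2.1, I.2.2), hcode I h.1, h.1.a_pos, h.1.b_pos, ?_⟩), ?_⟩
  · obtain ⟨S, s1, s2, e⟩ := phi_mem h.1.two (toInst I h.1).cap
    exact (no_ratio h2 h s1 s2).trans_eq e.symm
  rintro ⟨A, hA, hA'⟩ L hL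
  have hw : PT ∅ fun I : UI => (A (enc (dat I)) : List Bool) := by
    obtain ⟨D, hD, hD'⟩ := pt_dat
    have : PT ∅ fun I : UI => Raw.mk (A (enc (dat I))) :=
      ⟨fun x => A (D x), (polyTime_id_iff.1 hA).comp hD, fun I => congrArg A (hD' I)⟩
    exact PT.listOfRaw this
  have hr0 : 0 ≤ r.num := Rat.num_nonneg.2 (by exact_mod_cast (zero_le_one.trans h1.le))
  have hrr : (r : ℝ) = (r.num.natAbs : ℝ) / r.den := by
    rw [Rat.cast_def, ← Int.cast_natCast r.num.natAbs, Int.natAbs_of_nonneg hr0]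
  have hden : (0 : ℝ) < r.den := by exact_mod_cast r.den_pos
  obtain ⟨B, hB, hB'⟩ := PT.le ((PT.const r.den).mul ((pt_ct hw).mul PT.snd'.snd))
    ((PT.const r.num.natAbs).mul (PT.snd'.fst.mul ((pt_sz hw).mul (PT.fst'.length.sub (pt_sz hw)))))
  have key : ∀ (I : UI) (h : UWF I), ∃ S : Finset (Fin I.1.length), S.Nonempty ∧ S ≠ univ ∧
      cutRatio (toInst I h).cap S ≤ r * Phi (toInst I h).cap ∧
      (B (enc I) = [true] ↔ cutRatio (toInst I h).cap S ≤ r * ((I.2.1 : ℝ) / I.2.2)) := by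
    intro I h
    obtain ⟨S, s1, s2, e, s3⟩ : ∃ S : Finset (Fin I.1.length), S.Nonempty ∧ S ≠ univ ∧
        A (toInst I h).code = setW S ∧ cutRatio (toInst I h).cap S ≤ r * Phi (toInst I h).cap :=
      hA' (toInst I h)
    refine ⟨S, s1, s2, s3, ?_⟩
    rw [code_eq] at e
    rw [hB']
    beta_reduce
    rw [e, ct_setW, sz_setW, ratio_le_iff h s1 s2, enc_bool, List.cons.injEq, and_iff_left rfl,
      decide_eq_true_eq, hrr, div_mul_eq_mul_div, le_div_iff₀ hden, mul_comm _ (r.den : ℝ)]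
    exact_mod_cast Iff.rfl
  refine hH.inP_of_decides hB (fun I h => ?_) (fun I h => ?_) hL
  · obtain ⟨S, -, -, s3, s4⟩ := key I h.1
    exact s4.2 (s3.trans (mul_le_mul_of_nonneg_left (yes_phi h) (by linarith)))
  · obtain ⟨S, s1, s2, -, s4⟩ := key I h.1
    exact fun e => (no_ratio h2 h s1 s2).not_ge (s4.1 e)

end Vale.Agent.P318.Q
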