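import Vale.Agent.P318.Q.Stmt

/-!
Track Q: completeness of the constraint system.
-/

namespace Vale.Agent.P318.Q

open Vale.Agent.Lib.PCP Finset
open scoped BigOperators Classical

namespace Complete

variable {F G : Type} [Field F] [Group G] {T : Tri F G} {l l' : ℕ} {f f' : G → F}

theorem deg_const (l : ℕ) (c : F) : Deg l fun _ => c :=
  ⟨Polynomial.C c, by simp, fun _ => by simp⟩

theorem deg_add {u v : F → F} (a : Deg l u) (b : Deg l v) : Deg l fun x => u x + v x :=
  let ⟨p, a, c⟩ := a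
  let ⟨q, b, d⟩ := b
  ⟨p + q, (Polynomial.natDegree_add_le p q).trans (max_le a b), fun x => by simp [c, d]⟩

theorem deg_mul {u v : F → F} (a : Deg l u) (b : Deg l' v) : Deg (l + l') fun x => u x * v x :=
  let ⟨p, a, c⟩ := a
  let ⟨q, b, d⟩ := b
  ⟨p * q, Polynomial.natDegree_mul_le.trans (add_le_add a b), fun x => by simp [c, d]⟩

theorem cw_const (l : ℕ) (c : F) : T.Cw l fun _ => c :=
  ⟨fun _ _ => rfl, fun _ _ => rfl, fun _ => deg_const l c⟩

theorem cw_add (a : T.Cw l f) (b : T.Cw l f') : T.Cw l fun g => f g + f' g :=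
  ⟨fun g x => by simp only [a.1 g x, b.1 g x], fun g x => by simp only [a.2.1 g x, b.2.1 g x],
    fun g => deg_add (a.2.2 g) (b.2.2 g)⟩

theorem cw_mul (a : T.Cw l f) (b : T.Cw l' f') : T.Cw (l + l') fun g => f g * f' g :=
  ⟨fun g x => by simp only [a.1 g x, b.1 g x], fun g x => by simp only [a.2.1 g x, b.2.1 g x],
    fun g => deg_mul (a.2.2 g) (b.2.2 g)⟩

theorem cw_cmul (c : F) (a : T.Cw l f) : T.Cw l fun g => c * f g := by
  simpa using cw_mul (cw_const 0 c) a

theorem cw_sum {α : Type} (s : Finset α) {u : α → G → F} (h : ∀ i ∈ s, T.Cw l (u i)) :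
    T.Cw l fun g => ∑ i ∈ s, u i g := by
  induction s using Finset.induction_on with
  | empty => simpa using cw_const l 0
  | insert i s hi ih =>
    simp only [sum_insert hi]
    exact cw_add (h i (mem_insert_self _ _)) (ih fun j hj => h j (mem_insert_of_mem hj))

theorem cw_ite (p : Prop) [Decidable p] (a : T.Cw l f) : T.Cw l fun g => if p then f g else 0 := by
  split_ifs
  exacts [a, cw_const l 0]

theorem cw_left (u : G) (a : T.Cw l f) : T.Cw l fun g => f (u * g) :=
  ⟨fun g x => by simp only [← mul_assoc, a.1 _ x], fun g x => by simp only [← mul_assoc, a.2.1 _ x],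
    fun g => by simpa only [← mul_assoc] using a.2.2 (u * g)⟩

theorem cw_mono (a : T.Cw l f) (h : l ≤ l') : T.Cw l' f :=
  ⟨a.1, a.2.1, fun g => let ⟨p, b, c⟩ := a.2.2 g; ⟨p, b.trans h, c⟩⟩

theorem cw_pull {T : Fin 3 → Tri F G} (j : Fin 3) (a : (T j).Cw l f) :
    (piTri T).Cw l fun g => f (g j) :=
  ⟨fun g x => a.1 (g j) x, fun g x => a.2.1 (g j) x, fun g => a.2.2 (g j)⟩

/-- the slack function -/
noncomputable def slack (u : G) (o : ℕ) (P : G → F) (g : G) : F :=
  -(o : F)⁻¹ * ∑ e ∈ range o, ∑ k ∈ range e, P (u ^ k * g)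

/-- the average over an orbit -/
noncomputable def avg (u : G) (o : ℕ) (P : G → F) (g : G) : F :=
  (o : F)⁻¹ * ∑ e ∈ range o, P (u ^ e * g)

theorem cw_slack (u : G) (o : ℕ) (a : T.Cw l f) : T.Cw l (slack u o f) :=
  cw_cmul _ (cw_sum _ fun _ _ => cw_sum _ fun _ _ => cw_left _ a)

theorem cw_avg (u : G) (o : ℕ) (a : T.Cw l f) : T.Cw l (avg u o f) :=
  cw_cmul _ (cw_sum _ fun _ _ => cw_left _ a)

theorem slack_sub (u : G) {o : ℕ} (ho : (o : F) ≠ 0) (P : G → F) (g : G) :
    slack u o P (u * g) - slack u o P g = P g - avg u o P g := by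
  have e : ∀ n : ℕ, ∑ k ∈ range n, P (u ^ k * (u * g)) - ∑ k ∈ range n, P (u ^ k * g) =
      P (u ^ n * g) - P g := fun n => by
    have := sum_range_sub (fun k => P (u ^ k * g)) n
    simpa only [sum_sub_distrib, pow_succ, mul_assoc, pow_zero, one_mul] using this
  rw [slack, slack, ← mul_sub, ← sum_sub_distrib, sum_congr rfl fun n _ => e n, sum_sub_distrib,
    sum_const, card_range, nsmul_eq_mul, avg]
  field_simp
  ring

theorem orth_zero {N o : ℕ} {h : G} {Φ Ψ : ℕ → G → F} (H : T.ThOK N h o Φ Ψ) {p : ℕ → Prop}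
    [DecidablePred p] {i : ℕ} (hi : i < N) (hp : ¬p i) (g : G) :
    ∑ e ∈ range o, Ψ i (h ^ e * g) * ∑ n ∈ range N, (if p n then Φ n (h ^ e * g) else 0) = 0 := by
  simp only [mul_sum]
  rw [sum_comm]
  refine sum_eq_zero fun n hn => ?_
  by_cases a : p n
  · simp only [if_pos a]
    exact H.orth i hi n (mem_range.1 hn) (fun e => hp (e ▸ a)) g
  · simp [a]

/-- the list of the variables -/
def vars (φ : CNF) : List ℕ := φ.flatMap fun c => [c.1.1, c.2.1.1, c.2.2.1]

theorem length_vars (φ : CNF) : (vars φ).length = 3 * φ.length := by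
  induction φ with
  | nil => rfl
  | cons c φ ih =>
    simp only [vars, List.flatMap_cons, List.length_append, List.length_cons] at ih ⊢
    simp only [ih, List.length_nil]
    omega

theorem lit_mem {φ : CNF} {i : ℕ} (hi : i < φ.length) (c : Fin 3) : (lit φ i c).1 ∈ vars φ := by
  refine List.mem_flatMap.2 ⟨φ[i], List.getElem_mem hi, ?_⟩
  simp only [lit, List.getD_eq_getElem _ _ hi]
  split_ifs <;> simp

theorem exists_col {φ : CNF} {σ : ℕ → Bool} (h : ∀ c ∈ φ, satClause c σ = true) (i : ℕ) :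
    ∃ c : Fin 3, i < φ.length → σ (lit φ i c).1 = (lit φ i c).2 := by
  by_cases hi : i < φ.length
  · have := h _ (List.getElem_mem hi)
    simp only [satClause, satLit, Bool.or_eq_true, beq_iff_eq] at this
    rcases this with (a | a) | a
    · exact ⟨0, fun _ => by simpa [lit, hi] using a⟩
    · exact ⟨1, fun _ => by simpa [lit, hi] using a⟩
    · exact ⟨2, fun _ => by simpa [lit, hi] using a⟩
  · exact ⟨0, fun a => absurd a hi⟩

end Complete

open Complete

theorem complete_proof : CompleteStmt := by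
  intro F G _ _ _ _ T _ N h o Φ Ψ H φ hN ⟨σ, hσ⟩
  choose col hcol using exists_col hσ
  let a : Fin 3 → G → F := fun c g => ∑ n ∈ range N, if col n = c then Φ 0 n g else 0
  let b : Bool → G → F := fun c g =>
    ∑ n ∈ range N, if σ ((vars φ).getD n 0) = c then Φ 1 n g else 0
  let P : (Fin 3 → G) → F := fun g =>
    ∑ cb : Fin 3 × Bool, (cf φ N Φ Ψ g).2.2 cb * a cb.1 (g 0) * b cb.2 (g 1)
  have ha : ∀ c, (piTri T).Cw 1 fun g => a c (g 0) := fun c =>
    cw_pull 0 (cw_sum _ fun n _ => cw_ite _ ((H 0).cwΦ n))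
  have hb : ∀ c, (piTri T).Cw 1 fun g => b c (g 1) := fun c =>
    cw_pull 1 (cw_sum _ fun n _ => cw_ite _ ((H 1).cwΦ n))
  have hc : ∀ cb, (piTri T).Cw 3 fun g => (cf φ N Φ Ψ g).2.2 cb := fun cb =>
    cw_sum (range φ.length) fun i _ => cw_ite _ (cw_mul (l := 2) (cw_mul
      (cw_pull 2 ((H 2).cwΦ _)) (cw_pull 0 ((H 0).cwΨ _))) (cw_pull 1 ((H 1).cwΨ _)))
  have hP : (piTri T).Cw 5 P := cw_sum _ fun cb _ =>
    cw_mul (l := 4) (cw_mul (hc cb) (ha cb.1)) (hb cb.2)
  let u : Fin 3 → Fin 3 → G := fun j => Pi.mulSingle j h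
  have z : ∀ g, avg (u 1) o (avg (u 0) o P) g = 0 := fun g => by
    have e0 : ∀ e e' : ℕ, (u 0 ^ e * (u 1 ^ e' * g)) 0 = h ^ e * g 0 := fun e e' => by simp [u]
    have e1 : ∀ e e' : ℕ, (u 0 ^ e * (u 1 ^ e' * g)) 1 = h ^ e' * g 1 := fun e e' => by simp [u]
    have e2 : ∀ e e' : ℕ, (u 0 ^ e * (u 1 ^ e' * g)) 2 = g 2 := fun e e' => by simp [u]
    have key : ∀ (cb : Fin 3 × Bool), ∀ i ∈ range φ.length, ∑ e' ∈ range o, ∑ e ∈ range o,
        (if (lit φ i cb.1).2 = !cb.2 then Φ 2 (3 * i + cb.1) (g 2) * Ψ 0 i (h ^ e * g 0) *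
          Ψ 1 (vidx φ (lit φ i cb.1).1) (h ^ e' * g 1) else 0) * a cb.1 (h ^ e * g 0) *
          b cb.2 (h ^ e' * g 1) = 0 := fun cb i hi => by
      rw [mem_range] at hi
      split_ifs with c
      · have : ∀ e e' : ℕ, Φ 2 (3 * i + cb.1) (g 2) * Ψ 0 i (h ^ e * g 0) *
            Ψ 1 (vidx φ (lit φ i cb.1).1) (h ^ e' * g 1) * a cb.1 (h ^ e * g 0) *
            b cb.2 (h ^ e' * g 1) = Φ 2 (3 * i + cb.1) (g 2) *
              ((Ψ 1 (vidx φ (lit φ i cb.1).1) (h ^ e' * g 1) * b cb.2 (h ^ e' * g 1)) *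
              (Ψ 0 i (h ^ e * g 0) * a cb.1 (h ^ e * g 0))) := fun e e' => by ring
        simp only [this, ← mul_sum, ← sum_mul]
        refine mul_eq_zero_of_right _ (mul_eq_zero.2 ?_)
        by_cases d : col i = cb.1
        · have m := List.idxOf_lt_length_of_mem (lit_mem hi cb.1)
          refine .inl (orth_zero (H 1) (lt_of_lt_of_le (length_vars φ ▸ m) hN) ?_ _)
          rw [show vidx φ (lit φ i cb.1).1 = (vars φ).idxOf (lit φ i cb.1).1 from rfl,
            List.getD_eq_getElem _ _ m, List.getElem_idxOf, ← d, hcol i hi, d, c]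
          simp
        · exact .inr (orth_zero (H 0) (by omega) d _)
      · simp
    simp only [avg, ← mul_sum, P, cf, e0, e1, e2, sum_mul]
    refine mul_eq_zero_of_right _ (mul_eq_zero_of_right _ ?_)
    rw [sum_congr rfl fun e' _ => sum_comm, sum_comm]
    refine sum_eq_zero fun cb _ => ?_
    rw [sum_congr rfl fun e' _ => sum_comm, sum_comm]
    exact sum_eq_zero (key cb)
  let f : (Fin 3 → G) → Tb → F := fun g => Sum.elim (fun c => a c (g 0)) (Sum.elim
    (fun c => b c (g 1)) fun c => if c then slack (u 1) o (avg (u 0) o P) g else slack (u 0) o P g)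
  have hf : ∀ t, (piTri T).Cw 5 fun g => f g t := by
    rintro (c | c | c)
    · exact cw_mono (ha c) (by norm_num)
    · exact cw_mono (hb c) (by norm_num)
    · cases c
      exacts [cw_slack _ _ hP, cw_slack _ _ (cw_avg _ _ hP)]
  refine ⟨f, hf, fun g => ⟨fun t p => ⟨fun x => ?_, ?_⟩, fun t p => ⟨fun x => ?_, ?_⟩,
    fun c j i x hj => ?_, fun c j i x hj => ?_, ?_, ?_, ?_⟩⟩
  · simp only [nbL, nbR, ← mul_assoc]
    exact ((hf t).2.1 _ _).trans ((hf t).2.1 _ _).symm
  · simp only [nbL, nbR, ← mul_assoc]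
    exact (hf t).2.2 (1 * g * (piTri T).k _ p)
  · simp only [nbL, nbR, ← mul_assoc]
    exact ((hf t).1 _ _).trans ((hf t).1 _ _).symm
  · simp only [nbL, nbR, ← mul_assoc]
    exact (hf t).2.2 (1 * g * (piTri T).k _ p)
  · simp [f, nbL, nbR, Pi.mulSingle_eq_of_ne hj.symm]
  · simp [f, nbL, nbR, Pi.mulSingle_eq_of_ne hj.symm]
  · simp only [f, nbL, nbR, Sum.elim_inl, one_mul, mul_one, cf, a]
    rw [sum_comm]
    simp
  · simp only [f, nbL, nbR, Sum.elim_inl, Sum.elim_inr, one_mul, mul_one, cf, b]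
    rw [sum_comm]
    exact sum_congr rfl fun n _ => by simp
  · have s0 := slack_sub (u 0) (H 0).odd P g
    have s1 := slack_sub (u 1) (H 0).odd (avg (u 0) o P) g
    rw [z] at s1
    simp only [f, nbL, nbR, Sum.elim_inl, Sum.elim_inr, one_mul, mul_one, Fintype.sum_bool,
      if_true, Bool.false_eq_true, if_false]
    change P g = slack (u 1) o _ (u 1 * g) - _ + (slack (u 0) o P (u 0 * g) - _)
    rw [s0, s1]
    ring

end Vale.Agent.P318.Q
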