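import Vale.Agent.Lib.PCP.NPDefs
import Vale.Agent.P318.Defs

/-!
Definitions for P318, question Q1: instances of Uniform Sparsest Cut with rational capacities,
approximation algorithms, gap problems.
-/

namespace Vale.Agent.P318.Q

open Vale.Agent.Lib.NP Finset

/-- An instance of Uniform Sparsest Cut: rational capacities on `n ≥ 2` vertices, symmetric,
nonnegative, zero on the diagonal. -/
structure Inst where
  /-- the number of vertices -/
  n : ℕ
  /-- the capacities -/
  c : Fin n → Fin n → ℚ
  two_le : 2 ≤ n
  isCap : IsCap fun i j => (c i j : ℝ)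

/-- The capacities as real numbers. -/
def Inst.cap (I : Inst) : Fin I.n → Fin I.n → ℝ := fun i j => (I.c i j : ℝ)

/-- The binary code of a nonnegative rational number: numerator and denominator. -/
def ratW (r : ℚ) : List Bool := pairW r.num.natAbs.bits r.den.bits

/-- The binary code of an instance: the number of vertices and the matrix of capacities. -/
def Inst.code (I : Inst) : List Bool :=
  pairW I.n.bits (listW (List.ofFn fun i => listW (List.ofFn fun j => ratW (I.c i j))))

/-- The characteristic word of a set of vertices. -/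
def setW {n : ℕ} (S : Finset (Fin n)) : List Bool := List.ofFn fun i => decide (i ∈ S)

/-- There is a polynomial time factor `C` approximation algorithm: on every instance it outputs
a nonempty proper subset whose ratio is at most `C Φ`. -/
def HasApprox (C : ℝ) : Prop :=
  ∃ A : List Bool → List Bool, PolyTime id id A ∧ ∀ I : Inst, ∃ S : Finset (Fin I.n),
    S.Nonempty ∧ S ≠ univ ∧ A I.code = setW S ∧ cutRatio I.cap S ≤ C * Phi I.cap

/-- The gap problem is NP-hard: given an instance and a positive threshold `a / b`, distinguish
`Φ ≤ a / b` from `Φ > C a / b`. -/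
def GapNPHard (C : ℝ) : Prop :=
  NPHard (fun p : Inst × ℕ × ℕ => pairW p.1.code (pairW p.2.1.bits p.2.2.bits))
    (fun p => 0 < p.2.1 ∧ 0 < p.2.2 ∧ Phi p.1.cap ≤ (p.2.1 : ℝ) / p.2.2)
    (fun p => 0 < p.2.1 ∧ 0 < p.2.2 ∧ C * ((p.2.1 : ℝ) / p.2.2) < Phi p.1.cap)

end Vale.Agent.P318.Q
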