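import Vale.Agent.P318.Q.Defs
import Vale.Agent.P318.Q.Statement

/-!
Track Q (APX-hardness of uniform sparsest cut): the statements of the parts.
-/

namespace Vale.Agent.P318.Q

open Vale.Agent.Lib.PolyTime Vale.Agent.Lib.PCP Finset
open scoped BigOperators Classical

/-! ### Expansion -/

/-- The angle between the two root subgroups of a Heisenberg group. -/
def SpecLocStmt : Prop :=
  ∀ (F G : Type) [Field F] [Fintype F] [Group G] [Fintype G] (T : Tri F G), T.OK →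
    ∀ (i : Fin 3) (f : G → ℝ) (g : G),
      (T.Inv (i + 1) f → 𝔼 u : T.K i, (T.PX (i + 2) f (g * u) - T.PK i f g) ^ 2 ≤
        1 / (Fintype.card F : ℝ) * 𝔼 u : T.K i, (f (g * u) - T.PK i f g) ^ 2) ∧
      (T.Inv (i + 2) f → 𝔼 u : T.K i, (T.PX (i + 1) f (g * u) - T.PK i f g) ^ 2 ≤
        1 / (Fintype.card F : ℝ) * 𝔼 u : T.K i, (f (g * u) - T.PK i f g) ^ 2)

/-- Trickling down: the angle between two Heisenberg groups. -/
def SpecGlobStmt : Prop :=
  ∀ (F G : Type) [Field F] [Fintype F] [Group G] [Fintype G] (T : Tri F G), T.OK →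
    4 ≤ Fintype.card F → ∀ (i j : Fin 3), i ≠ j → ∀ f : G → ℝ, T.InvK i f →
      𝔼 g, (T.PK j f g - 𝔼 g', f g') ^ 2 ≤
        4 / (Fintype.card F : ℝ) * 𝔼 g, (f g - 𝔼 g', f g') ^ 2

/-- Codewords have large distance. -/
def DistStmt : Prop :=
  ∀ (F G : Type) [Field F] [Fintype F] [Group G] [Fintype G] (T : Tri F G), T.OK →
    ∀ (l : ℕ), 41 ≤ Fintype.card F → 4 * l ≤ Fintype.card F → ∀ E : G → F, T.Cw l E →
      pr (fun g => E g ≠ 0) ≤ 1 / 4 → ∀ g, E g = 0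

/-- Pairs of positions of main checks expand. -/
def ExpStmt : Prop :=
  ∀ (F G : Type) [Field F] [Fintype F] [Group G] [Fintype G] (T : Tri F G), T.OK →
    4 ≤ Fintype.card F → ∀ s : Fin 9 → F, Function.Injective s → ∀ i k, i ≠ k → ∀ e : G → ℝ,
      𝔼 g, 𝔼 d, e (g * T.mvR s d i) * e (g * T.mvR s d k) ≤
        (𝔼 g, e g) ^ 2 + 10 / (Fintype.card F : ℝ) * 𝔼 g, e g ^ 2

/-! ### Local testability -/

/-- The plane lemma. `Λ s c b` is the value at the point `(s, c)` of the polynomial of the line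
of slope `b` through it. -/
def PlaneStmt : Prop :=
  ∀ (F : Type) [Field F] [Fintype F], 100 ≤ Fintype.card F → ∀ (Λ : F → F → F → F) (τ : ℝ),
    (∀ s c b, Deg 5 fun a => Λ (s + a) (c + a * b) b) → 50 * τ ≤ 1 / 4 →
    pr (fun p : (F × F) × F × F => Λ p.1.1 p.1.2 p.2.1 ≠ Λ p.1.1 p.1.2 p.2.2) ≤ τ →
    ∃ P : F → F → F, (∀ s c b, Deg 5 fun a => P (s + a) (c + a * b)) ∧
      pr (fun p : F × F × F => ∃ a, P (p.1 + a) (p.2.1 + a * p.2.2) ≠
        Λ (p.1 + a) (p.2.1 + a * p.2.2) p.2.2) ≤ 50 * τ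

/-- The plane lemma on a coset of `K j`, `j ∈ {1, 2}`; note `-j` is the other index. -/
def RepairStmt : Prop :=
  ∀ (F G : Type) [Field F] [Fintype F] [Group G] [Fintype G] (T : Tri F G), T.OK →
    100 ≤ Fintype.card F → ∀ (j : Fin 3), j ≠ 0 → ∀ (f : G → F) (g : G) (τ : ℝ),
      (∀ g', Deg 5 fun a => f (g' * T.x 0 a)) → 50 * τ ≤ 1 / 4 →
      pr (fun p : T.K j × F => f (g * p.1) ≠ f (g * p.1 * T.x (-j) p.2)) ≤ τ →
      ∃ f' : G → F, (∀ u ∈ T.K j, (∀ a, f' (g * u * T.x (-j) a) = f' (g * u)) ∧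
          Deg 5 fun a => f' (g * u * T.x 0 a)) ∧
        pr (fun u : T.K j => ∃ a, f' (g * u * T.x 0 a) ≠ f (g * u * T.x 0 a)) ≤ 50 * τ

/-- If the two families of plane polynomials disagree on a small nonempty set of lines, then
some plane has many bad lines while its neighbours are nearly consistent on it. -/
def CoreStmt : Prop :=
  ∀ (F G : Type) [Field F] [Fintype F] [Group G] [Fintype G] (T : Tri F G), T.OK →
    10 ^ 14 ≤ Fintype.card F → ∀ f₁ f₂ : G → F, T.Inv 2 f₁ → T.Inv 1 f₂ →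
      (∀ g, Deg 5 fun a => f₁ (g * T.x 0 a)) → (∀ g, Deg 5 fun a => f₂ (g * T.x 0 a)) →
      0 < pr (fun g => ∃ a, f₁ (g * T.x 0 a) ≠ f₂ (g * T.x 0 a)) →
      pr (fun g => ∃ a, f₁ (g * T.x 0 a) ≠ f₂ (g * T.x 0 a)) ≤ 2 / 10 ^ 8 →
      (∃ g, 1 / 64 < pr (fun u : T.K 1 => ∃ a, f₁ (g * u * T.x 0 a) ≠ f₂ (g * u * T.x 0 a)) ∧
        pr (fun p : T.K 1 × F => f₂ (g * p.1) ≠ f₂ (g * p.1 * T.x 2 p.2)) ≤ 1 / 6500) ∨
      (∃ g, 1 / 64 < pr (fun u : T.K 2 => ∃ a, f₁ (g * u * T.x 0 a) ≠ f₂ (g * u * T.x 0 a)) ∧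
        pr (fun p : T.K 2 × F => f₁ (g * p.1) ≠ f₁ (g * p.1 * T.x 1 p.2)) ≤ 1 / 6500)

/-- Local testability. -/
def LTCStmt : Prop :=
  ∀ (F G : Type) [Field F] [Fintype F] [Group G] [Fintype G] (T : Tri F G), T.OK →
    10 ^ 14 ≤ Fintype.card F → ∀ (f : G → F) (ε : ℝ), ε ≤ 1 / 10 ^ 8 →
      pr (fun g => ¬ T.Loc 5 f g) ≤ ε → ∃ f', T.Cw 5 f' ∧ pr (fun g => f g ≠ f' g) ≤ 257 * ε

/-! ### The constraint system -/

/-- Completeness. -/
def CompleteStmt : Prop :=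
  ∀ (F G : Type) [Field F] [Fintype F] [Group G] [Fintype G] (T : Fin 3 → Tri F G),
    (piTri T).OK → ∀ (N : ℕ) (h : G) (o : ℕ) (Φ Ψ : Fin 3 → ℕ → G → F),
      (∀ j, (T j).ThOK N h o (Φ j) (Ψ j)) → ∀ φ : CNF, 3 * φ.length ≤ N → Satisfiable φ →
        ∃ f : (Fin 3 → G) → Tb → F, (∀ t, (piTri T).Cw 5 fun g => f g t) ∧
          ∀ g, okAt φ N T h Φ Ψ f g

/-- Soundness. -/
def SoundStmt : Prop :=
  ∀ (F G : Type) [Field F] [Fintype F] [Group G] [Fintype G] (T : Fin 3 → Tri F G),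
    (piTri T).OK → (∀ j, (T j).OK) → 10 ^ 14 ≤ Fintype.card F →
      ∀ (N : ℕ) (h : G) (o : ℕ) (Φ Ψ : Fin 3 → ℕ → G → F),
      (∀ j, (T j).ThOK N h o (Φ j) (Ψ j)) → ∀ φ : CNF, 3 * φ.length ≤ N →
        ∀ f : (Fin 3 → G) → Tb → F, pr (fun g => ¬ okAt φ N T h Φ Ψ f g) ≤ 1 / 10 ^ 8 →
          Satisfiable φ

/-! ### Fields, the special linear group, theta functions -/

/-- The constant field. -/
def BaseStmt : Prop :=
  ∃ (F : Type) (_ : Field F) (_ : Fintype F), CharP F 2 ∧ 10 ^ 14 ≤ Fintype.card F ∧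
    ∃ ω : F, ∀ b : F, b ^ 3 ≠ ω

/-- The Kummer extensions. -/
def FieldStmt : Prop :=
  ∀ (F : Type) [Field F] [Fintype F] [CharP F 2] (ω : F), (∀ b : F, b ^ 3 ≠ ω) → ∀ s, 1 ≤ s →
    ∃ (K : Type) (_ : Field K) (_ : Fintype K) (_ : Algebra F K) (τ : K), KOK ω (3 ^ s) τ ∧
      (∀ c : F, ConjInj F (3 ^ s) (τ + algebraMap F K c)) ∧
      ∀ c : Fin 3 → F, Function.Injective c → Gen3 F fun j => τ + algebraMap F K (c j)

/-- The root subgroup systems in `SL(3, K)` and in its cube. -/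
def SLStmt : Prop :=
  ∀ (F K : Type) [Field F] [Field K] [Algebra F K] (t : Fin 3 → K), Gen3 F t →
    (piTri fun j => slTri F (t j)).OK ∧ ∀ j, (slTri F (t j)).OK

/-- Theta functions are codewords of level one. -/
def Th1Stmt : Prop :=
  ∀ (F K : Type) [Field F] [Fintype F] [Field K] [Algebra F K] (t : K) (m n : ℕ), 1 ≤ m →
    (slTri F t).Cw 1 (thΦ F t m n) ∧ (slTri F t).Cw 1 (thΨ F t m n)

/-- Theta functions are biorthogonal on the orbits of the torus. -/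
def Th2Stmt : Prop :=
  ∀ (F K : Type) [Field F] [Fintype F] [CharP F 2] [Field K] [Fintype K] [Algebra F K]
    (R : ℕ) (t γ : K) (hγ : γ ≠ 0) (m : ℕ), Module.finrank F K = R → Odd R → ConjInj F R t →
    1 ≤ m → 2 * m < R → 5 ≤ Fintype.card F → orderOf γ = Fintype.card F ^ R - 1 →
    (slTri F t).ThOK (2 ^ m) (torus γ hγ) (Fintype.card F ^ R - 1) (thΦ F t m) (thΨ F t m)

/-- The binary code of the alphabet. -/
def HadStmt : Prop :=
  ∀ (F : Type) [Field F] [Fintype F] [CharP F 2] (s : Fin 9 → F), Function.Injective s →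
    ∃ H : Had (Tb → F) (Tb → F) ((Tb → F) × (Tb → F)), H.OK ∧
      ∀ φ : F → Tb → F, (∀ t, Deg 5 fun a => φ a t) → ∀ β₀ β₁ d,
        H.even d fun i => φ (β₀ + β₁ * s i)

/-! ### The gadget -/

/-- Honest cuts. -/
def GadYesStmt : Prop :=
  ∀ (X D E M A D' : Type) [Fintype D] [Fintype E] [Fintype A] [Fintype D'] [Nonempty D]
    (H : Had M A D'), H.OK → 2 ≤ Fintype.card (E × A) → ∀ am ak W : ℕ, 0 < am → 0 < W →
    ∀ (S : SG X D E M) (lam C : ℝ), S.WF lam →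
      WWF (gad am ak W H S) ∧ (S.Yes H → (WSC (Bv X D E A D') C).yes (gad am ak W H S))

/-- All cuts. -/
def GadNoStmt : Prop :=
  ∀ (X D E M A D' : Type) [Fintype D] [Fintype E] [Fintype A] [Fintype D'] [Nonempty D]
    (H : Had M A D'), H.OK → 2 ≤ Fintype.card (E × A) → ∀ ε : ℝ, 0 < ε →
    ∃ (am ak W : ℕ) (C : ℝ), 0 < am ∧ 0 < W ∧ 1 < C ∧ ∀ S : SG X D E M, S.WF (1 / 72) →
      WWF (gad am ak W H S) → S.No ε → (WSC (Bv X D E A D') C).no (gad am ak W H S)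

/-- The gadget is computable in polynomial time. -/
def GadPTStmt : Prop :=
  ∀ (X D E M A D' : Type) [Fintype D] [Fintype E] [Fintype M] [Fintype A] [Fintype D']
    [Enc X] [Enc D] [Enc A] [Enc D'] [EncInj D] [EncInj A] [EncInj D'] (H : Had M A D')
    (am ak W : ℕ) (Fm : CNF → SG X D E M), SG.IsPT Fm → PT ∅ fun φ => gad am ak W H (Fm φ)

/-- Vertex masses are simulated by heavy stars. -/
def BlowStmt : Prop :=
  ∀ (B : Type) [Enc B] [EncInj B] (C : ℝ), 0 ≤ C → Red (WSC B C) (USC C)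

/-- From the library to the textbook statement. -/
def BridgeStmt : Prop :=
  ∀ C : ℝ, 1 < C → Hard (USC C) → ∃ C' : ℝ, 1 < C' ∧ GapNPHard C' ∧
    (HasApprox C' → ∀ L, Vale.Agent.Lib.NP.InNP L → Vale.Agent.Lib.NP.InP L)

/-! ### Codes -/

/-- The arithmetic on codes is correct. -/
structure KSpec {F K : Type} [Field F] [Fintype F] [Field K] [Algebra F K] (ω : F) (R : ℕ)
    (τ : K) : Prop where
  add : ∀ {x y a b}, Rep R τ x a → Rep R τ y b → Rep (F := F) R τ (kadd x y) (a + b)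
  smul : ∀ {x a} (c : F), Rep R τ x a → Rep R τ (ksmul c x) (algebraMap F K c * a)
  mul : ∀ {x y a b}, Rep R τ x a → Rep R τ y b → Rep R τ (kmul ω x y) (a * b)
  const : ∀ c : F, Rep R τ (kconst R c) (algebraMap F K c)
  tau : ∀ c : F, Rep R τ (ktau R c) (τ + algebraMap F K c)
  pow : ∀ {x a} (e : ℕ), Rep R τ x a → Rep R τ (kpow ω R x e) (a ^ e)
  frob : ∀ {x a} (k : ℕ), Rep R τ x a → Rep R τ (kfrob ω R x k) (a ^ Fintype.card F ^ k)
  sum : ∀ {β : Type} (L : List β) (f : β → List F) (g : β → K), (∀ i ∈ L, Rep R τ (f i) (g i)) →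
    Rep R τ (ksum R (L.map f)) (L.map g).sum
  prod : ∀ {β : Type} (L : List β) (f : β → List F) (g : β → K), (∀ i ∈ L, Rep R τ (f i) (g i)) →
    Rep R τ (kprod ω R (L.map f)) (L.map g).prod
  inv : ∀ {x a}, Rep R τ x a → Rep R τ (kinv ω R x) a⁻¹
  gen : ∃ γ : K, γ ≠ 0 ∧ orderOf γ = Fintype.card F ^ R - 1 ∧ Rep R τ (kgen ω R) γ
  tr : ∀ {x a}, Rep R τ x a → ktr ω R x = Algebra.trace F K a
  nodup : (allK F R).Nodup
  mem : ∀ l, l ∈ allK F R ↔ l.length = R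
  uniq : ∀ {x y : List F} {a}, Rep R τ x a → Rep R τ y a → x = y
  ex : ∀ a, ∃ x : List F, Rep R τ x a

/-- Correctness of the field arithmetic. -/
def KSpecStmt : Prop :=
  ∀ (F K : Type) [Field F] [Fintype F] [Field K] [Fintype K] [Algebra F K] (ω : F) (R : ℕ)
    (τ : K), 2 ≤ R → KOK ω R τ → KSpec ω R τ

/-- The parameter `R` is computable and `q ^ R` is polynomially bounded. -/
def PR (F : Type) [Fintype F] {α : Type} [Enc α] (R : α → ℕ) : Prop :=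
  PT ∅ R ∧ PBd R ∧ PBd fun a => Fintype.card F ^ R a

/-- The arithmetic on codes runs in polynomial time. -/
structure KPT {F : Type} [Field F] [Fintype F] [Enc F] (ω : F) : Prop where
  add : ∀ {α : Type} [Enc α] {x y : α → List F}, PT ∅ x → PT ∅ y → PT ∅ fun a => kadd (x a) (y a)
  smul : ∀ {α : Type} [Enc α] {c : α → F} {x : α → List F}, PT ∅ c → PT ∅ x →
    PT ∅ fun a => ksmul (c a) (x a)
  mul : ∀ {α : Type} [Enc α] {x y : α → List F}, PT ∅ x → PT ∅ y →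
    PT ∅ fun a => kmul ω (x a) (y a)
  const : ∀ {α : Type} [Enc α] {R : α → ℕ} {c : α → F}, PR F R → PT ∅ c →
    PT ∅ fun a => kconst (R a) (c a)
  tau : ∀ {α : Type} [Enc α] {R : α → ℕ} {c : α → F}, PR F R → PT ∅ c →
    PT ∅ fun a => ktau (R a) (c a)
  pow : ∀ {α : Type} [Enc α] {R e : α → ℕ} {x : α → List F}, PR F R → PT ∅ x → PT ∅ e → PBd e →
    PT ∅ fun a => kpow ω (R a) (x a) (e a)
  frob : ∀ {α : Type} [Enc α] {R k : α → ℕ} {x : α → List F}, PR F R → PT ∅ x → PT ∅ k → PBd k →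
    PT ∅ fun a => kfrob ω (R a) (x a) (k a)
  sum : ∀ {α : Type} [Enc α] {R : α → ℕ} {l : α → List (List F)}, PR F R → PT ∅ l →
    PT ∅ fun a => ksum (R a) (l a)
  prod : ∀ {α : Type} [Enc α] {R : α → ℕ} {l : α → List (List F)}, PR F R → PT ∅ l →
    PT ∅ fun a => kprod ω (R a) (l a)
  all : ∀ {α : Type} [Enc α] {R : α → ℕ}, PR F R → PT ∅ fun a => allK F (R a)
  inv : ∀ {α : Type} [Enc α] {R : α → ℕ} {x : α → List F}, PR F R → PT ∅ x →
    PT ∅ fun a => kinv ω (R a) (x a)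
  gen : ∀ {α : Type} [Enc α] {R : α → ℕ}, PR F R → PT ∅ fun a => kgen ω (R a)
  tr : ∀ {α : Type} [Enc α] {R : α → ℕ} {x : α → List F}, PR F R → PT ∅ x →
    PT ∅ fun a => ktr ω (R a) (x a)
  fsum : ∀ {α : Type} [Enc α] {l : α → List F}, PT ∅ l → PT ∅ fun a => (l a).sum

/-- Polynomial time of the field arithmetic. -/
def KPTStmt : Prop :=
  ∀ (F : Type) [Field F] [Fintype F] [Enc F] [EncInj F] (ω : F), KPT ω

/-- The matrix arithmetic on codes is correct. -/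
structure GSpec {F K : Type} [Field F] [Fintype F] [Field K] [Algebra F K] (ω : F) (R : ℕ)
    (τ γ : K) (hγ : γ ≠ 0) (c : Fin 3 → F) : Prop where
  one : MRep R τ (mone R : MC F) 1
  mul : ∀ {x y g g'}, XRep R τ x g → XRep R τ y g' → XRep R τ (xmul ω x y) (g * g')
  nodup : (allX ω R).Nodup
  mem : ∀ x, x ∈ allX ω R ↔ ∃ g, XRep R τ x g
  uniq : ∀ {x y : XC F} {g}, XRep R τ x g → XRep R τ y g → x = y
  uniq' : ∀ {x : XC F} {g g'}, XRep R τ x g → XRep R τ x g' → g = g'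
  ex : ∀ g, ∃ x : XC F, XRep R τ x g
  nbL : ∀ e, XRep R τ (nbLc ω R c e)
    (nbL (fun j => slTri F (τ + algebraMap F K (c j))) (torus γ hγ) e)
  nbR : ∀ e, XRep R τ (nbRc ω R c e) (nbR (fun j => slTri F (τ + algebraMap F K (c j))) e)
  mvR : ∀ s d i, XRep R τ (mvRc ω R c s d i)
    ((piTri fun j => slTri F (τ + algebraMap F K (c j))).mvR s d i)

/-- Correctness of the matrix arithmetic. -/
def GSpecStmt : Prop :=
  ∀ (F K : Type) [Field F] [Fintype F] [CharP F 2] [Field K] [Algebra F K] (ω : F) (R : ℕ)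
    (τ γ : K) (hγ : γ ≠ 0) (c : Fin 3 → F), KSpec ω R τ → Rep R τ (kgen ω R) γ →
    GSpec ω R τ γ hγ c

/-- The parameters. -/
def ParStmt : Prop :=
  (∀ φ : CNF, 3 * φ.length ≤ 2 ^ parM φ ∧ 1 ≤ parM φ ∧ 1 ≤ parS φ ∧ 2 * parM φ < parR φ) ∧
    PT ∅ parM ∧ PBd parM ∧ (PBd fun φ => 2 ^ (3 * parM φ)) ∧
    ∀ (F : Type) [Fintype F], PR F parR

/-- Polynomial time of the matrix arithmetic. -/
def GPTStmt : Prop :=
  ∀ (F : Type) [Field F] [Fintype F] [Enc F] [EncInj F] (ω : F) (c : Fin 3 → F) (s : Fin 9 → F),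
    KPT ω → PR F parR → PT ∅ (fun φ => allX ω (parR φ)) ∧
      (∀ d i, PT ∅ fun p : CNF × XC F => (fam ω c s p.1).mv d i p.2) ∧
      ∀ e, PT ∅ fun p : CNF × XC F => (fam ω c s p.1).nb e p.2

/-- Correctness of the theta functions on codes (formula of Ryser). -/
def ThSpecStmt : Prop :=
  ∀ (F K : Type) [Field F] [Fintype F] [CharP F 2] [Field K] [Algebra F K] (ω : F) (R : ℕ)
    (τ : K), KSpec ω R τ → MRep R τ (mone R : MC F) 1 → ∀ (c : F) (m n : ℕ) (x : MC F)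
    (g : SL3 K), MRep R τ x g →
      thΦc ω R c m n x = thΦ F (τ + algebraMap F K c) m n g ∧
      thΨc ω R c m n x = thΨ F (τ + algebraMap F K c) m n g

/-- Polynomial time of the coefficients. -/
def ThPTStmt : Prop :=
  ∀ (F : Type) [Field F] [Fintype F] [Enc F] [EncInj F] (ω : F) (c : Fin 3 → F),
    KPT ω → ParStmt → PT ∅ fun p : CNF × XC F => cfc ω c p.1 p.2

/-- The family of constraint systems is well formed, complete and sound. -/
def FamStmt : Prop :=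
  ∀ (F : Type) [Field F] [Fintype F] [CharP F 2] (ω : F), (∀ b : F, b ^ 3 ≠ ω) →
    10 ^ 14 ≤ Fintype.card F → ∀ (c : Fin 3 → F) (s : Fin 9 → F), Function.Injective c →
    Function.Injective s → ∀ H : Had (Tb → F) (Tb → F) ((Tb → F) × (Tb → F)),
    (∀ φ : F → Tb → F, (∀ t, Deg 5 fun a => φ a t) → ∀ β₀ β₁ d,
      H.even d fun i => φ (β₀ + β₁ * s i)) →
    ∀ φ : CNF, (fam ω c s φ).WF (1 / 72) ∧ (Satisfiable φ → (fam ω c s φ).Yes H) ∧
      (¬ Satisfiable φ → (fam ω c s φ).No (1 / 10 ^ 8))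

/-- The theorem. -/
def FinalStmt : Prop :=
  ∃ C : ℝ, 1 < C ∧ GapNPHard C ∧
    (HasApprox C → ∀ L, Vale.Agent.Lib.NP.InNP L → Vale.Agent.Lib.NP.InP L)

end Vale.Agent.P318.Q
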