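import Mathlib.Algebra.Order.BigOperators.Expect
import Vale.Agent.P318.Q.Stmt

/-! The core of the local testability argument. -/

set_option linter.unusedSectionVars false

namespace Vale.Agent.P318.Q

open Finset
open scoped BigOperators Classical

namespace CoreP

/-- Indicator. -/
noncomputable def I (P : Prop) : ℝ := if P then 1 else 0

section ind

variable {P Q R : Prop}

theorem I_pos (h : P) : I P = 1 := if_pos h

theorem I_neg (h : ¬P) : I P = 0 := if_neg h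

theorem I_nonneg (P : Prop) : 0 ≤ I P := by unfold I; split_ifs <;> norm_num

theorem I_sq (P : Prop) : I P ^ 2 = I P := by unfold I; split_ifs <;> norm_num

theorem I_not (P : Prop) : I (¬P) = 1 - I P := by
  by_cases h : P <;> simp [I, h]

theorem I_or (h : P → Q ∨ R) : I P ≤ I Q + I R := by
  have h1 := I_nonneg Q
  have h2 := I_nonneg R
  by_cases e : P
  · rcases h e with e' | e' <;> rw [I_pos e, I_pos e'] <;> linarith
  · rw [I_neg e]; linarith

end ind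

section gen

variable {S : Type} [Fintype S] {P Q R : S → Prop}

theorem pr_eq (P : S → Prop) : pr P = 𝔼 s, I (P s) := rfl

theorem pr_nonneg (P : S → Prop) : 0 ≤ pr P := expect_nonneg fun s _ => I_nonneg (P s)

theorem pr_or (h : ∀ s, P s → Q s ∨ R s) : pr P ≤ pr Q + pr R := by
  rw [pr_eq, pr_eq, pr_eq, ← expect_add_distrib]
  exact expect_le_expect fun s _ => I_or (h s)

theorem pr_false (h : ∀ s, ¬P s) : pr P = 0 := by
  rw [pr_eq, expect_congr rfl fun s _ => I_neg (h s), expect_const_zero]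

theorem pr_mono (h : ∀ s, P s → Q s) : pr P ≤ pr Q :=
  (pr_or (R := fun _ => False) fun s e => Or.inl (h s e)).trans_eq
    (by rw [pr_false fun _ => not_false, add_zero])

theorem pr_not [Nonempty S] (P : S → Prop) : pr (fun s => ¬P s) = 1 - pr P := by
  simp only [pr_eq, I_not, expect_sub_distrib, Fintype.expect_const]

theorem markov {h : S → ℝ} {c : ℝ} (h0 : ∀ s, 0 ≤ h s) (H : ∀ s, P s → c ≤ h s) :
    c * pr P ≤ 𝔼 s, h s := by
  rw [pr_eq, mul_expect]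
  refine expect_le_expect fun s _ => ?_
  by_cases e : P s
  · rw [I_pos e, mul_one]; exact H s e
  · rw [I_neg e, mul_zero]; exact h0 s

theorem cheb {h : S → ℝ} {c : ℝ} (hc : 0 ≤ c) (H : ∀ s, P s → c ≤ h s) :
    c ^ 2 * pr P ≤ 𝔼 s, h s ^ 2 :=
  markov (fun _ => sq_nonneg _) fun s e => pow_le_pow_left₀ hc (H s e) 2

theorem var_le [Nonempty S] (P : S → Prop) : 𝔼 s, (I (P s) - pr P) ^ 2 ≤ pr P := by
  have h : ∀ s, (I (P s) - pr P) ^ 2 = (1 - 2 * pr P) * I (P s) + pr P ^ 2 := fun s => by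
    rw [sub_sq, I_sq]; ring
  simp only [h, expect_add_distrib, ← mul_expect, Fintype.expect_const, ← pr_eq]
  nlinarith [sq_nonneg (pr P)]

end gen

variable {F G : Type} [Field F] [Fintype F] [Group G] [Fintype G] {T : Tri F G}

theorem E_av {S : Type} [Fintype S] [Nonempty S] (m : S → G) (φ : G → ℝ) :
    𝔼 g, 𝔼 s, φ (g * m s) = 𝔼 g, φ g := by
  have h : ∀ s, 𝔼 g, φ (g * m s) = 𝔼 g, φ g := fun s =>
    Fintype.expect_equiv (Equiv.mulRight (m s)) _ φ fun _ => rfl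
  rw [expect_comm]
  simp only [h, Fintype.expect_const]

theorem E_pr {S : Type} [Fintype S] [Nonempty S] (m : S → G) (P : G → Prop) :
    𝔼 g, pr (fun s => P (g * m s)) = pr P := E_av m fun g => I (P g)

variable (T) in
/-- Probability on a coset of a Heisenberg group. -/
noncomputable abbrev pK (i : Fin 3) (P : G → Prop) (g : G) : ℝ := pr fun u : T.K i => P (g * u)

variable (T) in
/-- Probability on a coset of a root subgroup. -/
noncomputable abbrev pX (i : Fin 3) (P : G → Prop) (g : G) : ℝ := pr fun a : F => P (g * T.x i a)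

omit [Fintype F] [Fintype G] in
theorem mem_K {a i : Fin 3} (h : a ≠ i) (c : F) : T.x a c ∈ T.K i := by
  rcases (show a = i + 1 ∨ a = i + 2 by revert a i; decide) with rfl | rfl
  · exact Subgroup.subset_closure (Or.inl ⟨c, rfl⟩)
  · exact Subgroup.subset_closure (Or.inr ⟨c, rfl⟩)

omit [Fintype F] in
theorem invK_pK (i : Fin 3) (P : G → Prop) : T.InvK i (pK T i P) := fun g u hu =>
  Fintype.expect_equiv (Equiv.mulLeft (⟨u, hu⟩ : T.K i)) _ _ fun v =>
    congrArg (fun y => I (P y)) (mul_assoc g u v)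

theorem K_X {a i : Fin 3} (h : a ≠ i) (φ : G → ℝ) (g : G) :
    𝔼 u : T.K i, 𝔼 c, φ (g * u * T.x a c) = 𝔼 u : T.K i, φ (g * u) := by
  simp only [mul_assoc]
  exact E_av (G := T.K i) (fun c => ⟨T.x a c, mem_K h c⟩) fun u => φ (g * u)

variable (hT : T.OK) (hq : 10 ^ 14 ≤ Fintype.card F)
include hq

theorem q_le {x : ℝ} (c : ℝ) (hc : 0 ≤ c) (hx : 0 ≤ x) :
    c / (Fintype.card F : ℝ) * x ≤ c * x / 10 ^ 14 := by
  rw [div_mul_eq_mul_div]
  exact div_le_div_of_nonneg_left (mul_nonneg hc hx) (by norm_num) (by exact_mod_cast hq)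

omit [Fintype G] in
theorem line {φ ψ : F → F} (h1 : Deg 5 φ) (h2 : Deg 5 ψ) (h : ∃ a, φ a ≠ ψ a) :
    1 / 2 ≤ pr fun a => φ a ≠ ψ a := by
  obtain ⟨p, hp, e1⟩ := h1
  obtain ⟨p', hp', e2⟩ := h2
  obtain ⟨a, ha⟩ := h
  have h0 : p - p' ≠ 0 := fun e => ha (by rw [e1, e2, sub_eq_zero.1 e])
  have h3 : (univ.filter fun a => φ a = ψ a).card ≤ 5 := by
    refine le_trans (card_le_card fun a ha => ?_) ((Multiset.toFinset_card_le _).trans
      ((Polynomial.card_roots' (p - p')).trans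
        ((Polynomial.natDegree_sub_le _ _).trans (max_le hp hp'))))
    rw [Multiset.mem_toFinset, Polynomial.mem_roots h0, Polynomial.IsRoot, Polynomial.eval_sub,
      ← e1, ← e2, (mem_filter.1 ha).2, sub_self]
  have h4 : pr (fun a => φ a = ψ a) ≤ 5 / (Fintype.card F : ℝ) * 1 := by
    rw [pr, expect_eq_sum_div_card, sum_boole, mul_one, card_univ]
    refine div_le_div_of_nonneg_right ?_ (Nat.cast_nonneg _)
    exact_mod_cast (by convert h3)
  have := q_le hq 5 (by norm_num) zero_le_one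
  rw [pr_not fun a => φ a = ψ a]
  linarith

include hT

theorem loc (hL : SpecLocStmt) {i a b : Fin 3} (h1 : a ≠ i) (h2 : b ≠ i) (h3 : a ≠ b)
    {P : G → Prop} (hP : T.Inv a P) (g : G) :
    𝔼 u : T.K i, (pX T b P (g * u) - pK T i P g) ^ 2 ≤ pK T i P g / 10 ^ 14 := by
  have hf : T.Inv a fun y => I (P y) := fun g c => congrArg I (hP g c)
  have h4 := hL F G T hT i (fun y => I (P y)) g
  have h5 : 𝔼 u : T.K i, (pX T b P (g * u) - pK T i P g) ^ 2 ≤ 1 / (Fintype.card F : ℝ) *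
      𝔼 u : T.K i, (I (P (g * u)) - pK T i P g) ^ 2 := by
    rcases (by decide : ∀ i a b : Fin 3, a ≠ i → b ≠ i → a ≠ b →
      a = i + 1 ∧ b = i + 2 ∨ a = i + 2 ∧ b = i + 1) i a b h1 h2 h3 with ⟨rfl, rfl⟩ | ⟨rfl, rfl⟩
    exacts [h4.1 hf, h4.2 hf]
  have h6 := q_le hq 1 zero_le_one
    (expect_nonneg (s := univ) fun (u : T.K i) _ => sq_nonneg (I (P (g * u)) - pK T i P g))
  have h7 := var_le fun u : T.K i => P (g * u)
  linarith

theorem sq_loc (hL : SpecLocStmt) {i a b : Fin 3} (h1 : a ≠ i) (h2 : b ≠ i) (h3 : a ≠ b)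
    {P : G → Prop} (hP : T.Inv a P) :
    𝔼 g, (pX T b P g - pK T i P g) ^ 2 ≤ pr P / 10 ^ 14 := by
  rw [← E_av (fun u : T.K i => (u : G)), ← E_pr (fun u : T.K i => (u : G)) P, expect_div]
  refine expect_le_expect fun g _ => le_trans (le_of_eq ?_) (loc hT hq hL h1 h2 h3 hP g)
  exact expect_congr rfl fun u _ => by rw [invK_pK i P g u u.2]

theorem sq_glob (hG : SpecGlobStmt) {i j : Fin 3} (h : i ≠ j) {P : G → Prop} (hP : T.InvK i P) :
    𝔼 g, (pK T j P g - pr P) ^ 2 ≤ 4 * pr P / 10 ^ 14 := by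
  have h4 : 𝔼 g, (pK T j P g - pr P) ^ 2 ≤
      4 / (Fintype.card F : ℝ) * 𝔼 g, (I (P g) - pr P) ^ 2 :=
    hG F G T hT (le_trans (by norm_num) hq) i j h (fun y => I (P y))
      fun g u hu => congrArg I (hP g u hu)
  have h6 := q_le hq 4 (by norm_num)
    (expect_nonneg (s := univ) fun g _ => sq_nonneg (I (P g) - pr P))
  have h7 := var_le P
  linarith

/-- the majority value on a point -/
theorem exists_val (hL : SpecLocStmt) {f₁ f₂ : G → F} (h1 : T.Inv 2 f₁) (h2 : T.Inv 1 f₂) {g : G}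
    (hg : pK T 0 (fun y => f₁ y ≠ f₂ y) g ≤ 1 / 16) :
    ∃ v, pK T 0 (fun y => f₁ y ≠ v) g ≤ 1 / 4 ∧ pK T 0 (fun y => f₂ y ≠ v) g ≤ 1 / 4 := by
  obtain ⟨v, hv⟩ := Finite.exists_max fun v => pK T 0 (fun y => f₁ y = v) g
  have hs : ∀ f : G → F, ∑ w, pK T 0 (fun y => f y = w) g = 1 := fun f => by
    simp only [pr, ← expect_sum_comm]
    rw [expect_congr rfl fun u _ => ?_, Fintype.expect_const]
    simp
  have hs' : ∑ w, pK T 0 (fun y => f₁ y = w ∧ f₂ y = w) g = pK T 0 (fun y => f₁ y = f₂ y) g := by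
    simp only [pr, ← expect_sum_comm]
    refine expect_congr rfl fun u _ => ?_
    refine (sum_eq_single (f₂ (g * u)) (fun w _ hw => if_neg fun e => hw e.2.symm)
      (by simp)).trans ?_
    simp
  have key : ∀ w, pK T 0 (fun y => f₁ y = w ∧ f₂ y = w) g ≤
      (pK T 0 (fun y => f₁ y = v) g + 1 / 32) * pK T 0 (fun y => f₂ y = w) g +
        8 / 10 ^ 14 * pK T 0 (fun y => f₁ y = w) g := fun w => by
    have h3 := loc hT hq hL (i := 0) (a := 2) (b := 1) (by decide) (by decide) (by decide)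
      (P := fun y => f₁ y = w) (fun y c => congrArg (· = w) (h1 y c)) g
    have h4 : pK T 0 (fun y => f₁ y = w ∧ f₂ y = w) g ≤
        (pK T 0 (fun y => f₁ y = v) g + 1 / 32) * pK T 0 (fun y => f₂ y = w) g + 8 *
        𝔼 u : T.K 0, (pX T 1 (fun y => f₁ y = w) (g * u) - pK T 0 (fun y => f₁ y = w) g) ^ 2 := by
      rw [pK, pr_eq, ← K_X (a := 1) (by decide) fun y => I (f₁ y = w ∧ f₂ y = w),
        show pK T 0 (fun y => f₂ y = w) g = _ from pr_eq _, mul_expect, mul_expect,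
        ← expect_add_distrib]
      refine expect_le_expect fun u _ => ?_
      by_cases e : f₂ (g * u) = w
      · have h5 : 𝔼 c, I (f₁ (g * u * T.x 1 c) = w ∧ f₂ (g * u * T.x 1 c) = w) ≤
            pX T 1 (fun y => f₁ y = w) (g * u) := pr_mono fun _ e => e.1
        rw [I_pos e]
        nlinarith [hv w, sq_nonneg
          (pX T 1 (fun y => f₁ y = w) (g * u) - pK T 0 (fun y => f₁ y = w) g - 1 / 16)]
      · have h5 : 𝔼 c, I (f₁ (g * u * T.x 1 c) = w ∧ f₂ (g * u * T.x 1 c) = w) = 0 :=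
          pr_false fun c e' => e (h2 _ c ▸ e'.2)
        rw [h5, I_neg e, mul_zero, zero_add]
        positivity
    linarith
  have h6 := sum_le_sum fun w (_ : w ∈ univ) => key w
  rw [hs', sum_add_distrib, ← mul_sum, ← mul_sum, hs, hs] at h6
  have h7 := pr_not fun u : T.K 0 => f₁ (g * u) = f₂ (g * u)
  have h8 := pr_not fun u : T.K 0 => f₁ (g * u) = v
  have h9 : pK T 0 (fun y => f₂ y ≠ v) g ≤
      pK T 0 (fun y => f₁ y ≠ v) g + pK T 0 (fun y => f₁ y ≠ f₂ y) g :=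
    pr_or fun u e => by
      by_contra h
      rw [not_or, not_not, not_not] at h
      exact e (h.2.symm.trans h.1)
  exact ⟨v, by linarith, by linarith⟩

/-- few lines off the bad planes have many bad neighbours -/
theorem heavy (hL : SpecLocStmt) {a b : Fin 3} (ha : a ≠ 0) (hb : b ≠ 0) (hab : a ≠ b)
    {D : G → Prop} (hD : T.Inv 0 D) :
    pr (fun g => ¬1 / 64 < pK T a D g ∧ 1 / 32 ≤ pX T b D g) ≤ 4096 * pr D / 10 ^ 14 := by
  have h1 := sq_loc hT hq hL ha.symm hab.symm hb.symm hD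
  have h2 := cheb (P := fun g => ¬1 / 64 < pK T a D g ∧ 1 / 32 ≤ pX T b D g)
    (h := fun g => pX T b D g - pK T a D g) (c := 1 / 64) (by norm_num) fun g e => by
      linarith [not_lt.1 e.1, e.2]
  linarith

/-- off the bad planes and the bad points the majority value is taken almost always -/
theorem half (hL : SpecLocStmt) {a b : Fin 3} (ha : a ≠ 0) (hb : b ≠ 0) (hab : a ≠ b)
    {D B : G → Prop} (hD : T.Inv 0 D) (hB : T.InvK 0 B) {f₁ f₂ π : G → F} (h1 : T.Inv b f₁)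
    (h2 : T.Inv a f₂) (hπ : T.InvK 0 π) (hne : ∀ g, f₁ g ≠ f₂ g → D g)
    (hm : ∀ g, ¬B g → pK T 0 (fun y => f₂ y ≠ π y) g ≤ 1 / 4) :
    pr (fun g => (f₁ g ≠ π g ∧ ¬B g) ∧ ¬1 / 64 < pK T a D g) ≤
      4096 * pr D / 10 ^ 14 + 4 * pr (fun g => f₂ g ≠ π g ∧ ¬B g) / 10 ^ 14 := by
  have h3 := heavy hT hq hL ha hb hab hD
  have h4 := sq_loc hT hq hL ha hb hab (P := fun g => f₂ g ≠ π g ∧ ¬B g) fun g c => by
    beta_reduce
    rw [h2, hπ _ _ (mem_K ha c), hB _ _ (mem_K ha c)]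
  have h5 := cheb (P := fun g => (f₁ g ≠ π g ∧ ¬B g) ∧ pX T b D g < 1 / 32)
    (h := fun g => pX T b (fun g => f₂ g ≠ π g ∧ ¬B g) g - pK T 0 (fun g => f₂ g ≠ π g ∧ ¬B g) g)
    (c := 1 / 2) (by norm_num) fun g e => by
      have k1 : pK T 0 (fun g => f₂ g ≠ π g ∧ ¬B g) g ≤ 1 / 4 :=
        (pr_mono fun _ e => e.1).trans (hm g e.1.2)
      have k2 : pr (fun c => ¬D (g * T.x b c)) ≤ pX T b (fun g => f₂ g ≠ π g ∧ ¬B g) g :=
        pr_mono fun c hc => by
          beta_reduce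
          rw [← not_not.1 (mt (hne _) hc), h1, hπ _ _ (mem_K hb c), hB _ _ (mem_K hb c)]
          exact e.1
      rw [pr_not] at k2
      linarith [e.2]
  have h6 := pr_or (P := fun g => (f₁ g ≠ π g ∧ ¬B g) ∧ ¬1 / 64 < pK T a D g)
    (Q := fun g => ¬1 / 64 < pK T a D g ∧ 1 / 32 ≤ pX T b D g)
    (R := fun g => (f₁ g ≠ π g ∧ ¬B g) ∧ pX T b D g < 1 / 32) fun g e =>
      (le_or_gt _ _).imp (fun h => ⟨e.2, h⟩) fun h => ⟨e.1, h⟩
  linarith

/-- a bad plane on which the neighbours are nearly consistent -/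
theorem fin (hG : SpecGlobStmt) {a b : Fin 3} (hb : b ≠ 0) (hab : a ≠ b) {A B : G → Prop}
    (hA : T.InvK a A) (hB : T.InvK b B) {f π : G → F} (hπ : T.InvK 0 π) (h1 : pr B ≤ pr A)
    (h2 : pr B ≤ 128 / 10 ^ 8) (h3 : 0 < pr A)
    (h4 : pr (fun g => f g ≠ π g ∧ ¬B g) ≤ pr A / 10 ^ 6) :
    ∃ g, A g ∧ pr (fun p : T.K a × F => f (g * p.1) ≠ f (g * p.1 * T.x b p.2)) ≤ 1 / 6500 := by
  have h5 := sq_glob hT hq hG hab.symm hB
  have h6 : pr (fun g => A g ∧ B g) ≤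
      7 / 10 ^ 6 * pr A + 50000 * 𝔼 g, (pK T a B g - pr B) ^ 2 := by
    rw [← E_pr (fun u : T.K a => (u : G)), pr_eq A, mul_expect, mul_expect, ← expect_add_distrib]
    refine expect_le_expect fun g _ => ?_
    by_cases e : A g
    · have k1 : pr (fun u : T.K a => A (g * u) ∧ B (g * u)) ≤ pK T a B g := pr_mono fun _ e => e.2
      rw [I_pos e]
      nlinarith [sq_nonneg (pK T a B g - pr B - 1 / 10 ^ 5)]
    · rw [pr_false fun (u : T.K a) e' => e (hA g u u.2 ▸ e'.1), I_neg e]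
      positivity
  have h7 := pr_or (P := fun g => A g ∧ f g ≠ π g) (Q := fun g => A g ∧ B g)
    (R := fun g => f g ≠ π g ∧ ¬B g) fun g e =>
      (em (B g)).imp (fun h => ⟨e.1, h⟩) fun h => ⟨e.2, h⟩
  by_contra hc
  have h8 := markov (P := A) (c := 1 / 6500)
    (h := fun g => pr (fun p : T.K a × F => A (g * p.1) ∧ f (g * p.1) ≠ π (g * p.1)) +
      pr fun p : T.K a × F => A (g * (p.1 * T.x b p.2)) ∧
        f (g * (p.1 * T.x b p.2)) ≠ π (g * (p.1 * T.x b p.2)))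
    (fun g => add_nonneg (pr_nonneg _) (pr_nonneg _)) fun g e =>
      (not_le.1 fun h => hc ⟨g, e, h⟩).le.trans (pr_or fun p e' => by
        rw [hA g _ p.1.2, hA g _ (mul_mem p.1.2 (mem_K hab.symm _)), ← mul_assoc,
          hπ _ _ (mem_K hb _)]
        by_contra h
        rw [not_or, not_and, not_and, not_not, not_not] at h
        exact e' ((h.1 e).trans (h.2 e).symm))
  rw [expect_add_distrib, E_pr (fun p : T.K a × F => (p.1 : G)) fun g => A g ∧ f g ≠ π g,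
    E_pr (fun p : T.K a × F => p.1 * T.x b p.2) fun g => A g ∧ f g ≠ π g] at h8
  linarith

/-- few points lie on many bad lines -/
theorem bad (hL : SpecLocStmt) (hG : SpecGlobStmt) {D : G → Prop} (hD : T.Inv 0 D)
    (hd : pr D ≤ 2 / 10 ^ 8) (hb : pr (fun g => 1 / 64 < pK T 1 D g) ≤ 64 * pr D) :
    pr (fun g => 1 / 16 < pK T 0 D g) ≤ 2 ^ 23 * pr D / 10 ^ 14 := by
  have k1 := heavy hT hq hL (a := 1) (b := 2) (by decide) (by decide) (by decide) hD
  have k2 := sq_glob hT hq hG (i := 1) (j := 0) (by decide) (P := fun g => 1 / 64 < pK T 1 D g)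
    fun g u hu => congrArg (1 / 64 < ·) (invK_pK 1 D g u hu)
  have k7 : ∀ g, pK T 0 (fun g => 1 / 32 ≤ pX T 2 D g) g ≤
      pK T 0 (fun g => 1 / 64 < pK T 1 D g) g +
        pK T 0 (fun g => ¬1 / 64 < pK T 1 D g ∧ 1 / 32 ≤ pX T 2 D g) g := fun g =>
    pr_or fun u e => (em _).imp id fun h => ⟨h, e⟩
  generalize (fun g => ¬1 / 64 < pK T 1 D g ∧ 1 / 32 ≤ pX T 2 D g) = H at k1 k7
  generalize (fun g => 1 / 64 < pK T 1 D g) = B at hb k2 k7
  have k3 := cheb (P := fun g => 1 / 64 ≤ pK T 0 B g) (h := fun g => pK T 0 B g - pr B)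
    (c := 1 / 128) (by norm_num) fun g e => by linarith
  have k4 : 1 / 64 * pr (fun g => 1 / 64 ≤ pK T 0 H g) ≤ pr H :=
    (markov (h := pK T 0 H) (fun _ => pr_nonneg _) fun _ e => e).trans_eq
      (E_pr (fun u : T.K 0 => (u : G)) H)
  have k5 := pr_or (P := fun g => 1 / 16 < pK T 0 D g) (Q := fun g => 1 / 64 ≤ pK T 0 B g)
    (R := fun g => 1 / 64 ≤ pK T 0 H g) fun g e => by
      have k6 : pK T 0 D g ≤ 1 / 32 + pK T 0 (fun g => 1 / 32 ≤ pX T 2 D g) g := by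
        have k8 : 𝔼 u : T.K 0, pX T 2 D (g * u) ≤
            𝔼 u : T.K 0, (1 / 32 + I (1 / 32 ≤ pX T 2 D (g * u))) := by
          refine expect_le_expect fun u _ => ?_
          by_cases e' : 1 / 32 ≤ pX T 2 D (g * u)
          · have k9 := pr_not fun c => D (g * u * T.x 2 c)
            have k8 := pr_nonneg fun c => ¬D (g * u * T.x 2 c)
            rw [I_pos e']
            linarith
          · rw [I_neg e']
            linarith
        rw [expect_add_distrib, Fintype.expect_const] at k8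
        exact (K_X (a := 2) (by decide) (fun y => I (D y)) g).symm.trans_le k8
      by_contra h
      rw [not_or, not_le, not_le] at h
      linarith [h.1, h.2, k7 g]
  linarith [pr_nonneg D]

omit hT in
/-- most bad lines lie in bad planes -/
theorem lines {f₁ f₂ π : G → F} (d1 : ∀ g, Deg 5 fun a => f₁ (g * T.x 0 a))
    (d2 : ∀ g, Deg 5 fun a => f₂ (g * T.x 0 a)) {D A B : G → Prop}
    (hD : ∀ g, D g → ∃ a, f₁ (g * T.x 0 a) ≠ f₂ (g * T.x 0 a)) (hA : T.InvK 1 A)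
    (hB : T.InvK 2 B) : pr D ≤ pr A + pr B +
      2 * (pr (fun g => f₁ g ≠ π g ∧ ¬A g) + pr fun g => f₂ g ≠ π g ∧ ¬B g) := by
  have l1 : 1 / 2 * pr (fun g => D g ∧ ¬A g ∧ ¬B g) ≤ pr fun g => f₁ g ≠ f₂ g ∧ ¬A g ∧ ¬B g :=
    (markov (h := pX T 0 fun g => f₁ g ≠ f₂ g ∧ ¬A g ∧ ¬B g) (fun _ => pr_nonneg _) fun g e =>
      (line hq (d1 g) (d2 g) (hD g e.1)).trans (pr_mono fun c e' => by
        beta_reduce
        rw [hA g _ (mem_K (by decide) c), hB g _ (mem_K (by decide) c)]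
        exact ⟨e', e.2⟩)).trans_eq (E_pr (T.x 0) fun g => f₁ g ≠ f₂ g ∧ ¬A g ∧ ¬B g)
  have l2 := pr_or (P := fun g => f₁ g ≠ f₂ g ∧ ¬A g ∧ ¬B g) (Q := fun g => f₁ g ≠ π g ∧ ¬A g)
    (R := fun g => f₂ g ≠ π g ∧ ¬B g) fun g e => by
      by_cases h : f₁ g = π g
      · exact Or.inr ⟨fun h' => e.1 (h.trans h'.symm), e.2.2⟩
      · exact Or.inl ⟨h, e.2.1⟩
  have l3 := pr_or (P := D) (Q := fun g => A g ∨ B g) (R := fun g => D g ∧ ¬A g ∧ ¬B g)
    fun g e => (em _).imp id fun h => ⟨e, not_or.1 h⟩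
  have l4 := pr_or (P := fun g => A g ∨ B g) fun g e => e
  linarith

end CoreP

open CoreP

theorem core_proof (hL : SpecLocStmt) (hG : SpecGlobStmt) : CoreStmt := by
  intro F G _ _ _ _ T hT hq f₁ f₂ h1 h2 d1 d2
  obtain ⟨D, hD⟩ : ∃ D : G → Prop, D = fun g => ∃ a, f₁ (g * T.x 0 a) ≠ f₂ (g * T.x 0 a) :=
    ⟨_, rfl⟩
  have x0 : T.x 0 0 = 1 := by
    have := hT.x_add 0 0 0
    rwa [add_zero, left_eq_mul] at this
  have hne : ∀ g, f₁ g ≠ f₂ g → D g := fun g e => hD ▸ ⟨0, by rwa [x0, mul_one]⟩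
  have hD0 : T.Inv 0 D := fun g c => by
    rw [hD]
    refine propext ⟨fun ⟨a, e⟩ => ⟨c + a, by rwa [hT.x_add, ← mul_assoc]⟩,
      fun ⟨a, e⟩ => ⟨-c + a, by rwa [mul_assoc, ← hT.x_add, add_neg_cancel_left]⟩⟩
  rw [← hD]
  intro hd hd'
  suffices H : (∃ g, (fun g => 1 / 64 < pK T 1 D g) g ∧
      pr (fun p : T.K 1 × F => f₂ (g * p.1) ≠ f₂ (g * p.1 * T.x 2 p.2)) ≤ 1 / 6500) ∨
      ∃ g, (fun g => 1 / 64 < pK T 2 D g) g ∧
        pr (fun p : T.K 2 × F => f₁ (g * p.1) ≠ f₁ (g * p.1 * T.x 1 p.2)) ≤ 1 / 6500 by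
    rw [hD] at H
    exact H
  have hB : ∀ (j : Fin 3) (c : ℝ), T.InvK j fun g => c < pK T j D g := fun j c g u hu =>
    congrArg (c < ·) (invK_pK j D g u hu)
  have hb : ∀ j : Fin 3, pr (fun g => 1 / 64 < pK T j D g) ≤ 64 * pr D := fun j => by
    have := (markov (P := fun g => 1 / 64 < pK T j D g) (h := pK T j D) (fun _ => pr_nonneg _)
      fun _ e => e.le).trans_eq (E_pr (fun u : T.K j => (u : G)) D)
    linarith
  obtain ⟨π, hπ, hm⟩ : ∃ π : G → F, T.InvK 0 π ∧ ∀ g, ¬1 / 16 < pK T 0 D g →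
      pK T 0 (fun y => f₁ y ≠ π y) g ≤ 1 / 4 ∧ pK T 0 (fun y => f₂ y ≠ π y) g ≤ 1 / 4 := by
    let π : G → F := fun g => Classical.epsilon fun v =>
      pK T 0 (fun y => f₁ y ≠ v) g ≤ 1 / 4 ∧ pK T 0 (fun y => f₂ y ≠ v) g ≤ 1 / 4
    have hπ : T.InvK 0 π := fun g u hu => by
      simp only [π, invK_pK 0 _ g u hu]
    refine ⟨π, hπ, fun g e => ?_⟩
    have := Classical.epsilon_spec (exists_val hT hq hL h1 h2 (g := g)
      ((pr_mono fun _ => hne _).trans (not_lt.1 e)))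
    simp only [pK, hπ g _ (Subtype.prop _)]
    exact this
  have b1 := hb 1
  have b2 := hb 2
  have b3 := bad hT hq hL hG hD0 hd' b1
  have m1 := half hT hq hL (a := 1) (b := 2) (by decide) (by decide) (by decide) hD0
    (hB 0 (1 / 16)) h1 h2 hπ hne fun g e => (hm g e).2
  have m2 := half hT hq hL (a := 2) (b := 1) (by decide) (by decide) (by decide) hD0
    (hB 0 (1 / 16)) h2 h1 hπ (fun g e => hne g e.symm) fun g e => (hm g e).1
  have l := lines hq (π := π) (D := D) d1 d2 (fun g e => by rwa [hD] at e) (hB 1 (1 / 64))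
    (hB 2 (1 / 64))
  have i1 := hB 1 (1 / 64)
  have i2 := hB 2 (1 / 64)
  obtain ⟨A, hA⟩ : ∃ A : G → Prop, ∀ g, (1 / 64 < pK T 1 D g) = A g := ⟨_, fun _ => rfl⟩
  obtain ⟨B, hB'⟩ : ∃ A : G → Prop, ∀ g, (1 / 64 < pK T 2 D g) = A g := ⟨_, fun _ => rfl⟩
  obtain ⟨C, hC⟩ : ∃ A : G → Prop, ∀ g, (1 / 16 < pK T 0 D g) = A g := ⟨_, fun _ => rfl⟩
  simp only [hA, hB', hC] at b1 b2 b3 m1 m2 l i1 i2 ⊢
  have sp : ∀ (f : G → F) (A : G → Prop), pr (fun g => f g ≠ π g ∧ ¬C g) ≤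
      pr (fun g => (f g ≠ π g ∧ ¬C g) ∧ ¬A g) + pr A ∧ pr (fun g => f g ≠ π g ∧ ¬A g) ≤
      pr (fun g => (f g ≠ π g ∧ ¬C g) ∧ ¬A g) + pr C := fun f A =>
    ⟨pr_or fun g e => (em _).symm.imp (fun h => ⟨e, h⟩) id,
      pr_or fun g e => (em _).symm.imp (fun h => ⟨⟨e.1, h⟩, e.2⟩) id⟩
  obtain ⟨s1, n1⟩ := sp f₁ A
  obtain ⟨s2, n2⟩ := sp f₂ B
  have p1 := pr_nonneg fun g => (f₁ g ≠ π g ∧ ¬C g) ∧ ¬A g
  have p2 := pr_nonneg fun g => (f₂ g ≠ π g ∧ ¬C g) ∧ ¬B g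
  rcases le_total (pr B) (pr A) with h | h
  · exact Or.inl (fin hT hq hG (by decide) (by decide) i1 i2 hπ h (by linarith)
      (by linarith) (by linarith))
  · exact Or.inr (fin hT hq hG (by decide) (by decide) i2 i1 hπ h (by linarith)
      (by linarith) (by linarith))

end Vale.Agent.P318.Q
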