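import Vale.Agent.P318.Q.SpecGlob

/-!
Track Q: distance of the code and expansion of the main checks (helper40).
-/

namespace Vale.Agent.P318.Q

open Finset SpecGlob
open scoped BigOperators Classical

namespace DistL

variable {F G : Type} [Field F] [Fintype F] [Group G] [Fintype G] {T : Tri F G}

theorem line (hL : SpecLocStmt) (hG : SpecGlobStmt) (hT : T.OK) (hq : 4 ≤ Fintype.card F)
    {f : G → ℝ} (hf : T.InvK 0 f) :
    𝔼 g, (T.PX 0 f g - 𝔼 g', f g') ^ 2 ≤ 10 / (Fintype.card F : ℝ) * 𝔼 g, f g ^ 2 := by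
  have h0 : 0 ≤ 1 / (Fintype.card F : ℝ) := by positivity
  have a1 := loc_avg hL hT (i := 2) (j := 0) (l := 1) (by decide) (by decide) (by decide) (f := f)
    fun g a => hf g _ (x_mem (by decide) a)
  have a2 := hG F G T hT hq 0 1 (by decide) f hf
  have a3 : ip (f - T.PK 1 f) (f - T.PK 1 f) ≤ ip f f := (good_val (T.K 1)).ip_sub_le f
  have a4 := expect_sq_le (T.PX 0 f - T.PK 1 f) fun g => T.PK 1 f g - 𝔼 g', f g'
  simp only [Pi.sub_apply, sub_add_sub_cancel] at a4
  rw [← ip_self] at a1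
  simp only [Pi.sub_apply] at a1
  rw [expect_sub_mean, ip_self f] at a2
  rw [ip_self f]
  have a5 := mul_le_mul_of_nonneg_left a3 h0
  have a6 := mul_nonneg h0 (sq_nonneg (𝔼 g', f g'))
  rw [div_eq_mul_one_div] at a2 ⊢
  linarith

omit [Group G] [Fintype G] in
theorem roots {l : ℕ} (hl : 4 * l ≤ Fintype.card F) {φ : F → F} (h : Deg l φ) (h0 : φ 0 ≠ 0) :
    (3 / 4 : ℝ) ≤ 𝔼 a, if φ a ≠ 0 then (1 : ℝ) else 0 := by
  obtain ⟨p, h1, h2⟩ := h
  have hp : p ≠ 0 := fun e => h0 (by rw [h2, e, Polynomial.eval_zero])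
  have h3 : (univ.filter fun a => φ a = 0).card ≤ l :=
    (Polynomial.card_le_degree_of_subset_roots fun a ha => (Polynomial.mem_roots hp).2
      ((h2 a).symm.trans (mem_filter.1 ha).2)).trans h1
  have h4 := card_filter_add_card_filter_not (s := univ) fun a => φ a = 0
  have h5 : (0 : ℝ) < Fintype.card F := by exact_mod_cast Fintype.card_pos
  rw [Fintype.expect_eq_sum_div_card, sum_boole, le_div_iff₀ h5]
  have h6 : 3 * Fintype.card F ≤ 4 * (univ.filter fun a => ¬φ a = 0).card := by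
    rw [card_univ] at h4
    omega
  have h7 : (3 * Fintype.card F : ℝ) ≤ 4 * (univ.filter fun a => ¬φ a = 0).card := by
    exact_mod_cast h6
  linarith

omit [Fintype F] [Fintype G] in
theorem k_mul (hT : T.OK) (i : Fin 3) (p p' : F × F × F) : T.k i p * T.k i p' =
    T.k i (p.1 + p'.1, p.2.1 + p'.2.1, p.2.2 + p'.2.2 - p'.1 * p.2.1) := by
  have h1 : T.x (i + 2) p.2.1 * T.x (i + 1) p'.1 =
      T.x (i + 1) p'.1 * T.x (i + 2) p.2.1 * T.z i (-(p'.1 * p.2.1)) := by
    have h0 : T.z i 0 = 1 := by simpa using hT.z_add i 0 0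
    rw [hT.comm, mul_assoc, ← hT.z_add, add_neg_cancel, h0, mul_one]
  have h2 : ∀ c a y, T.z i c * (T.x (i + 1) a * y) = T.x (i + 1) a * (T.z i c * y) :=
    fun c a y => by rw [← mul_assoc, hT.zx1, mul_assoc]
  have h3 : ∀ c a y, T.z i c * (T.x (i + 2) a * y) = T.x (i + 2) a * (T.z i c * y) :=
    fun c a y => by rw [← mul_assoc, hT.zx2, mul_assoc]
  simp only [Tri.k, hT.x_add, mul_assoc, h2, h3]
  rw [← mul_assoc (T.x (i + 2) p.2.1), h1]
  simp only [mul_assoc, h3, ← hT.z_add]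
  congr 5
  ring

omit [Fintype G] in
theorem good_k (hT : T.OK) (i : Fin 3) : Good (T.k i) := by
  have z0 : T.z i 0 = 1 := by simpa using hT.z_add i 0 0
  have h0 : T.k i (0, 0, 0) = 1 := by simp [Tri.k, x_zero hT, z0]
  have h1 : Function.Involutive fun p : F × F × F => (-p.1, -p.2.1, -p.2.2 - p.1 * p.2.1) :=
    fun p => by simp
  refine ⟨⟨0⟩, ⟨h1.toPerm, fun p => eq_inv_of_mul_eq_one_right ?_⟩, fun p =>
    ⟨Equiv.ofBijective (fun p' : F × F × F =>
      (p.1 + p'.1, p.2.1 + p'.2.1, p.2.2 + p'.2.2 - p'.1 * p.2.1))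
      (Finite.injective_iff_bijective.1 fun a b h => ?_), fun b => (k_mul hT i p b).symm⟩⟩
  · rw [k_mul hT, ← h0]
    simp [sub_eq_add_neg]
  · simp only [Prod.mk.injEq, add_right_inj] at h
    obtain ⟨h1, h2, h3⟩ := h
    rw [h1, sub_left_inj, add_right_inj] at h3
    exact Prod.ext h1 (Prod.ext h2 h3)

theorem expect_surj {D D' : Type} [AddCommGroup D] [AddCommGroup D'] [Fintype D] [Fintype D']
    (π : D →+ D') (hπ : Function.Surjective π) (φ : D' → ℝ) : 𝔼 d, φ (π d) = 𝔼 y, φ y := by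
  choose s hs using hπ
  have h1 : ∀ y, 𝔼 d, φ (π d) = 𝔼 d, φ (π d + y) := fun y =>
    (Fintype.expect_equiv (Equiv.addRight (s y)) _ _ fun d => by
      rw [Equiv.coe_addRight, map_add, hs]).symm
  have h2 : ∀ d, 𝔼 y, φ (π d + y) = 𝔼 y, φ y := fun d =>
    Fintype.expect_equiv (Equiv.addLeft (π d)) _ _ fun _ => rfl
  rw [← Fintype.expect_const (ι := D') (𝔼 d, φ (π d))]
  conv_lhs => enter [2, y]; rw [h1 y]
  rw [expect_comm]
  simp only [h2, Fintype.expect_const]

theorem expect_prod {A B : Type} [Fintype A] [Fintype B] (φ : A × B → ℝ) :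
    𝔼 p, φ p = 𝔼 a, 𝔼 b, φ (a, b) := by
  rw [← univ_product_univ, expect_product]

omit [Fintype G] in
theorem pair {s : Fin 9 → F} (hs : Function.Injective s) {i k : Fin 9} (hik : i ≠ k) (e : G → ℝ)
    (g : G) : 𝔼 d, e (g * T.mvR s d i) * e (g * T.mvR s d k) =
      T.PX 0 (av (T.k 0) e) g ^ 2 := by
  let π : (F × F) × (Fin 9 → F × F × F) →+ (F × F × F × F) × (F × F × F × F) :=
    AddMonoidHom.mk' (fun d => ((d.1.1 + d.1.2 * s i, d.2 i), (d.1.1 + d.1.2 * s k, d.2 k)))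
      fun d d' => by
        simp only [Prod.fst_add, Prod.snd_add, Pi.add_apply, Prod.mk_add_mk, Prod.mk.injEq,
          and_true]
        constructor <;> ring
  have hπ : Function.Surjective π := fun y => by
    have h0 : s i - s k ≠ 0 := sub_ne_zero.2 (hs.ne hik)
    refine ⟨((y.1.1 - (y.1.1 - y.2.1) / (s i - s k) * s i, (y.1.1 - y.2.1) / (s i - s k)),
      fun j => if j = i then y.1.2 else y.2.2), Prod.ext (Prod.ext ?_ ?_) (Prod.ext ?_ ?_)⟩
    · simp [π]
    · simp [π]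
    · simp only [π, AddMonoidHom.mk'_apply]
      field_simp
      ring
    · simp [π, hik.symm]
  let ψ : F × F × F × F → ℝ := fun y => e (g * T.x 0 y.1 * T.k 0 y.2)
  have h1 := expect_surj π hπ fun y => ψ y.1 * ψ y.2
  rw [expect_prod fun y : (F × F × F × F) × (F × F × F × F) => ψ y.1 * ψ y.2,
    ← Fintype.expect_mul_expect, ← sq, expect_prod ψ] at h1
  simp only [Tri.mvR, ← mul_assoc]
  exact h1

end DistL

open DistL

theorem dist_proof (hL : SpecLocStmt) (hG : SpecGlobStmt) : DistStmt := by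
  intro F G _ _ _ _ T hT l hq hl E hE hs
  let f : G → ℝ := fun g => if E g ≠ 0 then 1 else 0
  have hK : T.InvK 0 E := invK_of_inv hE.1 hE.2.1
  have h0 : ∀ g, 0 ≤ f g := fun g => by
    simp only [f]
    split_ifs <;> norm_num
  have h1 := line hL hG hT (by omega) (f := f) fun g u hu => by simp only [f, hK g u hu]
  have h2 : 𝔼 g, f g ^ 2 = 𝔼 g, f g := by simp [f]
  have h3 : 𝔼 g, f g ≤ 1 / 4 := by convert hs using 1; unfold pr; congr!
  have h4 : 1 / 4 * 𝔼 g, f g ≤ 𝔼 g, (T.PX 0 f g - 𝔼 g', f g') ^ 2 := by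
    rw [mul_expect]
    refine expect_le_expect fun g _ => ?_
    by_cases hg : E g = 0
    · simp only [f, hg, ne_eq, not_true_eq_false, if_false, mul_zero]
      exact sq_nonneg _
    · have h5 : 3 / 4 ≤ T.PX 0 f g := roots hl (hE.2.2 g) (by rwa [x_zero hT, mul_one])
      rw [show f g = 1 from if_pos hg]
      nlinarith
  have h5 : (41 : ℝ) ≤ Fintype.card F := by exact_mod_cast hq
  have h6 : 10 / (Fintype.card F : ℝ) ≤ 10 / 41 := div_le_div_of_nonneg_left (by norm_num)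
    (by norm_num) h5
  have h7 : 0 ≤ 𝔼 g, f g := expect_nonneg fun g _ => h0 g
  have h8 : 𝔼 g, f g = 0 := by
    rw [h2] at h1
    nlinarith
  intro g
  by_contra hg
  have := congrFun ((Fintype.expect_eq_zero_iff_of_nonneg h0).1 h8) g
  simp [f, hg] at this

theorem exp_proof (hL : SpecLocStmt) (hG : SpecGlobStmt) : ExpStmt := by
  intro F G _ _ _ _ T hT hq s hs i k hik e
  have g := good_k hT 0
  have z0 : T.z 0 0 = 1 := by simpa using hT.z_add 0 0 0
  have hK : T.InvK 0 (av (T.k 0) e) := invK_of_inv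
    (fun g' a => by simpa [Tri.k, x_zero hT, z0] using g.iv e g' (a, 0, 0))
    fun g' a => by simpa [Tri.k, x_zero hT, z0] using g.iv e g' (0, a, 0)
  have h1 := line hL hG hT hq hK
  have h2 : 𝔼 g, T.PX 0 (av (T.k 0) e) g = 𝔼 g, av (T.k 0) e g := expect_av (T.x 0) _
  have h3 := expect_sub_mean (T.PX 0 (av (T.k 0) e))
  have h4 := g.ip_av_le e
  rw [h2] at h3
  rw [h3, expect_av, ip_self (av _ _)] at h1
  have h5 := mul_le_mul_of_nonneg_left h4 (show 0 ≤ 10 / (Fintype.card F : ℝ) by positivity)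
  simp only [pair hs hik]
  rw [ip_self e]
  linarith

end Vale.Agent.P318.Q
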