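import Vale.Agent.P318.Q.Basic
import Vale.Agent.Lib.PCP.Basic

/-!
Track Q: the family of constraint systems is well formed, complete and sound.
-/

set_option linter.unusedSectionVars false

namespace Vale.Agent.P318.Q

open Vale.Agent.Lib.PolyTime Vale.Agent.Lib.PCP Finset
open scoped BigOperators Classical

namespace Fam

section Transport

variable {X G : Type} [Fintype G] {V : List X} {code : G → X}

theorem toFinset_eq (hm : ∀ x, x ∈ V ↔ ∃ g, code g = x) : V.toFinset = univ.image code := by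
  ext x
  simp [hm]

theorem expect_eq (hi : Function.Injective code) (hm : ∀ x, x ∈ V ↔ ∃ g, code g = x)
    (f : X → ℝ) : 𝔼 x ∈ V.toFinset, f x = 𝔼 g, f (code g) := by
  rw [toFinset_eq hm, Finset.expect_image hi.injOn]

theorem bijOn (hi : Function.Injective code) (hm : ∀ x, x ∈ V ↔ ∃ g, code g = x)
    {m : X → X} (e : G ≃ G) (he : ∀ g, m (code g) = code (e g)) :
    Set.BijOn m {x | x ∈ V} {x | x ∈ V} := by
  refine ⟨fun x hx => ?_, fun x hx y hy h => ?_, fun x hx => ?_⟩
  · obtain ⟨g, rfl⟩ := (hm x).1 hx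
    exact (hm _).2 ⟨e g, (he g).symm⟩
  · obtain ⟨g, rfl⟩ := (hm x).1 hx
    obtain ⟨g', rfl⟩ := (hm y).1 hy
    rw [he, he] at h
    rw [e.injective (hi h)]
  · obtain ⟨g, rfl⟩ := (hm x).1 hx
    exact ⟨code (e.symm g), (hm _).2 ⟨_, rfl⟩, by rw [he, e.apply_symm_apply]⟩

theorem count_eq [Nonempty G] (hn : V.Nodup) (hi : Function.Injective code)
    (hm : ∀ x, x ∈ V ↔ ∃ g, code g = x) (p : X → Bool) :
    (V.countP p : ℝ) = pr (fun g => p (code g) = true) * V.length := by
  have h1 : V.length = Fintype.card G := by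
    rw [← List.toFinset_card_of_nodup hn, toFinset_eq hm, card_image_of_injective _ hi, card_univ]
  have h2 : V.countP p = (univ.filter fun g => p (code g) = true).card := by
    rw [List.countP_eq_length_filter, ← List.toFinset_card_of_nodup (hn.filter _),
      List.toFinset_filter, toFinset_eq hm, Finset.filter_image, card_image_of_injective _ hi]
  have h3 : (0 : ℝ) < Fintype.card G := Nat.cast_pos.2 Fintype.card_pos
  rw [h1, h2, pr_eq_card, div_mul_cancel₀ _ h3.ne']
  congr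

end Transport

theorem cfc_eq {F K : Type} [Field F] [Fintype F] [Field K] [Algebra F K] {ω : F} {τ : K}
    {c : Fin 3 → F} {φ : CNF}
    (hT : ∀ (c : F) (m n : ℕ) (x : MC F) (g : SL3 K), MRep (parR φ) τ x g →
      thΦc ω (parR φ) c m n x = thΦ F (τ + algebraMap F K c) m n g ∧
      thΨc ω (parR φ) c m n x = thΨ F (τ + algebraMap F K c) m n g)
    {x : XC F} {g : Fin 3 → SL3 K} (h : XRep (parR φ) τ x g) :
    cfc ω c φ x = cf φ (2 ^ parM φ) (fun j => thΦ F (τ + algebraMap F K (c j)) (parM φ))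
      (fun j => thΨ F (τ + algebraMap F K (c j)) (parM φ)) g := by
  simp only [cfc, cf, sum_map_range, (hT _ _ _ _ _ (h _)).1, (hT _ _ _ _ _ (h _)).2]

section Unfold

variable {F : Type} [Field F] [Fintype F] (ω : F) (c : Fin 3 → F) (s : Fin 9 → F) (φ : CNF)

theorem fam_V : (fam ω c s φ).V = allX ω (parR φ) := by dsimp only [fam]

theorem fam_mv (d : (F × F) × (Fin 9 → F × F × F)) (i : Fin 9) (x : XC F) :
    (fam ω c s φ).mv d i x = xmul ω x (mvRc ω (parR φ) c s d i) := by dsimp only [fam]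

theorem fam_nb (e : Nb F) (x : XC F) : (fam ω c s φ).nb e x =
    xmul ω (xmul ω (nbLc ω (parR φ) c e) x) (nbRc ω (parR φ) c e) := by dsimp only [fam]

theorem fam_con (x : XC F) (v : Nb F → Tb → F) :
    (fam ω c s φ).con x v = true ↔ pred (cfc ω c φ x) v := by
  dsimp only [fam]
  exact decide_eq_true_iff

end Unfold

end Fam

theorem fam_proof (hF : FieldStmt) (hS : SLStmt) (h2 : Th2Stmt) (hK : KSpecStmt)
    (hG : GSpecStmt) (hT : ThSpecStmt) (hP : ParStmt) (hE : ExpStmt) (hC : CompleteStmt)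
    (hSo : SoundStmt) : FamStmt := by
  intro F _ _ _ ω hω hq c s hc hs H hH φ
  obtain ⟨hN, hm, hs1, hmR⟩ := hP.1 φ
  obtain ⟨K, _, _, _, τ, hKOK, hconj, hgen⟩ := hF F ω hω (parS φ) hs1
  have hR2 : 2 ≤ parR φ := by omega
  have ks : KSpec ω (parR φ) τ := hK F K ω (parR φ) τ hR2 hKOK
  obtain ⟨γ, hγ, hord, hrep⟩ := ks.gen
  have gs := hG F K ω (parR φ) τ γ hγ c ks hrep
  have ts := hT F K ω (parR φ) τ ks gs.one
  set T : Fin 3 → Tri F (SL3 K) := fun j => slTri F (τ + algebraMap F K (c j)) with hTdef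
  obtain ⟨hpi, hone⟩ := hS F K (fun j => τ + algebraMap F K (c j)) (hgen c hc)
  have hodd : Odd (parR φ) := Odd.pow (by decide)
  have hq5 : 5 ≤ Fintype.card F := le_trans (by norm_num) hq
  have hth : ∀ j, (T j).ThOK (2 ^ parM φ) (torus γ hγ) (Fintype.card F ^ parR φ - 1)
      (thΦ F (τ + algebraMap F K (c j)) (parM φ)) (thΨ F (τ + algebraMap F K (c j)) (parM φ)) :=
    fun j => h2 F K (parR φ) _ γ hγ (parM φ) hKOK.rank hodd (hconj (c j)) hm hmR hq5 hord
  choose code hcode using gs.ex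
  have hi : Function.Injective code := fun g g' e => gs.uniq' (hcode g) (e ▸ hcode g')
  have hnd : (fam ω c s φ).V.Nodup := by rw [Fam.fam_V]; exact gs.nodup
  have hmem : ∀ x, x ∈ (fam ω c s φ).V ↔ ∃ g, code g = x := fun x => by
    rw [Fam.fam_V]
    exact (gs.mem x).trans
      ⟨fun ⟨g, hg⟩ => ⟨g, gs.uniq (hcode g) hg⟩, fun ⟨g, e⟩ => ⟨g, e ▸ hcode g⟩⟩
  have hmv : ∀ d i g, (fam ω c s φ).mv d i (code g) = code (g * (piTri T).mvR s d i) :=
    fun d i g => by
      rw [Fam.fam_mv]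
      exact gs.uniq (gs.mul (hcode g) (gs.mvR s d i)) (hcode _)
  have hnb : ∀ e g, (fam ω c s φ).nb e (code g) =
      code (nbL T (torus γ hγ) e * g * nbR T e) :=
    fun e g => by
      rw [Fam.fam_nb]
      exact gs.uniq (gs.mul (gs.mul (gs.nbL e) (hcode g)) (gs.nbR e)) (hcode _)
  have hcon : ∀ (f : XC F → Tb → F) g,
      (fam ω c s φ).con (code g) (fun e => f ((fam ω c s φ).nb e (code g))) = true ↔
        okAt φ (2 ^ parM φ) T (torus γ hγ)
          (fun j => thΦ F (τ + algebraMap F K (c j)) (parM φ))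
          (fun j => thΨ F (τ + algebraMap F K (c j)) (parM φ)) (fun g => f (code g)) g := by
    intro f g
    simp only [hnb, okAt]
    rw [← Fam.cfc_eq ts (hcode g), Fam.fam_con]
  have hqr : (10 : ℝ) ^ 14 ≤ Fintype.card F := by exact_mod_cast hq
  refine ⟨⟨hnd, ?_, fun d i => ?_, fun e => ?_, fun i k hik e => ?_⟩, fun hsat => ?_,
    fun hsat f => ?_⟩
  · exact List.ne_nil_of_mem ((hmem _).2 ⟨1, rfl⟩)
  · exact Fam.bijOn hi hmem (Equiv.mulRight _) (hmv d i)
  · exact Fam.bijOn hi hmem ((Equiv.mulLeft _).trans (Equiv.mulRight _)) (hnb e)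
  · rw [Fam.expect_eq hi hmem, Fam.expect_eq hi hmem, Fam.expect_eq hi hmem]
    simp only [hmv]
    refine (hE F _ (piTri T) hpi (le_trans (by norm_num) hq) s hs i k hik
      fun g => e (code g)).trans (add_le_add le_rfl ?_)
    refine mul_le_mul_of_nonneg_right ?_ (Finset.expect_nonneg fun g _ => sq_nonneg _)
    rw [div_le_div_iff₀ (by linarith [show (0 : ℝ) < 10 ^ 14 by norm_num]) (by norm_num)]
    linarith [show (720 : ℝ) ≤ 10 ^ 14 by norm_num]
  · obtain ⟨f, hf, hok⟩ := hC F _ T hpi _ _ _ _ _ hth φ hN hsat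
    refine ⟨Function.extend code f fun _ _ => 0, fun x hx => ?_, fun x hx d d' => ?_⟩
    · obtain ⟨g, rfl⟩ := (hmem x).1 hx
      rw [hcon]
      simpa only [hi.extend_apply] using hok g
    · obtain ⟨g, rfl⟩ := (hmem x).1 hx
      simp only [hmv, hi.extend_apply]
      have e : ∀ i, f (g * (piTri T).mvR s d i) =
          f (g * (piTri T).x 0 (d.1.1 + d.1.2 * s i)) := fun i => funext fun t => by
        rw [Tri.mvR, ← mul_assoc]
        exact (hf t).invK _ _ (hpi.k_mem 0 _)
      simp only [e]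
      exact hH (fun a => f (g * (piTri T).x 0 a)) (fun t => (hf t).2.2 g) _ _ d'
  · rw [Fam.count_eq hnd hi hmem]
    refine mul_le_mul_of_nonneg_right ?_ (Nat.cast_nonneg _)
    by_contra hlt
    refine hsat (hSo F _ T hpi hone hq _ _ _ _ _ hth φ hN (fun g => f (code g)) ?_)
    refine le_trans (le_of_eq (pr_congr fun g => ?_)) (not_le.1 hlt).le
    rw [← hcon]
    simp

end Vale.Agent.P318.Q
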