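import Vale.Agent.P318.Q.Stmt
import Mathlib.FieldTheory.KummerExtension
import Mathlib.FieldTheory.Finite.GaloisField

/-!
Track Q: the constant field and its Kummer extensions.
-/

namespace Vale.Agent.P318.Q

open Polynomial

namespace Field

variable {F K : Type} [Field F] [Field K] [Algebra F K]

/-- The decoded value of a list given by its entries. -/
theorem kdec_ofFn (τ : K) : ∀ (n : ℕ) (a : Fin n → F),
    kdec τ (List.ofFn a) = ∑ i : Fin n, a i • τ ^ (i : ℕ)
  | 0, a => by simp [kdec]
  | n + 1, a => by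
    have h := kdec_ofFn τ n fun i => a i.succ
    rw [List.ofFn_succ, Fin.sum_univ_succ]
    have e : kdec τ (a 0 :: List.ofFn fun i => a i.succ) =
        algebraMap F K (a 0) + τ * kdec τ (List.ofFn fun i : Fin n => a i.succ) := rfl
    rw [e, h, Finset.mul_sum]
    congr 1
    · simp [Algebra.smul_def]
    · refine Finset.sum_congr rfl fun i _ => ?_
      rw [Fin.val_succ, pow_succ', mul_smul_comm]

theorem ex_ofFn {α : Type} {n : ℕ} (l : List α) (hl : l.length = n) :
    ∃ a : Fin n → α, l = List.ofFn a := by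
  subst hl
  exact ⟨l.get, (List.ofFn_get l).symm⟩

/-- A power basis whose generator is a root of `ω`. -/
theorem kok (pb : PowerBasis F K) (ω : F) (h : pb.gen ^ pb.dim = algebraMap F K ω) :
    KOK ω pb.dim pb.gen where
  pow := h
  rank := pb.finrank
  inj := by
    intro l l' hl hl' e
    obtain ⟨a, rfl⟩ := ex_ofFn l hl
    obtain ⟨a', rfl⟩ := ex_ofFn l' hl'
    rw [kdec_ofFn, kdec_ofFn] at e
    simp only [← pb.basis_eq_pow] at e
    rw [← pb.basis.equivFun_symm_apply, ← pb.basis.equivFun_symm_apply] at e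
    rw [pb.basis.equivFun.symm.injective e]
  surj := by
    intro y
    refine ⟨List.ofFn (pb.basis.equivFun y), List.length_ofFn, ?_⟩
    rw [kdec_ofFn]
    simp only [← pb.basis_eq_pow]
    rw [← pb.basis.equivFun_symm_apply, LinearEquiv.symm_apply_apply]

/-- The conjugates of a translate of the generator are distinct. -/
theorem conj [Fintype F] [Finite K] (pb : PowerBasis F K) (c : F) :
    ConjInj F pb.dim (pb.gen + algebraMap F K c) := by
  intro k hk k' hk' e
  have hb := (FiniteField.bijective_frobeniusAlgHom_pow F K).1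
  have hp : ∀ (n : ℕ) (x : K),
      (FiniteField.frobeniusAlgHom F K ^ n) x = x ^ Fintype.card F ^ n := by
    intro n x
    simp only [AlgHom.coe_pow, FiniteField.coe_frobeniusAlgHom, pow_iterate]
  rw [← hp, ← hp, map_add, map_add, AlgHom.commutes, AlgHom.commutes, add_left_inj] at e
  have e' := pb.algHom_ext e
  have := @hb ⟨k, pb.finrank ▸ hk⟩ ⟨k', pb.finrank ▸ hk'⟩ e'
  exact congrArg Fin.val this

/-- Every element is a polynomial in a translate of the generator. -/
theorem ex_poly (pb : PowerBasis F K) (c : F) (y : K) :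
    ∃ p : F[X], aeval (pb.gen + algebraMap F K c) p = y := by
  obtain ⟨p, rfl⟩ := pb.exists_eq_aeval' y
  refine ⟨p.comp (X - C c), ?_⟩
  rw [aeval_comp]
  simp

/-- A proper translate of the generator has a different power. -/
theorem pow_ne (pb : PowerBasis F K) (h0 : 0 < pb.dim) {c : F} (hc : c ≠ 0) :
    (pb.gen + algebraMap F K c) ^ pb.dim ≠ pb.gen ^ pb.dim := by
  intro e
  have hm : ((X + C c) ^ pb.dim : F[X]).Monic := (monic_X_add_C c).pow _
  have hd : ((X + C c) ^ pb.dim : F[X]).degree = (X ^ pb.dim : F[X]).degree := by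
    rw [degree_pow, degree_pow, degree_X_add_C, degree_X]
  have hne : ((X + C c) ^ pb.dim - X ^ pb.dim : F[X]) ≠ 0 := by
    intro z
    have := congrArg (eval 0) z
    simp [h0.ne', hc] at this
  have hlt : ((X + C c) ^ pb.dim - X ^ pb.dim : F[X]).degree <
      ((X + C c) ^ pb.dim : F[X]).degree :=
    degree_sub_lt_left hd hm.ne_zero (by rw [hm.leadingCoeff, (monic_X_pow _).leadingCoeff])
  have hle := pb.dim_le_degree_of_root hne (by simp [e])
  rw [hd, degree_X_pow] at hlt
  exact absurd hlt (not_lt.mpr hle)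

/-- Chinese remaindering for three translates. -/
theorem gen3 (pb : PowerBasis F K) (h0 : 0 < pb.dim) (ω : F)
    (h : pb.gen ^ pb.dim = algebraMap F K ω) (hz : ∀ c : F, pb.gen + algebraMap F K c ≠ 0)
    (c : Fin 3 → F) (hc : Function.Injective c) :
    Gen3 F fun j => pb.gen + algebraMap F K (c j) := by
  classical
  intro r
  let f : Fin 3 → F[X] := fun i => (X - C (c i)) ^ pb.dim - C ω
  have f0 : ∀ i, aeval (pb.gen + algebraMap F K (c i)) (f i) = 0 := by
    intro i
    simp [f, h]
  have f1 : ∀ i j, i ≠ j → aeval (pb.gen + algebraMap F K (c j)) (f i) ≠ 0 := by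
    intro i j hij
    have := pow_ne pb h0 (c := c j - c i) (sub_ne_zero.mpr fun e => hij (hc e).symm)
    intro z
    apply this
    rw [h, map_sub, ← add_sub_assoc, ← sub_eq_zero]
    simpa [f] using z
  let g : Fin 3 → F[X] := fun j => ∏ i ∈ Finset.univ.erase j, f i
  have g0 : ∀ j k, j ≠ k → aeval (pb.gen + algebraMap F K (c k)) (g j) = 0 := by
    intro j k hjk
    simp only [g, map_prod]
    exact Finset.prod_eq_zero (i := k) (by simp [hjk.symm]) (f0 k)
  have g1 : ∀ j, aeval (pb.gen + algebraMap F K (c j)) (g j) ≠ 0 := by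
    intro j
    simp only [g, map_prod]
    exact Finset.prod_ne_zero_iff.mpr fun i hi => f1 i j (Finset.ne_of_mem_erase hi)
  choose p hp using fun j => ex_poly pb (c j)
    (r j / ((pb.gen + algebraMap F K (c j)) * aeval (pb.gen + algebraMap F K (c j)) (g j)))
  refine ⟨∑ j, g j * p j, fun k => ?_⟩
  rw [map_sum, Finset.sum_eq_single k]
  · rw [map_mul, hp, ← mul_assoc, mul_div_cancel₀ _ (mul_ne_zero (hz _) (g1 k))]
  · intro j _ hjk
    rw [map_mul, g0 j k hjk, zero_mul]
  · simp

end Field

/-- The constant field: `2 ^ 48` elements. -/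
theorem base_proof : BaseStmt := by
  classical
  have : Fact (Nat.Prime 2) := ⟨Nat.prime_two⟩
  let : Fintype (GaloisField 2 48) := Fintype.ofFinite _
  have hcard : Fintype.card (GaloisField 2 48) = 2 ^ 48 := by
    rw [← Nat.card_eq_fintype_card, GaloisField.card 2 48 (by norm_num)]
  refine ⟨GaloisField 2 48, inferInstance, inferInstance, inferInstance, by rw [hcard]; norm_num, ?_⟩
  by_contra hcon
  push Not at hcon
  have hs : Function.Surjective fun b : GaloisField 2 48 => b ^ 3 := fun ω => hcon ω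
  have hi := Finite.injective_iff_surjective.mpr hs
  have : Fact (Nat.Prime 3) := ⟨Nat.prime_three⟩
  obtain ⟨u, hu⟩ := exists_prime_orderOf_dvd_card (G := (GaloisField 2 48)ˣ) 3
    (by rw [Fintype.card_units, hcard]; norm_num)
  have h3 : (u : GaloisField 2 48) ^ 3 = 1 ^ 3 := by
    rw [one_pow, ← Units.val_pow_eq_pow_val, ← hu, pow_orderOf_eq_one, Units.val_one]
  have h1 : u = 1 := Units.ext (hi h3)
  rw [h1, orderOf_one] at hu
  omega

/-- The Kummer extensions. -/
theorem field_proof : FieldStmt := by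
  intro F _ _ _ ω hω s hs
  have hirr : Irreducible (X ^ (3 ^ s) - C ω : F[X]) :=
    X_pow_sub_C_irreducible_of_prime_pow Nat.prime_three (by norm_num) s hω
  have : Fact (Irreducible (X ^ (3 ^ s) - C ω : F[X])) := ⟨hirr⟩
  let pb := AdjoinRoot.powerBasis hirr.ne_zero
  have hdim : pb.dim = 3 ^ s := by
    rw [AdjoinRoot.powerBasis_dim, natDegree_X_pow_sub_C]
  have : Module.Finite F (AdjoinRoot (X ^ (3 ^ s) - C ω : F[X])) := pb.finite
  have : Finite (AdjoinRoot (X ^ (3 ^ s) - C ω : F[X])) := Module.finite_of_finite F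
  have hpow : pb.gen ^ pb.dim = algebraMap F _ ω := by
    rw [hdim, AdjoinRoot.powerBasis_gen]
    exact root_X_pow_sub_C_pow _ _
  have h0 : 0 < pb.dim := by rw [hdim]; positivity
  have hz : ∀ c : F, pb.gen + algebraMap F _ c ≠ 0 := by
    intro c e
    have e' : pb.gen = algebraMap F _ (-c) := by rw [map_neg]; exact eq_neg_of_add_eq_zero_left e
    rw [e', ← map_pow, hdim] at hpow
    apply hω ((-c) ^ 3 ^ (s - 1))
    rw [← pow_mul, ← pow_succ, Nat.sub_add_cancel hs]
    exact (algebraMap F _).injective hpow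
  refine ⟨AdjoinRoot (X ^ (3 ^ s) - C ω : F[X]), inferInstance, Fintype.ofFinite _, inferInstance,
    pb.gen, ?_, ?_, ?_⟩
  · have hk := Field.kok pb ω hpow
    rwa [hdim] at hk
  · intro c
    have hk := Field.conj pb c
    rwa [hdim] at hk
  · exact Field.gen3 pb h0 ω hpow hz

end Vale.Agent.P318.Q
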