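import Vale.Agent.P318.Q.Stmt

/-!
Track Q: the theorem from its parts.
-/

namespace Vale.Agent.P318.Q

open Vale.Agent.Lib.PolyTime Vale.Agent.Lib.PCP Finset
open scoped BigOperators Classical

/-- From a family of constraint systems to uniform sparsest cut. -/
theorem hard_of {X D E M A D' : Type} [Fintype D] [Fintype E] [Fintype M] [Fintype A]
    [Fintype D'] [Nonempty D] [Enc X] [Enc D] [Enc A] [Enc D'] [EncInj X] [EncInj D] [EncInj A]
    [EncInj D'] (hY : GadYesStmt) (hN : GadNoStmt) (hGP : GadPTStmt) (hBl : BlowStmt)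
    (H : Had M A D') (hOK : H.OK) (hcard : 2 ≤ Fintype.card (E × A)) (ε : ℝ) (hε : 0 < ε)
    (Fm : CNF → SG X D E M) (hpt : SG.IsPT Fm)
    (h : ∀ φ : CNF, (Fm φ).WF (1 / 72) ∧ (Satisfiable φ → (Fm φ).Yes H) ∧
      (¬ Satisfiable φ → (Fm φ).No ε)) : ∃ C : ℝ, 1 < C ∧ Hard (USC C) := by
  obtain ⟨am, ak, W, C, ham, hW, hC, hno⟩ := hN X D E M A D' H hOK hcard ε hε
  have hhard : Hard (WSC (Bv X D E A D') C) := by
    refine ⟨fun φ => gad am ak W H (Fm φ), hGP X D E M A D' H am ak W Fm hpt,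
      fun φ hφ => ?_, fun φ hφ => ?_⟩
    · exact (hY X D E M A D' H hOK hcard am ak W ham hW _ _ C (h φ).1).2 ((h φ).2.1 hφ)
    · exact hno _ (h φ).1 (hY X D E M A D' H hOK hcard am ak W ham hW _ _ C (h φ).1).1
        ((h φ).2.2 hφ)
  exact ⟨C, hC, hhard.red (hBl _ C (by linarith))⟩

theorem final_proof (hB : BaseStmt) (hH : HadStmt) (hFam : FamStmt) (hK : KPTStmt)
    (hG : GPTStmt) (hT : ThPTStmt) (hP : ParStmt) (hY : GadYesStmt) (hN : GadNoStmt)
    (hGP : GadPTStmt) (hBl : BlowStmt) (hBr : BridgeStmt) : FinalStmt := by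
  obtain ⟨F, _, _, _, hq, ω, hω⟩ := hB
  let _ : Enc F := ⟨fun a => enc (Fintype.equivFin F a)⟩
  have _ : EncInj F := ⟨fun a b h => (Fintype.equivFin F).injective (EncInj.inj h)⟩
  obtain ⟨s⟩ : Nonempty (Fin 9 ↪ F) :=
    Function.Embedding.nonempty_of_card_le (by rw [Fintype.card_fin]; exact le_trans (by norm_num) hq)
  obtain ⟨c⟩ : Nonempty (Fin 3 ↪ F) :=
    Function.Embedding.nonempty_of_card_le (by rw [Fintype.card_fin]; exact le_trans (by norm_num) hq)
  obtain ⟨H, hOK, heven⟩ := hH F s s.injective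
  have hfam := hFam F ω hω hq c s c.injective s.injective H heven
  have hcard : 2 ≤ Fintype.card (Nb F × (Tb → F)) := by
    rw [Nat.succ_le_iff, Fintype.one_lt_card_iff]
    exact ⟨(Sum.inr (Sum.inr none), 0), (Sum.inr (Sum.inr (some true)), 0), by simp⟩
  have hk := hK F ω
  obtain ⟨g1, g2, g3⟩ := hG F ω c s hk (hP.2.2.2.2 F)
  have hpt : SG.IsPT (fam ω c s) :=
    ⟨g1.congr fun φ => by dsimp only [fam], g2, g3,
      fun v => PT.finComp (fun cf => decide (pred cf v)) (hT F ω c hk hP)⟩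
  obtain ⟨C, hC, hhard⟩ := hard_of hY hN hGP hBl H hOK hcard (1 / 10 ^ 8) (by norm_num)
    (fam ω c s) hpt hfam
  exact hBr C hC hhard

end Vale.Agent.P318.Q
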