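import Vale.Agent.P318.Q.Stmt

/-!
Track Q: the matrix arithmetic on codes runs in polynomial time.
-/

set_option linter.unusedSectionVars false

namespace Vale.Agent.P318.Q

open Vale.Agent.Lib.PolyTime Vale.Agent.Lib.PCP Finset
open scoped BigOperators Classical

namespace GPTLem

theorem PR.comp {F : Type} [Fintype F] {α β : Type} [Enc α] [Enc β] {R : β → ℕ} (h : PR F R)
    {f : α → β} (hf : PT ∅ f) : PR F fun a => R (f a) :=
  ⟨h.1.comp hf, h.2.1.comp hf, h.2.2.comp hf⟩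

theorem pt_tri3 {α β : Type} [Enc α] [Enc β] {L : α → List β} (h : PT ∅ L) :
    PT ∅ fun a => tri3 (L a) := by
  refine PT.flatMap h (PT.flatMap (h.comp PT.fst') (PT.map (h.comp PT.fst'.fst)
    (PT.funMk fun i => ?_)))
  fin_cases i
  exacts [PT.fst'.fst.snd, PT.fst'.snd, PT.snd']

theorem pt_ite {α β : Type} [Enc α] [Enc β] (p : Prop) [Decidable p] {f g : α → β} (hf : PT ∅ f)
    (hg : PT ∅ g) : PT ∅ fun a => if p then f a else g a := by
  by_cases h : p
  · simpa only [if_pos h] using hf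
  · simpa only [if_neg h] using hg

variable {F : Type} [Field F] [Fintype F] [Enc F] [EncInj F] {ω : F} (h : KPT ω)
  {α : Type} [Enc α] {R : α → ℕ} (hR : PR F R)

include h

theorem pt_mmul {x y : α → MC F} (hx : PT ∅ x) (hy : PT ∅ y) :
    PT ∅ fun a => mmul ω (x a) (y a) := PT.funMk fun u => PT.funMk fun v =>
  h.add (h.add (h.mul ((hx.funAt u).funAt 0) ((hy.funAt 0).funAt v))
    (h.mul ((hx.funAt u).funAt 1) ((hy.funAt 1).funAt v)))
    (h.mul ((hx.funAt u).funAt 2) ((hy.funAt 2).funAt v))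

theorem pt_xmul {x y : α → XC F} (hx : PT ∅ x) (hy : PT ∅ y) :
    PT ∅ fun a => xmul ω (x a) (y a) := PT.funMk fun j => pt_mmul h (hx.funAt j) (hy.funAt j)

theorem pt_mdet {x : α → MC F} (hx : PT ∅ x) : PT ∅ fun a => mdet ω (x a) :=
  have e := fun u v => (hx.funAt u).funAt v
  h.add (h.add
    (h.mul (e 0 0) (h.add (h.mul (e 1 1) (e 2 2)) (h.mul (e 1 2) (e 2 1))))
    (h.mul (e 0 1) (h.add (h.mul (e 1 0) (e 2 2)) (h.mul (e 1 2) (e 2 0)))))
    (h.mul (e 0 2) (h.add (h.mul (e 1 0) (e 2 1)) (h.mul (e 1 1) (e 2 0))))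

include hR

theorem pt_allX : PT ∅ fun a => allX ω (R a) :=
  pt_tri3 (PT.filter (pt_tri3 (pt_tri3 (h.all hR)))
    (PT.eq (pt_mdet h PT.snd') (h.const (PR.comp hR PT.fst') (PT.const 1))))

theorem pt_mone : PT ∅ fun a => (mone (R a) : MC F) :=
  PT.funMk fun _ => PT.funMk fun _ => h.const hR (PT.const _)

theorem pt_mtv (i j : Fin 3) {y : α → List F} (hy : PT ∅ y) : PT ∅ fun a => mtv (R a) i j (y a) :=
  PT.funMk fun _ => PT.funMk fun _ => pt_ite _ hy (h.const hR (PT.const _))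

theorem pt_x (c : F) (i : Fin 3) (b : F) : PT ∅ fun a => (cTri (R a) c).x i b :=
  pt_mtv h hR _ _ (pt_ite _ (h.smul (PT.const b) (h.tau hR (PT.const c))) (h.const hR (PT.const b)))

theorem pt_z (c : F) (i : Fin 3) (b : F) : PT ∅ fun a => (cTri (R a) c).z i b :=
  pt_mtv h hR _ _ (pt_ite _ (h.const hR (PT.const b)) (h.smul (PT.const b) (h.tau hR (PT.const c))))

theorem pt_mtor : PT ∅ fun a => mtor ω (R a) :=
  PT.funMk fun _ => PT.funMk fun _ => pt_ite _ (pt_ite _ (h.gen hR)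
    (pt_ite _ (h.inv hR (h.gen hR)) (h.const hR (PT.const _)))) (h.const hR (PT.const _))

theorem pt_xk (c : Fin 3 → F) (i : Fin 3) (p : F × F × F) : PT ∅ fun a => xk ω (R a) c i p :=
  PT.funMk fun _ => pt_mmul h (pt_mmul h (pt_x h hR _ _ _) (pt_x h hR _ _ _)) (pt_z h hR _ _ _)

theorem pt_nbL (c : Fin 3 → F) (e : Nb F) : PT ∅ fun a => nbLc ω (R a) c e := by
  rcases e with _ | p | _ | b
  · exact PT.funMk fun _ => pt_mone h hR
  · exact PT.funMk fun _ => pt_ite _ (pt_x h hR _ _ _) (pt_mone h hR)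
  · exact PT.funMk fun _ => pt_mone h hR
  · exact PT.funMk fun _ => pt_ite _ (pt_mtor h hR) (pt_mone h hR)

theorem pt_nbR (c : Fin 3 → F) (e : Nb F) : PT ∅ fun a => nbRc ω (R a) c e := by
  rcases e with p | _
  · exact pt_xmul h (pt_xk h hR _ _ _) (PT.funMk fun _ => pt_x h hR _ _ _)
  · exact PT.funMk fun _ => pt_mone h hR

theorem pt_mvR (c : Fin 3 → F) (s : Fin 9 → F) (d : (F × F) × (Fin 9 → F × F × F)) (i : Fin 9) :
    PT ∅ fun a => mvRc ω (R a) c s d i :=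
  pt_xmul h (PT.funMk fun _ => pt_x h hR _ _ _) (pt_xk h hR _ _ _)

end GPTLem

open GPTLem in
theorem gPT_proof : GPTStmt := by
  intro F _ _ _ _ ω c s h hR
  have hR' : PR F fun p : CNF × XC F => parR p.1 := PR.comp hR PT.fst'
  exact ⟨pt_allX h hR, fun d i => pt_xmul h PT.snd' (pt_mvR h hR' c s d i),
    fun e => pt_xmul h (pt_xmul h (pt_nbL h hR' c e) PT.snd') (pt_nbR h hR' c e)⟩

end Vale.Agent.P318.Q
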