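import Vale.Agent.P318.Q.Stmt

/-!
Track Q: correctness of the matrix arithmetic on codes.
-/

namespace Vale.Agent.P318.Q

open Finset
open scoped BigOperators Classical

namespace GSpecLem

theorem mem_tri3 {β : Type} {L : List β} {f : Fin 3 → β} : f ∈ tri3 L ↔ ∀ i, f i ∈ L := by
  simp only [tri3, List.mem_flatMap, List.mem_map]
  constructor
  · rintro ⟨a, ha, b, hb, c, hc, rfl⟩ i
    fin_cases i
    exacts [ha, hb, hc]
  · intro h
    refine ⟨f 0, h 0, f 1, h 1, f 2, h 2, funext fun i => ?_⟩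
    fin_cases i <;> rfl

theorem nodup_tri3 {β : Type} {L : List β} (h : L.Nodup) : (tri3 L).Nodup := by
  have e : tri3 L = (L ×ˢ L ×ˢ L).map fun p => ![p.1, p.2.1, p.2.2] := by
    simp only [tri3, SProd.sprod, List.product, List.map_flatMap, List.map_map]
    rfl
  rw [e]
  refine (h.product (h.product h)).map fun p q hpq => ?_
  exact Prod.ext (congrFun hpq 0) (Prod.ext (congrFun hpq 1) (congrFun hpq 2))

variable {F K : Type} [Field F] [Fintype F] [Field K] [Algebra F K] {ω : F} {R : ℕ} {τ : K}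
  (h : KSpec ω R τ)

include h

theorem rep_ite (u v : Fin 3) : Rep R τ (kconst R (if u = v then (1 : F) else 0))
    ((1 : Matrix (Fin 3) (Fin 3) K) u v) := by
  by_cases e : u = v
  · rw [Matrix.one_apply, if_pos e, if_pos e]
    exact map_one (algebraMap F K) ▸ h.const 1
  · rw [Matrix.one_apply, if_neg e, if_neg e]
    exact map_zero (algebraMap F K) ▸ h.const 0

theorem mrep_one : MRep R τ (mone R : MC F) 1 := fun u v => rep_ite h u v

theorem mrep_mul {x y : MC F} {g g' : SL3 K} (hx : MRep R τ x g) (hy : MRep R τ y g') :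
    MRep R τ (mmul ω x y) (g * g') := fun u v => by
  rw [Matrix.SpecialLinearGroup.coe_mul, Matrix.mul_apply, Fin.sum_univ_three]
  exact h.add (h.add (h.mul (hx u 0) (hy 0 v)) (h.mul (hx u 1) (hy 1 v))) (h.mul (hx u 2) (hy 2 v))

theorem rep_det [CharP F 2] {x : MC F} {g : Matrix (Fin 3) (Fin 3) K}
    (hx : ∀ u v, Rep R τ (x u v) (g u v)) : Rep R τ (mdet ω x) g.det := by
  have : CharP K 2 := charP_of_injective_algebraMap (algebraMap F K).injective 2
  have e : g.det = g 0 0 * (g 1 1 * g 2 2 + g 1 2 * g 2 1) + g 0 1 * (g 1 0 * g 2 2 + g 1 2 * g 2 0) +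
      g 0 2 * (g 1 0 * g 2 1 + g 1 1 * g 2 0) := by
    rw [Matrix.det_fin_three]
    simp only [CharTwo.sub_eq_add]
    ring
  rw [e]
  exact h.add (h.add
    (h.mul (hx 0 0) (h.add (h.mul (hx 1 1) (hx 2 2)) (h.mul (hx 1 2) (hx 2 1))))
    (h.mul (hx 0 1) (h.add (h.mul (hx 1 0) (hx 2 2)) (h.mul (hx 1 2) (hx 2 0)))))
    (h.mul (hx 0 2) (h.add (h.mul (hx 1 0) (hx 2 1)) (h.mul (hx 1 1) (hx 2 0))))

theorem mem_allM [CharP F 2] (x : MC F) : x ∈ allM ω R ↔ ∃ g : SL3 K, MRep R τ x g := by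
  have h1 : Rep R τ (kconst R (1 : F)) (1 : K) := map_one (algebraMap F K) ▸ h.const 1
  simp only [allM, List.mem_filter, mem_tri3, h.mem, decide_eq_true_eq]
  constructor
  · rintro ⟨hl, hd⟩
    have hx : ∀ u v, Rep R τ (x u v) (mdec τ x u v) := fun u v => ⟨hl u v, rfl⟩
    have h2 := rep_det h hx
    rw [hd] at h2
    exact ⟨⟨mdec τ x, h2.2.symm.trans h1.2⟩, hx⟩
  · rintro ⟨g, hg⟩
    have h2 := rep_det h hg
    rw [g.2] at h2
    exact ⟨fun u v => (hg u v).1, h.uniq h2 h1⟩

theorem mrep_tv {i j : Fin 3} (hij : i ≠ j) {y : List F} {b : K} (hy : Rep R τ y b) :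
    MRep R τ (mtv R i j y) (Matrix.SpecialLinearGroup.transvection hij b) := fun u v => by
  rw [Matrix.SpecialLinearGroup.transvection_coe, Matrix.add_apply, mtv]
  by_cases e : u = i ∧ v = j
  · obtain ⟨rfl, rfl⟩ := e
    rwa [if_pos ⟨rfl, rfl⟩, Matrix.one_apply_ne hij, Matrix.single_apply_same, zero_add]
  · rw [if_neg e, Matrix.single_apply_of_ne _ _ _ _ _ fun e' => e ⟨e'.1.symm, e'.2.symm⟩, add_zero]
    exact rep_ite h u v

theorem mrep_x (c : F) (i : Fin 3) (a : F) :
    MRep R τ ((cTri R c).x i a) ((slTri F (τ + algebraMap F K c)).x i a) := by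
  refine mrep_tv h (fin3_ne_add_two i) ?_
  by_cases e : i = 0
  · rw [if_pos e, if_pos e]
    exact h.smul a (h.tau c)
  · rw [if_neg e, if_neg e, mul_one]
    exact h.const a

theorem mrep_z (c : F) (i : Fin 3) (a : F) :
    MRep R τ ((cTri R c).z i a) ((slTri F (τ + algebraMap F K c)).z i a) := by
  refine mrep_tv h (fin3_ne_add_two i).symm ?_
  by_cases e : i = 0
  · rw [if_pos e, if_pos e, mul_one]
    exact h.const a
  · rw [if_neg e, if_neg e]
    exact h.smul a (h.tau c)

theorem mrep_tor {γ : K} (hγ : γ ≠ 0) (hg : Rep R τ (kgen ω R) γ) :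
    MRep R τ (mtor ω R) (torus γ hγ) := fun u v => by
  rw [torus, Matrix.SpecialLinearGroup.diag2n_coe, mtor]
  by_cases e : u = v
  · subst e
    rw [if_pos rfl, Matrix.diagonal_apply_eq]
    by_cases e0 : u = 0
    · rwa [if_pos e0, if_pos e0]
    rw [if_neg e0, if_neg e0]
    by_cases e1 : u = 1
    · rw [if_pos e1, if_pos e1]
      exact h.inv hg
    · rw [if_neg e1, if_neg e1]
      exact map_one (algebraMap F K) ▸ h.const 1
  · rw [if_neg e, Matrix.diagonal_apply_ne _ e]
    exact map_zero (algebraMap F K) ▸ h.const 0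

theorem xrep_mul {x y : XC F} {g g' : Fin 3 → SL3 K} (hx : XRep R τ x g) (hy : XRep R τ y g') :
    XRep R τ (xmul ω x y) (g * g') := fun j => mrep_mul h (hx j) (hy j)

theorem xrep_k (c : Fin 3 → F) (i : Fin 3) (p : F × F × F) : XRep R τ (xk ω R c i p)
    ((piTri fun j => slTri F (τ + algebraMap F K (c j))).k i p) := fun j =>
  mrep_mul h (mrep_mul h (mrep_x h (c j) _ _) (mrep_x h (c j) _ _)) (mrep_z h (c j) _ _)

theorem xrep_single (k : Fin 3) {y : Fin 3 → MC F} {g : SL3 K} (hy : MRep R τ (y k) g) :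
    XRep R τ (fun j => if j = k then y j else mone R) (Pi.mulSingle k g) := fun j => by
  beta_reduce
  by_cases e : j = k
  · subst e
    rwa [if_pos rfl, Pi.mulSingle_eq_same]
  · rw [if_neg e, Pi.mulSingle_eq_of_ne e]
    exact mrep_one h

end GSpecLem

open GSpecLem in
theorem gSpec_proof : GSpecStmt := by
  intro F K _ _ _ _ _ ω R τ γ hγ c h hg
  refine ⟨mrep_one h, xrep_mul h, nodup_tri3 ((nodup_tri3 (nodup_tri3 h.nodup)).filter _),
    fun x => ?_, fun hx hy => ?_, fun hx hy => ?_, fun g => ?_, fun e => ?_, fun e => ?_,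
    fun s d i => ?_⟩
  · rw [allX, mem_tri3]
    simp only [mem_allM h]
    exact ⟨fun hx => ⟨fun j => (hx j).choose, fun j => (hx j).choose_spec⟩,
      fun ⟨g, hx⟩ j => ⟨g j, hx j⟩⟩
  · exact funext fun j => funext fun u => funext fun v => h.uniq (hx j u v) (hy j u v)
  · exact funext fun j => Subtype.ext (Matrix.ext fun u v => (hx j u v).2.symm.trans (hy j u v).2)
  · exact ⟨fun j u v => (h.ex ((g j).1 u v)).choose, fun j u v => (h.ex ((g j).1 u v)).choose_spec⟩
  · rcases e with _ | p | _ | b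
    · exact fun _ => mrep_one h
    · exact xrep_single h p.1 (y := fun j => (cTri R (c j)).x p.2.1 p.2.2) (mrep_x h _ _ _)
    · exact fun _ => mrep_one h
    · exact xrep_single h _ (y := fun _ => mtor ω R) (mrep_tor h hγ hg)
  · rcases e with p | _
    · exact xrep_mul h (xrep_k h c _ _) fun j => mrep_x h (c j) _ _
    · exact fun _ => mrep_one h
  · exact xrep_mul h (fun j => mrep_x h (c j) _ _) (xrep_k h c _ _)

end Vale.Agent.P318.Q
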