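import Vale.Agent.P318.Q.GadNo2

/-!
Track Q, the gadget: all cuts are expensive when the constraint system is far from satisfiable.
-/

namespace Vale.Agent.P318.Q

open Finset
open scoped BigOperators Classical

namespace GadNo

theorem arith_sep {n w c P m a cut mT mF : ℝ} (hn : 0 ≤ n) (hw : 0 ≤ w) (hc : 0 ≤ c)
    (hcw : 10 * c ≤ w) (hP : 0 ≤ P) (ha : 90 * P ≤ a) (hcut : n * (a - 9 * P * m ^ 2) ≤ cut)
    (hT0 : 0 ≤ mT) (hF0 : 0 ≤ mF) (hT : mT ≤ n * (w * (3 + m) + c))
    (hF : mF ≤ n * (w * (3 - m) + c)) : a * (mT * mF) ≤ cut * (n * (3 * w + c) ^ 2) := by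
  have h1 : mT * mF ≤ n * (w * (3 + m) + c) * (n * (w * (3 - m) + c)) :=
    mul_le_mul hT hF hF0 (hT0.trans hT)
  have h2 : (3 * w + c) ^ 2 ≤ 10 * w ^ 2 := by nlinarith
  have h3 : 9 * P * (3 * w + c) ^ 2 ≤ a * w ^ 2 :=
    (mul_le_mul_of_nonneg_left h2 (by positivity)).trans (by nlinarith [sq_nonneg w])
  have h4 := mul_le_mul_of_nonneg_left h3 (mul_nonneg (sq_nonneg n) (sq_nonneg m))
  calc a * (mT * mF) ≤ a * (n * (w * (3 + m) + c) * (n * (w * (3 - m) + c))) :=
        mul_le_mul_of_nonneg_left h1 (by linarith)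
    _ ≤ n * (a - 9 * P * m ^ 2) * (n * (3 * w + c) ^ 2) := by nlinarith
    _ ≤ _ := mul_le_mul_of_nonneg_right hcut (by positivity)

theorem arith_tog {n w c P L s a cut mT mF : ℝ} (hn : 0 ≤ n) (hw : 0 ≤ w) (hc : 0 ≤ c)
    (hcw : 10 * c ≤ w) (hL : 0 ≤ L) (hs : 0 ≤ s) (ha0 : 0 ≤ a) (ha : a ≤ 107 * P) (haw : a ≤ w)
    (hcut : 90 * P * L + s ≤ cut) (hF0 : 0 ≤ mF) (hT : mT ≤ w * L + s)
    (hF : mF ≤ n * (6 * w + c)) : a * (mT * mF) ≤ cut * (n * (3 * w + c) ^ 2) := by
  have h1 : mT * mF ≤ (w * L + s) * (n * (7 * w)) :=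
    mul_le_mul hT (hF.trans (mul_le_mul_of_nonneg_left (by linarith) hn)) hF0 (by positivity)
  have h2 : 9 * w ^ 2 ≤ (3 * w + c) ^ 2 := by nlinarith
  have hP : 0 ≤ P := by linarith
  have h3 : a * (n * w ^ 2 * L) ≤ 107 * P * (n * w ^ 2 * L) :=
    mul_le_mul_of_nonneg_right ha (by positivity)
  have h4 : a * (n * w * s) ≤ w * (n * w * s) := mul_le_mul_of_nonneg_right haw (by positivity)
  have h5 : 0 ≤ P * (n * w ^ 2 * L) := by positivity
  have h6 : 0 ≤ w * (n * w * s) := by positivity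
  calc a * (mT * mF) ≤ a * ((w * L + s) * (n * (7 * w))) := mul_le_mul_of_nonneg_left h1 ha0
    _ ≤ (90 * P * L + s) * (n * (9 * w ^ 2)) := by nlinarith
    _ ≤ _ := mul_le_mul hcut (mul_le_mul_of_nonneg_left h2 hn) (by positivity)
        (le_trans (by positivity) hcut)

theorem arith_C {w c a ε : ℝ} (hc : 0 ≤ c) (hcw : 10 * c ≤ w) (ha : 0 < a) (hε : 0 < ε)
    (hw : a * c < w * ε) : 1 < 9 * w ^ 2 * (a + ε) / (a * (3 * w + c) ^ 2) := by
  have hw0 : 0 < w := by
    by_contra h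
    have : w * ε ≤ 0 := mul_nonpos_of_nonpos_of_nonneg (not_lt.1 h) hε.le
    nlinarith [mul_nonneg ha.le hc]
  rw [one_lt_div (by positivity)]
  have h1 : a * c * c ≤ a * c * w := mul_le_mul_of_nonneg_left (by linarith) (by positivity)
  have h2 : a * c * w < w * ε * w := mul_lt_mul_of_pos_right hw hw0
  have h3 : 0 ≤ a * c * w := by positivity
  nlinarith

variable {X D E M A D' : Type} [Fintype D] [Fintype E] [Fintype A] [Fintype D']

theorem key [Nonempty A] [Nonempty E] {H : Had M A D'} (hH : H.OK)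
    (hk : 2 ≤ Fintype.card (E × A)) {ε : ℝ} (hε0 : 0 < ε) (hε : ε ≤ 1) {am ak W : ℕ}
    (ham : 0 < am) {P c a : ℝ} (hP : P = am * (512 * Fintype.card D * Fintype.card D'))
    (hak : (ak : ℝ) = 45 * P)
    (hc : c = 4 * (512 * Fintype.card D * Fintype.card D') + 2 ^ Fintype.card (E × A))
    (hH' : 8 * (Fintype.card (E × A) * 2 ^ Fintype.card (E × A) / 2 : ℝ) *
      Fintype.card (E × A) ≤ P)
    (ha : a = 2 * Fintype.card A * ak + P * (67 / 4) +
      (Fintype.card (E × A) * 2 ^ Fintype.card (E × A) / 2 - 1) + ε)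
    (hcW : 10 * c ≤ W) (haW : a ≤ W) {S : SG X D E M} (hS : S.WF (1 / 72)) (hN : S.No ε)
    (T : Bv X D E A D' → Bool) (h0 : ta T false = false) :
    a * (wmass (gad am ak W H S) T true * wmass (gad am ak W H S) T false) ≤
      wcut (gad am ak W H S) T * (S.V.length * (3 * (Fintype.card A * W) + c) ^ 2) := by
  have hA : (1 : ℝ) ≤ Fintype.card A := Nat.one_le_cast.2 Fintype.card_pos
  have hk' : (2 : ℝ) ≤ Fintype.card (E × A) := by exact_mod_cast hk
  have h2k : (1 : ℝ) ≤ 2 ^ Fintype.card (E × A) := one_le_pow₀ (by norm_num)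
  have hmT := mass_real am ak W H S hS.nodup T true
  have hmF := mass_real am ak W H S hS.nodup T false
  have hsT := st_le S hS.nodup T true
  have hsF := st_le S hS.nodup T false
  have hc0 : 0 ≤ c := by rw [hc]; positivity
  have hP0 : 0 ≤ P := by rw [hP]; positivity
  have hW0 : (0 : ℝ) ≤ W := by positivity
  have hn0 : (0 : ℝ) ≤ S.V.length := by positivity
  have hWw : (W : ℝ) ≤ Fintype.card A * W := le_mul_of_one_le_left hW0 hA
  have hPA : P ≤ Fintype.card A * P := le_mul_of_one_le_left hP0 hA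
  rw [← hc] at hsT hsF
  rw [h0] at hmT hmF
  have hsep := sep_cut am ak W hH hS hε hN T
  have htog := tog_cut am ak W ham hk H S hS.nodup T
  have hu := uu_nonneg S (el T)
  have hm := mm_ge S hS.ne T
  have hHp : (1 : ℝ) ≤ Fintype.card (E × A) * 2 ^ Fintype.card (E × A) / 2 := by nlinarith
  generalize (Fintype.card (E × A) * 2 ^ Fintype.card (E × A) / 2 : ℝ) = Hp at *
  have hT1 : sg true = 1 := rfl
  have hF1 : sg false = -1 := rfl
  rw [hT1] at hmT
  rw [hF1] at hmF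
  rw [hak] at hsep htog ha
  have hHk : 16 * Hp ≤ P := by nlinarith
  cases h1 : ta T true
  · rw [h1] at hmT hmF
    simp only [Bool.false_eq_true, if_false, if_true] at hmT hmF
    push_cast at hmT hmF
    refine arith_tog (P := Fintype.card A * P) (L := S.V.length * (1 + mm S (el T)))
      (s := st S T true) hn0 (by positivity) hc0 (hcW.trans hWw)
      (mul_nonneg hn0 (by linarith)) (by positivity) (by rw [ha]; linarith)
      (by rw [ha]; linarith) (haW.trans hWw) (by linarith [htog h1 h0]) (by positivity)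
      (by linarith) ?_
    have := mul_le_mul_of_nonneg_left hm
      (show (0 : ℝ) ≤ S.V.length * Fintype.card A * W by positivity)
    linarith
  · rw [h1] at hmT hmF
    simp only [Bool.false_eq_true, Bool.true_eq_false, if_false, if_true] at hmT hmF
    push_cast at hmT hmF
    refine arith_sep (P := P) (m := mm S (el T)) hn0 (by positivity) hc0 (hcW.trans hWw) hP0
      (by rw [ha]; linarith) (le_trans ?_ (hsep h1 h0)) (by positivity) (by positivity)
      (by linarith) (by linarith)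
    have h2 := mul_le_mul_of_nonneg_left hH' (mul_nonneg hn0 hu)
    have h3 : (am : ℝ) * (512 * (S.V.length * Fintype.card D * Fintype.card D' *
        (67 / 4 - 9 * mm S (el T) ^ 2 + uu S (el T) / 8))) =
        S.V.length * P * (67 / 4 - 9 * mm S (el T) ^ 2 + uu S (el T) / 8) := by
      rw [hP]
      ring
    rw [h3, ha]
    linarith

theorem key' [Nonempty A] [Nonempty E] {H : Had M A D'} (hH : H.OK)
    (hk : 2 ≤ Fintype.card (E × A)) {ε : ℝ} (hε0 : 0 < ε) (hε : ε ≤ 1) {am ak W : ℕ}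
    (ham : 0 < am) {P c a : ℝ} (hP : P = am * (512 * Fintype.card D * Fintype.card D'))
    (hak : (ak : ℝ) = 45 * P)
    (hc : c = 4 * (512 * Fintype.card D * Fintype.card D') + 2 ^ Fintype.card (E × A))
    (hH' : 8 * (Fintype.card (E × A) * 2 ^ Fintype.card (E × A) / 2 : ℝ) *
      Fintype.card (E × A) ≤ P)
    (ha : a = 2 * Fintype.card A * ak + P * (67 / 4) +
      (Fintype.card (E × A) * 2 ^ Fintype.card (E × A) / 2 - 1) + ε)
    (hcW : 10 * c ≤ W) (haW : a ≤ W) {S : SG X D E M} (hS : S.WF (1 / 72)) (hN : S.No ε)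
    (T : Bv X D E A D' → Bool) :
    a * (wmass (gad am ak W H S) T true * wmass (gad am ak W H S) T false) ≤
      wcut (gad am ak W H S) T * (S.V.length * (3 * (Fintype.card A * W) + c) ^ 2) := by
  cases h0 : ta T false
  · exact key hH hk hε0 hε ham hP hak hc hH' ha hcW haW hS hN T h0
  · have := key hH hk hε0 hε ham hP hak hc hH' ha hcW haW hS hN (fun v => !T v)
      (by rw [ta] at h0 ⊢; rw [h0]; rfl)
    rw [wcut_not, wmass_not, wmass_not, mul_comm (wmass _ T (!true) : ℝ)] at this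
    exact this

theorem small_eps [Nonempty D] (H : Had M A D') (hH : H.OK) (hk : 2 ≤ Fintype.card (E × A))
    {ε : ℝ} (hε0 : 0 < ε) (hε : ε ≤ 1) :
    ∃ (am ak W : ℕ) (C : ℝ), 0 < am ∧ 0 < W ∧ 1 < C ∧ ∀ S : SG X D E M, S.WF (1 / 72) →
      WWF (gad am ak W H S) → S.No ε → (WSC (Bv X D E A D') C).no (gad am ak W H S) := by
  obtain ⟨⟨e₀, a₀⟩⟩ : Nonempty (E × A) := Fintype.card_pos_iff.1 (by omega)
  have : Nonempty E := ⟨e₀⟩
  have : Nonempty A := ⟨a₀⟩
  have : Nonempty D' := by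
    by_contra h
    rw [not_nonempty_iff] at h
    have := hH.pair 0 1 (by decide) (fun _ => 1) fun _ => 1
    simp at this
  have hA : (1 : ℝ) ≤ Fintype.card A := Nat.one_le_cast.2 Fintype.card_pos
  have hD : (1 : ℝ) ≤ Fintype.card D := Nat.one_le_cast.2 Fintype.card_pos
  have hD' : (1 : ℝ) ≤ Fintype.card D' := Nat.one_le_cast.2 Fintype.card_pos
  have hk' : (2 : ℝ) ≤ Fintype.card (E × A) := by exact_mod_cast hk
  have h2k : (1 : ℝ) ≤ 2 ^ Fintype.card (E × A) := one_le_pow₀ (by norm_num)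
  have hHp : (1 : ℝ) ≤ Fintype.card (E × A) * 2 ^ Fintype.card (E × A) / 2 := by nlinarith
  have hcast : ((Fintype.card (E × A) * 2 ^ (Fintype.card (E × A) - 1) - 1 : ℕ) : ℝ) =
      Fintype.card (E × A) * 2 ^ Fintype.card (E × A) / 2 - 1 := by
    rw [Nat.cast_sub (Nat.mul_pos (by omega) (by positivity))]
    obtain ⟨l, hl⟩ : ∃ l, Fintype.card (E × A) = l + 1 := ⟨Fintype.card (E × A) - 1, by omega⟩
    rw [hl, Nat.add_sub_cancel]
    push_cast
    ring
  obtain ⟨am, ham⟩ : ∃ am : ℕ,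
      am = 4 * (Fintype.card (E × A) * 2 ^ Fintype.card (E × A)) * Fintype.card (E × A) :=
    ⟨_, rfl⟩
  have ham0 : 0 < am := by rw [ham]; positivity
  obtain ⟨P, hP⟩ : ∃ P : ℝ, P = am * (512 * Fintype.card D * Fintype.card D') := ⟨_, rfl⟩
  obtain ⟨ak, hak⟩ : ∃ ak : ℕ, (ak : ℝ) = 45 * P :=
    ⟨45 * (am * (512 * Fintype.card D * Fintype.card D')), by rw [hP]; push_cast; ring⟩
  obtain ⟨c, hc⟩ : ∃ c : ℝ,
      c = 4 * (512 * Fintype.card D * Fintype.card D') + 2 ^ Fintype.card (E × A) := ⟨_, rfl⟩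
  obtain ⟨a, ha⟩ : ∃ a : ℝ, a = 2 * Fintype.card A * ak + P * (67 / 4) +
      (Fintype.card (E × A) * 2 ^ Fintype.card (E × A) / 2 - 1) := ⟨_, rfl⟩
  have hH' : 8 * (Fintype.card (E × A) * 2 ^ Fintype.card (E × A) / 2 : ℝ) *
      Fintype.card (E × A) ≤ P := by
    have h1 : (1 : ℝ) ≤ 512 * Fintype.card D * Fintype.card D' := by nlinarith
    refine le_trans (le_of_eq ?_) (hP ▸ le_mul_of_one_le_right (by positivity) h1)
    rw [ham]
    push_cast
    ring
  have hP0 : 0 < P := by rw [hP]; positivity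
  have hc0 : 0 < c := by rw [hc]; positivity
  have ha0 : 0 < a := by
    have : (0 : ℝ) ≤ 2 * Fintype.card A * ak := by positivity
    linarith
  obtain ⟨W, hW⟩ := exists_nat_gt (10 * c + (a + ε) + a * c / ε)
  have hac : 0 ≤ a * c / ε := by positivity
  have hW0 : (0 : ℝ) < W := by linarith
  have hWw : (W : ℝ) ≤ Fintype.card A * W := le_mul_of_one_le_left hW0.le hA
  refine ⟨am, ak, W, 9 * (Fintype.card A * W) ^ 2 * (a + ε) /
    (a * (3 * (Fintype.card A * W) + c) ^ 2), ham0, by exact_mod_cast hW0,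
    arith_C hc0.le (by linarith) ha0 hε0 ((div_lt_iff₀ hε0).1 (by linarith)),
    fun S hS hWF hN => ⟨hWF, fun T _ _ => ?_⟩⟩
  have h := key' hH hk hε0 hε ham0 hP hak hc hH' (a := a + ε) (by rw [ha]) (by linarith)
    (by linarith) hS hN T
  have h1 : ((gad am ak W H S).2.2.1 : ℝ) = S.V.length * a := by
    rw [ha, hP, ← hcast, gad]
    push_cast
    ring
  have h2 : ((gad am ak W H S).2.2.2 : ℝ) = S.V.length ^ 2 * (9 * (Fintype.card A * W) ^ 2) := by
    rw [gad]
    push_cast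
    ring
  rw [Nat.cast_mul, Nat.cast_mul, Nat.cast_mul, h1, h2, div_mul_eq_mul_div,
    div_le_iff₀ (by positivity)]
  have h3 := mul_le_mul_of_nonneg_left h
    (show (0 : ℝ) ≤ 9 * (Fintype.card A * W) ^ 2 * (S.V.length * a) by positivity)
  linarith

end GadNo

/-- All cuts. -/
theorem gadNo_proof : GadNoStmt := by
  intro X D E M A D' _ _ _ _ _ H hH hk ε hε
  obtain ⟨am, ak, W, C, h1, h2, h3, h4⟩ := GadNo.small_eps (X := X) (D := D) H hH hk
    (lt_min hε one_pos) (min_le_right ε 1)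
  exact ⟨am, ak, W, C, h1, h2, h3, fun S hS hW hN => h4 S hS hW fun f =>
    le_trans (mul_le_mul_of_nonneg_right (min_le_left ε 1) (by positivity)) (hN f)⟩

end Vale.Agent.P318.Q
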