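import Vale.Agent.P318.Q.Stmt

/-!
Track Q: the gadget is computable in polynomial time.
-/

namespace Vale.Agent.P318.Q

open Vale.Agent.Lib.PolyTime Vale.Agent.Lib.PCP Finset
open scoped BigOperators Classical

namespace GadPT

variable {α X κ β : Type} [Enc α] [Enc X] [Enc β]

/-- Flat-mapping over the product of a computable list and a constant list. -/
theorem flatMap_prod {V : α → List X} (hV : PT ∅ V) (L : List κ) {g : α → X × κ → List β}
    (hg : ∀ k, PT ∅ fun p : α × X => g p.1 (p.2, k)) :
    PT ∅ fun a => ((V a).flatMap fun x => L.map fun k => (x, k)).flatMap (g a) := by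
  refine (PT.flatMap (f := fun a x => L.flatMap fun k => g a (x, k)) hV
    (PT.flatMapConst L (f := fun k (p : α × X) => g p.1 (p.2, k)) fun k _ => hg k)).congr
    fun a => ?_
  rw [List.flatMap_assoc]
  refine List.flatMap_congr fun x _ => ?_
  rw [List.flatMap_map]

/-- Mapping over the product of a computable list and a constant list. -/
theorem map_prod {V : α → List X} (hV : PT ∅ V) (L : List κ) {g : α → X × κ → β}
    (hg : ∀ k, PT ∅ fun p : α × X => g p.1 (p.2, k)) :
    PT ∅ fun a => ((V a).flatMap fun x => L.map fun k => (x, k)).map (g a) := by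
  refine (flatMap_prod hV L (g := fun a w => [g a w])
    fun k => PT.cons (hg k) (PT.const [])).congr fun a => ?_
  exact List.map_eq_flatMap.symm

end GadPT

open GadPT in
theorem gadPT_proof : GadPTStmt := by
  intro X D E M A D' _ _ _ _ _ _ _ _ _ _ _ _ H am ak W Fm hF
  have hn : PT ∅ fun φ => (Fm φ).V.length := hF.V.length
  have hnb : PBd fun φ => (Fm φ).V.length := PBd.length hF.V
  have hm : PT ∅ fun φ => Un.mk (2 * ((Fm φ).V.length * Fintype.card A) * W) :=
    PT.mkUn (((PT.const 2).mul (hn.mul (PT.const _))).mul (PT.const _))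
      (((PBd.const 2).mul (hnb.mul (PBd.const _))).mul (PBd.const _))
  refine PT.pair ?_ (PT.pair ?_ (PT.pair (hn.mul (PT.const _))
    (PT.powConst (((PT.const 3).mul (hn.mul (PT.const _))).mul (PT.const _)) 2)))
  · unfold gVerts gLits gMain gSmall
    refine PT.append (PT.append (PT.append ?_ ?_) ?_) ?_
    · exact map_prod hF.V _ (g := fun _ l => ((Sum.inl l : Bv X D E A D'), Un.mk W))
        fun k => (PT.inl (PT.snd'.pair (PT.const _))).pair (PT.const _)
    · exact PT.cons ((PT.const _).pair hm) (PT.cons ((PT.const _).pair hm) (PT.const _))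
    · exact map_prod hF.V _
        (g := fun _ w => ((Sum.inr (Sum.inr (Sum.inl w)) : Bv X D E A D'), Un.mk 1))
        fun k => (PT.inr (PT.inr (PT.inl (PT.snd'.pair (PT.const _))))).pair (PT.const _)
    · exact map_prod hF.V _
        (g := fun _ w => ((Sum.inr (Sum.inr (Sum.inr w)) : Bv X D E A D'), Un.mk 1))
        fun k => (PT.inr (PT.inr (PT.inr (PT.snd'.pair (PT.const _))))).pair (PT.const _)
  · unfold gEdges gLits gMain gSmall
    refine PT.append (PT.append ?_ ?_) ?_
    · refine flatMap_prod hF.V _ (g := fun _ l => [((Sum.inl l : Bv X D E A D'),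
        (Sum.inr (Sum.inl true) : Bv X D E A D'), ak), (Sum.inl l, Sum.inr (Sum.inl false), ak)])
        fun k => ?_
      exact PT.cons ((PT.inl (PT.snd'.pair (PT.const _))).pair (PT.const _))
        (PT.cons ((PT.inl (PT.snd'.pair (PT.const _))).pair (PT.const _)) (PT.const _))
    · refine flatMap_prod hF.V _ (g := fun φ w => ((Sum.inr (Sum.inr (Sum.inl w)) : Bv X D E A D'),
        (Sum.inr (Sum.inl (anc w.2.2.2.1 w.2.2.2.2)) : Bv X D E A D'), mag w.2.2.2.2 * am) ::
        (List.finRange 9).map fun i => (Sum.inr (Sum.inr (Sum.inl w)),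
          Sum.inl ((Fm φ).mv w.2.1 i w.1, H.al w.2.2.1 i, w.2.2.2.1 i), am)) fun k => ?_
      have h1 : PT ∅ fun p : CNF × X =>
          (Sum.inr (Sum.inr (Sum.inl (p.2, k))) : Bv X D E A D') :=
        PT.inr (PT.inr (PT.inl (PT.snd'.pair (PT.const _))))
      refine PT.cons (h1.pair (PT.const ((Sum.inr (Sum.inl (anc k.2.2.1 k.2.2.2)) : Bv X D E A D'),
        mag k.2.2.2 * am))) (PT.mapConst _ fun i _ => ?_)
      exact h1.pair ((PT.inl ((hF.mv k.1 i).pair (PT.const (H.al k.2.1 i, k.2.2.1 i)))).pair
        (PT.const am))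
    · refine flatMap_prod hF.V _ (g := fun φ w => ((Sum.inr (Sum.inr (Sum.inr w)) : Bv X D E A D'),
        (Sum.inr (Sum.inl false) : Bv X D E A D'),
        Fintype.card (E × A) - if acc H ((Fm φ).con w.1) w.2 then 1 else 0) ::
        (univ : Finset (E × A)).toList.map fun p => (Sum.inr (Sum.inr (Sum.inr w)),
          Sum.inl ((Fm φ).nb p.1 w.1, p.2, w.2 p), 1)) fun k => ?_
      have h1 : PT ∅ fun p : CNF × X =>
          (Sum.inr (Sum.inr (Sum.inr (p.2, k))) : Bv X D E A D') :=
        PT.inr (PT.inr (PT.inr (PT.snd'.pair (PT.const _))))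
      have h2 : PT ∅ fun p : CNF × X => (Fm p.1).con p.2 := PT.funMk hF.con
      refine PT.cons (h1.pair ((PT.const _).pair ?_)) (PT.mapConst _ fun q _ => ?_)
      · exact PT.finComp (fun c => Fintype.card (E × A) - if acc H c k then 1 else 0) h2
      · exact h1.pair ((PT.inl ((hF.nb q.1).pair (PT.const (q.2, k q)))).pair (PT.const 1))

end Vale.Agent.P318.Q
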