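import Vale.Agent.P318.Q.Stmt

/-!
Track Q: the gadget is well formed, and honest cuts are cheap.
-/

namespace Vale.Agent.P318.Q

open Vale.Agent.Lib.PolyTime Vale.Agent.Lib.PCP Finset
open scoped BigOperators Classical

namespace GadYes

theorem sum_flatMap {α β : Type} (l : List α) (g : α → List β) (f : β → ℕ) :
    ((l.flatMap g).map f).sum = (l.map fun a => ((g a).map f).sum).sum := by
  induction l with
  | nil => simp
  | cons c l ih => simp [List.flatMap_cons, ih]

/-- Sums over the product of a list with a finite type. -/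
theorem sum_prod {α β : Type} [Fintype β] (l : List α) (f : α × β → ℕ) :
    ((l.flatMap fun x => (univ : Finset β).toList.map fun p => (x, p)).map f).sum =
      (l.map fun x => ∑ p, f (x, p)).sum := by
  rw [sum_flatMap]
  congr 2
  funext x
  rw [List.map_map, Finset.sum_map_toList]
  rfl

theorem mem_prod {α β : Type} [Fintype β] (l : List α) (w : α × β) :
    w ∈ (l.flatMap fun x => (univ : Finset β).toList.map fun p => (x, p)) ↔ w.1 ∈ l := by
  obtain ⟨x, p⟩ := w
  simp

theorem nodup_prod {α β : Type} [Fintype β] {l : List α} (hl : l.Nodup) :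
    (l.flatMap fun x => (univ : Finset β).toList.map fun p => (x, p)).Nodup :=
  List.Nodup.product hl (Finset.nodup_toList _)

theorem sum_le_length {α : Type} (l : List α) (f : α → ℕ) (c : ℕ) (h : ∀ x ∈ l, f x ≤ c) :
    (l.map f).sum ≤ l.length * c := by
  have := List.sum_le_card_nsmul (l.map f) c (by
    intro y hy
    obtain ⟨x, hx, rfl⟩ := List.mem_map.1 hy
    exact h x hx)
  simpa using this

/-- Sums over bit patterns of a function of the agreement with a fixed pattern. -/
theorem sum_agree {ι : Type} [Fintype ι] [DecidableEq ι] (y : ι → Bool) (g : ℕ → ℕ) :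
    ∑ σ : ι → Bool, g (univ.filter fun i => y i = σ i).card =
      ∑ t ∈ range (Fintype.card ι + 1), (Fintype.card ι).choose t * g t := by
  have h := Finset.sum_powerset_apply_card g (x := (univ : Finset ι))
  simp only [Finset.card_univ, smul_eq_mul, Finset.powerset_univ] at h
  rw [← h]
  refine Finset.sum_bij' (fun σ _ => univ.filter fun i => y i = σ i)
    (fun s _ i => if i ∈ s then y i else !y i) (by simp) (by simp) ?_ ?_ (by simp)
  · intro σ _
    funext i
    cases h1 : y i <;> cases h2 : σ i <;> simp [h1, h2]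
  · intro s _
    ext i
    by_cases hi : i ∈ s <;> simp [hi]

/-- The cost of a main Steiner vertex on its cheaper side. -/
def cost (t : ℕ) (j : Fin 4) : ℕ :=
  if (if Even t then decide ((j : ℕ) < 2) else decide (2 ≤ (j : ℕ))) = true then
    min (9 - t) (t + mag j) else min (9 - t + mag j) t

theorem sum_cost : ∑ t ∈ range (9 + 1), Nat.choose 9 t * ∑ j, cost t j = 128 * 67 := by
  decide

theorem anc_eq (y ε : Fin 9 → Bool) (hy : Even (univ.filter fun i => y i = true).card)
    (j : Fin 4) : anc ε j = if Even (univ.filter fun i => y i = ε i).card then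
      decide ((j : ℕ) < 2) else decide (2 ≤ (j : ℕ)) := by
  have h : (univ.filter fun i => ε i = true).card + (univ.filter fun i => y i = true).card +
      (univ.filter fun i => y i = ε i).card =
      9 + 2 * (univ.filter fun i => y i = true ∧ ε i = true).card := by
    simp only [Finset.card_filter, Finset.mul_sum, ← Finset.sum_add_distrib]
    refine (Finset.sum_congr rfl (g := fun i => 1 + 2 * if y i = true ∧ ε i = true then 1 else 0)
      fun i _ => ?_).trans (by simp [Finset.sum_add_distrib])
    cases y i <;> cases ε i <;> simp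
  unfold anc
  rw [Nat.even_iff] at hy
  simp only [Nat.even_iff]
  split_ifs with h1 h2 h2 <;> first | rfl | omega

section

variable {X D E M A D' : Type} [Fintype D] [Fintype E] [Fintype A] [Fintype D']

theorem fst_gVerts (W : ℕ) (S : SG X D E M) :
    (gVerts (A := A) (D' := D') W S).map Prod.fst = (gLits S).map Sum.inl ++
      ([Sum.inr (Sum.inl true), Sum.inr (Sum.inl false)] ++
      ((gMain S).map (fun w => Sum.inr (Sum.inr (Sum.inl w))) ++
      (gSmall S).map (fun w => Sum.inr (Sum.inr (Sum.inr w))))) := by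
  simp [gVerts, Function.comp_def]

theorem mem_lit (W : ℕ) (S : SG X D E M) (l : X × A × Bool) (h : l.1 ∈ S.V) :
    Sum.inl l ∈ (gVerts (A := A) (D' := D') W S).map Prod.fst := by
  rw [fst_gVerts]
  exact List.mem_append_left _ (List.mem_map_of_mem ((mem_prod _ _).2 h))

theorem mem_anc (W : ℕ) (S : SG X D E M) (b : Bool) :
    Sum.inr (Sum.inl b) ∈ (gVerts (A := A) (D' := D') W S).map Prod.fst := by
  rw [fst_gVerts]
  cases b <;> simp

theorem wwf [Nonempty D] (H : Had M A D') (hH : H.OK) (hk : 2 ≤ Fintype.card (E × A))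
    (am ak W : ℕ) (ham : 0 < am) (hW : 0 < W) (S : SG X D E M) (lam : ℝ) (hS : S.WF lam) :
    WWF (gad am ak W H S) := by
  have hn : 0 < S.V.length := List.length_pos_iff.2 hS.ne
  have hA : 0 < Fintype.card A := by
    rw [Fintype.card_prod] at hk
    exact Nat.pos_of_ne_zero fun h => by simp [h] at hk
  have hD : 0 < Fintype.card D := Fintype.card_pos
  have hD' : 0 < Fintype.card D' := by
    have : Nonempty A := Fintype.card_pos_iff.1 hA
    refine Fintype.card_pos_iff.2 (not_isEmpty_iff.1 fun h => ?_)
    have := hH.pair 0 1 (by decide) (fun _ => 1) fun _ => 1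
    simp at this
  refine ⟨?_, ?_, ?_, ?_, ?_, ?_⟩
  · change ((gVerts W S).map Prod.fst).Nodup
    rw [fst_gVerts]
    refine List.nodup_append.2 ⟨(nodup_prod hS.nodup).map Sum.inl_injective,
      List.nodup_append.2 ⟨by simp, List.nodup_append.2 ⟨(nodup_prod hS.nodup).map
        fun _ _ h => by simpa using h, (nodup_prod hS.nodup).map fun _ _ h => by simpa using h,
        ?_⟩, ?_⟩, ?_⟩
    · simp only [List.mem_map]
      rintro _ ⟨_, _, rfl⟩ _ ⟨_, _, rfl⟩
      simp
    · simp only [List.mem_append, List.mem_map, List.mem_cons, List.not_mem_nil, or_false]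
      rintro _ (rfl | rfl) _ (⟨_, _, rfl⟩ | ⟨_, _, rfl⟩) <;> simp
    · simp only [List.mem_append, List.mem_map, List.mem_cons, List.not_mem_nil, or_false]
      rintro _ ⟨_, _, rfl⟩ _ ((rfl | rfl) | ⟨_, _, rfl⟩ | ⟨_, _, rfl⟩) <;> simp
  · change 2 ≤ (gVerts W S).length
    simp only [gVerts, List.length_append, List.length_cons, List.length_nil]
    omega
  · intro v hv
    change v ∈ gVerts W S at hv
    simp only [gVerts, List.mem_append, List.mem_map, List.mem_cons, List.not_mem_nil,
      or_false] at hv
    rcases hv with ((⟨_, _, rfl⟩ | rfl | rfl) | ⟨_, _, rfl⟩) | ⟨_, _, rfl⟩ <;> positivity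
  · intro e he
    change e ∈ gEdges am ak H S at he
    change e.1 ∈ (gVerts W S).map Prod.fst ∧ e.2.1 ∈ (gVerts W S).map Prod.fst
    simp only [gEdges, List.mem_append, List.mem_flatMap, List.mem_map, List.mem_cons,
      List.not_mem_nil, or_false] at he
    rcases he with (⟨l, hl, rfl | rfl⟩ | ⟨w, hw, he⟩) | ⟨w, hw, he⟩
    · exact ⟨mem_lit W S l ((mem_prod _ _).1 hl), mem_anc W S _⟩
    · exact ⟨mem_lit W S l ((mem_prod _ _).1 hl), mem_anc W S _⟩
    · have h : Sum.inr (Sum.inr (Sum.inl w)) ∈ (gVerts (A := A) W S).map Prod.fst := by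
        rw [fst_gVerts]
        exact List.mem_append_right _ (List.mem_append_right _ (List.mem_append_left _
          (List.mem_map_of_mem hw)))
      rcases he with rfl | ⟨i, _, rfl⟩
      · exact ⟨h, mem_anc W S _⟩
      · exact ⟨h, mem_lit W S _ ((hS.mv_bij _ _).mapsTo ((mem_prod _ _).1 hw))⟩
    · have h : Sum.inr (Sum.inr (Sum.inr w)) ∈ (gVerts (D' := D') W S).map Prod.fst := by
        rw [fst_gVerts]
        exact List.mem_append_right _ (List.mem_append_right _ (List.mem_append_right _
          (List.mem_map_of_mem hw)))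
      rcases he with rfl | ⟨i, _, rfl⟩
      · exact ⟨h, mem_anc W S _⟩
      · exact ⟨h, mem_lit W S _ ((hS.nb_bij _).mapsTo ((mem_prod _ _).1 hw))⟩
  · change 0 < S.V.length * _
    positivity
  · change 0 < (3 * (S.V.length * Fintype.card A) * W) ^ 2
    positivity

/-- The number of literals on the side `true` at a main Steiner vertex. -/
noncomputable def inM (H : Had M A D') (S : SG X D E M) (f : X → M)
    (w : X × D × D' × (Fin 9 → Bool) × Fin 4) : ℕ :=
  (univ.filter fun i => H.bit (H.al w.2.2.1 i) (f (S.mv w.2.1 i w.1)) = w.2.2.2.1 i).card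

/-- The honest cut. -/
noncomputable def cut (H : Had M A D') (S : SG X D E M) (f : X → M) : Bv X D E A D' → Bool
  | Sum.inl l => decide (H.bit l.2.1 (f l.1) = l.2.2)
  | Sum.inr (Sum.inl b) => b
  | Sum.inr (Sum.inr (Sum.inl w)) => if anc w.2.2.2.1 w.2.2.2.2 = true then
      decide (9 - inM H S f w ≤ inM H S f w + mag w.2.2.2.2)
      else decide (9 - inM H S f w + mag w.2.2.2.2 ≤ inM H S f w)
  | Sum.inr (Sum.inr (Sum.inr w)) => decide (w.2 = fun p => H.bit p.2 (f (S.nb p.1 w.1)))

theorem mass_ge (am ak W : ℕ) (H : Had M A D') (S : SG X D E M) (f : X → M) (b : Bool) :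
    3 * (S.V.length * Fintype.card A) * W ≤ wmass (gad am ak W H S) (cut H S f) b := by
  change _ ≤ ((gVerts W S).map fun v => if cut H S f v.1 = b then v.2.v else 0).sum
  simp only [gVerts, List.map_append, List.sum_append, List.map_map, Function.comp_def]
  have h1 : ((gLits S).map fun l => if cut H S f (Sum.inl l) = b then W else 0).sum =
      S.V.length * Fintype.card A * W := by
    rw [gLits, sum_prod]
    have : ∀ x, ∑ p : A × Bool, (if cut H S f (Sum.inl (x, p)) = b then W else 0) =
        Fintype.card A * W := fun x => by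
      rw [Fintype.sum_prod_type, ← Finset.card_univ, ← smul_eq_mul, ← Finset.sum_const]
      refine Finset.sum_congr rfl fun a _ => ?_
      cases h : H.bit a (f x) <;> cases b <;> simp [cut, h]
    simp [this, mul_assoc]
  rw [h1]
  refine le_trans ?_ ((Nat.le_add_right _ _).trans (Nat.le_add_right _ _))
  cases b <;> simp [cut] <;> exact le_of_eq (by ring)

theorem sum_ite_card {ι : Type} [Fintype ι] (P : ι → Prop) [DecidablePred P] (c : ℕ) :
    ∑ i, (if P i then 0 else c) = (Fintype.card ι - (univ.filter P).card) * c := by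
  have h := Finset.card_filter_add_card_filter_not (s := (univ : Finset ι)) P
  rw [Finset.sum_ite, Finset.sum_const_zero, zero_add, Finset.sum_const, smul_eq_mul,
    ← Finset.card_univ, ← h, Nat.add_sub_cancel_left]

theorem sum_ite_card' {ι : Type} [Fintype ι] (P : ι → Prop) [DecidablePred P] (c : ℕ) :
    ∑ i, (if P i then c else 0) = (univ.filter P).card * c := by
  rw [Finset.sum_ite, Finset.sum_const_zero, add_zero, Finset.sum_const, smul_eq_mul]

omit [Fintype D] [Fintype D'] in
theorem main_cost (am : ℕ) (H : Had M A D') (S : SG X D E M) (f : X → M)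
    (w : X × D × D' × (Fin 9 → Bool) × Fin 4)
    (hw : H.even w.2.2.1 fun i => f (S.mv w.2.1 i w.1)) :
    (if cut H S f (Sum.inr (Sum.inr (Sum.inl w))) = anc w.2.2.2.1 w.2.2.2.2 then 0
      else mag w.2.2.2.2 * am) + ∑ i, (if cut H S f (Sum.inr (Sum.inr (Sum.inl w))) =
        decide (H.bit (H.al w.2.2.1 i) (f (S.mv w.2.1 i w.1)) = w.2.2.2.1 i) then 0 else am) =
      cost (inM H S f w) w.2.2.2.2 * am := by
  have ha := anc_eq _ w.2.2.2.1 hw w.2.2.2.2
  change _ = if Even (inM H S f w) then _ else _ at ha
  have ht : ∑ i, (if true =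
      decide (H.bit (H.al w.2.2.1 i) (f (S.mv w.2.1 i w.1)) = w.2.2.2.1 i) then 0 else am) =
      (9 - inM H S f w) * am := by
    simpa [inM] using sum_ite_card
      (fun i => H.bit (H.al w.2.2.1 i) (f (S.mv w.2.1 i w.1)) = w.2.2.2.1 i) am
  have hf : ∑ i, (if false =
      decide (H.bit (H.al w.2.2.1 i) (f (S.mv w.2.1 i w.1)) = w.2.2.2.1 i) then 0 else am) =
      inM H S f w * am := by
    simpa [inM] using sum_ite_card'
      (fun i => H.bit (H.al w.2.2.1 i) (f (S.mv w.2.1 i w.1)) = w.2.2.2.1 i) am
  rw [cost, ← ha]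
  cases hc : cut H S f (Sum.inr (Sum.inr (Sum.inl w))) <;>
    cases hb : anc w.2.2.2.1 w.2.2.2.2 <;> simp only [cut, hb] at hc <;> simp at hc
  · rw [hf]
    simp [min_eq_right hc.le]
  · rw [hf, if_pos rfl, min_eq_right (by omega), if_neg (by simp)]
    ring
  · rw [ht, if_neg (by simp), if_neg (by simp), min_eq_left hc]
    ring
  · rw [ht]
    simp [min_eq_left (tsub_le_iff_right.2 hc)]

omit [Fintype D] [Fintype D'] in
theorem small_cost (H : Had M A D') (S : SG X D E M) (f : X → M) (hk : 2 ≤ Fintype.card (E × A))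
    (x : X) (hx : S.con x (fun e => f (S.nb e x)) = true) :
    ∑ σ : E × A → Bool, ((if cut H S f (Sum.inr (Sum.inr (Sum.inr (x, σ)))) = false then 0
      else Fintype.card (E × A) - if acc H (S.con x) σ then 1 else 0) +
      ∑ p : E × A, if cut H S f (Sum.inr (Sum.inr (Sum.inr (x, σ)))) =
        decide (H.bit p.2 (f (S.nb p.1 x)) = σ p) then 0 else 1) =
      Fintype.card (E × A) * 2 ^ (Fintype.card (E × A) - 1) - 1 := by
  set y : E × A → Bool := fun p => H.bit p.2 (f (S.nb p.1 x)) with hy
  have h := sum_agree y id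
  simp only [id, mul_comm (Nat.choose _ _), Nat.sum_range_mul_choose] at h
  rw [← h]
  apply Nat.eq_sub_of_add_eq
  have h1 : ∑ σ : E × A → Bool, (if σ = y then 1 else 0) = 1 := by simp
  refine (congrArg _ h1.symm).trans ?_
  rw [← Finset.sum_add_distrib]
  refine Finset.sum_congr rfl fun σ _ => ?_
  by_cases hσ : σ = y
  · have hacc : acc H (S.con x) σ := ⟨fun e => f (S.nb e x), fun e a => by rw [hσ], hx⟩
    have hc : cut H S f (Sum.inr (Sum.inr (Sum.inr (x, σ)))) = true := by simp [cut, hσ, hy]
    rw [hc, if_pos hacc, if_pos hσ, hσ]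
    simp only [hy]
    simp
    rw [Fintype.card_prod] at hk
    omega
  · have hc : cut H S f (Sum.inr (Sum.inr (Sum.inr (x, σ)))) = false := by
      simpa [cut, hy] using hσ
    rw [hc, if_pos rfl, if_neg hσ]
    simp [hy]

theorem cut_le (am ak W : ℕ) (H : Had M A D') (S : SG X D E M) (f : X → M)
    (hk : 2 ≤ Fintype.card (E × A)) (hc : ∀ x ∈ S.V, S.con x (fun e => f (S.nb e x)) = true)
    (he : ∀ x ∈ S.V, ∀ d d', H.even d' fun i => f (S.mv d i x)) :
    wcut (gad am ak W H S) (cut H S f) ≤ (gad am ak W H S).2.2.1 := by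
  change ((gEdges am ak H S).map fun e =>
    if cut H S f e.1 = cut H S f e.2.1 then 0 else e.2.2).sum ≤ S.V.length * _
  simp only [gEdges, List.map_append, List.sum_append, mul_add]
  refine add_le_add (add_le_add ?_ ?_) ?_
  · rw [sum_flatMap, gLits, sum_prod]
    refine sum_le_length _ _ _ fun x _ => ?_
    refine (Finset.sum_le_card_nsmul _ _ ak fun p _ => ?_).trans (le_of_eq (by simp [mul_comm]))
    simp only [List.map_cons, List.map_nil, List.sum_cons, List.sum_nil]
    cases cut H S f (Sum.inl (x, p)) <;> simp [cut]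
  · rw [sum_flatMap, gMain, sum_prod]
    refine sum_le_length _ _ _ fun x hx => le_of_eq ?_
    have h : ∀ d d', ∑ p : (Fin 9 → Bool) × Fin 4, cost (inM H S f (x, d, d', p)) p.2 * am =
        128 * 67 * am := fun d d' => by
      rw [← Finset.sum_mul, Fintype.sum_prod_type, ← sum_cost]
      exact congrArg (· * am) (sum_agree (fun i => H.bit (H.al d' i) (f (S.mv d i x)))
        fun t => ∑ j, cost t j)
    refine (Finset.sum_congr rfl (g := fun p => cost (inM H S f (x, p)) p.2.2.2 * am)
      fun p _ => ?_).trans ?_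
    · rw [← main_cost am H S f (x, p) (he x hx _ _), List.map_cons, List.sum_cons, List.map_map,
        Fin.sum_univ_def]
      rfl
    · rw [Fintype.sum_prod_type]
      simp only [Fintype.sum_prod_type (α₁ := D'), h]
      simp
      ring
  · rw [sum_flatMap, gSmall, sum_prod]
    refine sum_le_length _ _ _ fun x hx => le_of_eq ?_
    rw [← small_cost H S f hk x (hc x hx)]
    refine Finset.sum_congr rfl fun σ _ => ?_
    rw [List.map_cons, List.sum_cons, List.map_map, Finset.sum_map_toList]
    rfl

end

end GadYes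

open GadYes in
theorem gadYes_proof : GadYesStmt := by
  intro X D E M A D' _ _ _ _ _ H hH hk am ak W ham hW S lam C hS
  have hw := wwf H hH hk am ak W ham hW S lam hS
  refine ⟨hw, fun ⟨f, hc, he⟩ => ⟨hw, cut H S f, ?_⟩⟩
  have hp : 0 < 3 * (S.V.length * Fintype.card A) * W := Nat.pos_of_ne_zero fun h => by
    have := hw.b_pos
    simp only [gad, h] at this
    simp at this
  have ht := mass_ge am ak W H S f true
  have hf := mass_ge am ak W H S f false
  refine ⟨hp.trans_le ht, hp.trans_le hf, Nat.mul_le_mul (cut_le am ak W H S f hk hc he) ?_⟩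
  change (3 * (S.V.length * Fintype.card A) * W) ^ 2 ≤ _
  rw [sq]
  exact Nat.mul_le_mul ht hf

end Vale.Agent.P318.Q
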