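import Mathlib.LinearAlgebra.Lagrange
import Mathlib.LinearAlgebra.Dual.Lemmas
import Vale.Agent.P318.Q.Stmt

/-!
Track Q: the binary code of the alphabet.
-/

namespace Vale.Agent.P318.Q

open Finset Polynomial
open scoped BigOperators Classical

namespace HadF

theorem exists_tr (F : Type) [Field F] [CharP F 2] : ∃ tr : F →+ ZMod 2, tr 1 ≠ 0 := by
  let _ := ZMod.algebra F 2
  by_contra h
  refine one_ne_zero ((Module.forall_dual_apply_eq_zero_iff (ZMod 2) (1 : F)).1 fun φ => ?_)
  by_contra h1
  exact h ⟨φ.toAddMonoidHom, h1⟩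

theorem decide_inj {x y : ZMod 2} (h : decide (x = 1) = decide (y = 1)) : x = y := by
  revert x y
  decide

theorem even_card {ι : Type} [Fintype ι] (x : ι → ZMod 2) (h : ∑ i, x i = 0) :
    Even (univ.filter fun i => decide (x i = 1) = true).card := by
  rw [← ZMod.natCast_eq_zero_iff_even, Finset.card_filter, Nat.cast_sum, ← h]
  refine Finset.sum_congr rfl fun i _ => ?_
  generalize x i = y
  revert y
  decide

theorem sum_lam {F : Type} [Field F] {s : Fin 9 → F} (hs : Function.Injective s) {p : F[X]}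
    (hp : p.natDegree ≤ 6) :
    ∑ i, (∏ k ∈ univ.erase i, (s i - s k))⁻¹ * p.eval (s i) = 0 := by
  have h := Lagrange.coeff_eq_sum (s := univ) hs.injOn (P := p)
    (lt_of_le_of_lt (degree_le_of_natDegree_le hp) (by simp; norm_num))
  rw [coeff_eq_zero_of_natDegree_lt (by simp; omega)] at h
  rw [h]
  exact Finset.sum_congr rfl fun i _ => by rw [div_eq_inv_mul]

end HadF

open HadF in
theorem had_proof : HadStmt := by
  intro F _ _ _ s hs
  obtain ⟨tr, htr⟩ := exists_tr F
  let lam : Fin 9 → F := fun i => (∏ k ∈ univ.erase i, (s i - s k))⁻¹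
  have hlam : ∀ i, lam i ≠ 0 := fun i => inv_ne_zero (Finset.prod_ne_zero_iff.2 fun k hk =>
    sub_ne_zero.2 fun e => (Finset.ne_of_mem_erase hk) (hs e).symm)
  refine ⟨⟨fun a v => decide (tr (∑ t, a t * v t) = 1),
    fun d i t => lam i * (d.1 t + s i * d.2 t)⟩, ⟨fun v w h => ?_, fun i k hik e e' => ?_⟩,
    fun φ hφ β₀ β₁ d => ?_⟩
  · funext t
    by_contra hne
    have h1 := decide_inj (h (Pi.single t (v t - w t)⁻¹))
    rw [← sub_eq_zero, ← map_sub] at h1
    simp only [Pi.single_apply, ite_mul, zero_mul, Finset.sum_ite_eq', Finset.mem_univ,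
      if_true] at h1
    rw [← mul_sub, inv_mul_cancel₀ (sub_ne_zero.2 hne)] at h1
    exact htr h1
  · rw [Fintype.expect_mul_expect, ← Finset.expect_product', Finset.univ_product_univ]
    refine Fintype.expect_bijective (fun d : (Tb → F) × (Tb → F) =>
      (fun t => lam i * (d.1 t + s i * d.2 t), fun t => lam k * (d.1 t + s k * d.2 t)))
      (Finite.injective_iff_bijective.1 fun d d' h => ?_) _ _ fun _ => rfl
    have h3 : ∀ t, d.1 t = d'.1 t ∧ d.2 t = d'.2 t := fun t => by
      have h1 := mul_left_cancel₀ (hlam i) (congrFun (congrArg Prod.fst h) t)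
      have h2 := mul_left_cancel₀ (hlam k) (congrFun (congrArg Prod.snd h) t)
      have h4 : d.2 t = d'.2 t := mul_left_cancel₀ (sub_ne_zero.2 fun e => hik (hs e))
        (by linear_combination h1 - h2)
      exact ⟨by rw [h4] at h1; exact add_right_cancel h1, h4⟩
    exact Prod.ext (funext fun t => (h3 t).1) (funext fun t => (h3 t).2)
  · refine even_card (fun i => tr (∑ t, lam i * (d.1 t + s i * d.2 t) * φ (β₀ + β₁ * s i) t)) ?_
    rw [← map_sum, Finset.sum_comm, Finset.sum_eq_zero, map_zero]
    intro t _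
    obtain ⟨p, hp, e⟩ := hφ t
    have h1 : ((C (d.1 t) + X * C (d.2 t)) * p.comp (C β₀ + C β₁ * X)).natDegree ≤ 6 := by
      have h2 : (C (d.1 t) + X * C (d.2 t)).natDegree ≤ 1 := by compute_degree
      have h3 : (C β₀ + C β₁ * X).natDegree ≤ 1 := by compute_degree
      have h4 := natDegree_comp_le (p := p) (q := C β₀ + C β₁ * X)
      have h5 := Nat.mul_le_mul hp h3
      exact natDegree_mul_le.trans (by omega)
    rw [← sum_lam hs h1]
    refine Finset.sum_congr rfl fun i _ => ?_
    have := e (β₀ + β₁ * s i)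
    simp only [this, lam, eval_mul, eval_add, eval_C, eval_X, eval_comp, mul_assoc]

end Vale.Agent.P318.Q
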