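import Vale.Agent.P318.Q.Stmt

/-!
Track Q: the arithmetic on codes runs in polynomial time.
-/

namespace Vale.Agent.P318.Q

open Vale.Agent.Lib.PolyTime Vale.Agent.Lib.PCP Finset
open scoped BigOperators Classical

namespace KPTaux

variable {F : Type} [Field F]

/-! ### Lengths -/

theorem len_kadd_left (x y : List F) : (kadd x y).length ≤ x.length := by
  rw [kadd, List.length_zipWith]
  exact min_le_left _ _

theorem len_kadd_right (x y : List F) : (kadd x y).length ≤ y.length := by
  rw [kadd, List.length_zipWith]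
  exact min_le_right _ _

theorem len_ksmul (a : F) (x : List F) : (ksmul a x).length = x.length := by
  rw [ksmul, List.length_map]

theorem len_kmul (w : F) (x y : List F) : (kmul w x y).length ≤ y.length := by
  cases x with
  | nil => exact (len_ksmul 0 y).le
  | cons a x => exact (len_kadd_left _ _).trans (len_ksmul a y).le

theorem len_kconst (R : ℕ) (a : F) : (kconst R a).length ≤ R + 1 := by
  rw [kconst, List.length_cons, List.length_replicate]
  omega

theorem len_kpow (w : F) (R : ℕ) (x : List F) (e : ℕ) : (kpow w R x e).length ≤ R + 1 := by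
  induction e with
  | zero => exact len_kconst R 1
  | succ e ih =>
    rw [kpow, Function.iterate_succ_apply']
    exact (len_kmul _ _ _).trans ih

theorem len_ksum (R : ℕ) (l : List (List F)) : (ksum R l).length ≤ R + 1 := by
  induction l with
  | nil => exact len_kconst R 0
  | cons a l ih => exact (len_kadd_right _ _).trans ih

theorem len_kprod (w : F) (R : ℕ) (l : List (List F)) : (kprod w R l).length ≤ R + 1 := by
  induction l with
  | nil => exact len_kconst R 1
  | cons a l ih => exact (len_kmul _ _ _).trans ih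

theorem len_kfrob [Fintype F] (w : F) (R : ℕ) (x : List F) (k : ℕ) :
    (kfrob w R x k).length ≤ x.length + (R + 1) := by
  cases k with
  | zero => exact Nat.le_add_right _ _
  | succ k =>
    rw [kfrob, Function.iterate_succ_apply']
    exact (len_kpow _ _ _ _).trans (Nat.le_add_left _ _)

theorem allK_succ (F : Type) [Fintype F] (R : ℕ) : allK F (R + 1) =
    (allK F R).flatMap fun l => (univ : Finset F).toList.map fun a => a :: l := by
  rw [allK, Function.iterate_succ_apply']
  rfl

theorem len_allK (F : Type) [Fintype F] (R : ℕ) : (allK F R).length = Fintype.card F ^ R := by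
  induction R with
  | zero => rfl
  | succ R ih =>
    rw [allK_succ, List.length_flatMap, pow_succ, ← ih]
    simp

theorem len_mem_allK (F : Type) [Fintype F] (R : ℕ) : ∀ l ∈ allK F R, l.length = R := by
  induction R with
  | zero =>
    intro l hl
    rw [allK, Function.iterate_zero_apply, List.mem_singleton] at hl
    rw [hl]
    rfl
  | succ R ih =>
    intro l hl
    rw [allK_succ, List.mem_flatMap] at hl
    obtain ⟨l', hl', hl⟩ := hl
    obtain ⟨a, -, rfl⟩ := List.mem_map.1 hl
    rw [List.length_cons, ih l' hl']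

/-! ### Sizes -/

/-- A bound for the sizes of the codes of the elements. -/
noncomputable def bd (F : Type) [Fintype F] [Enc F] : ℕ := ∑ a : F, esize a

theorem esize_le_bd {F : Type} [Fintype F] [Enc F] (a : F) : esize a ≤ bd F :=
  Finset.single_le_sum (f := fun a : F => esize a) (fun _ _ => Nat.zero_le _) (Finset.mem_univ a)

theorem esize_le_len {F : Type} [Fintype F] [Enc F] {l : List F} {n : ℕ} (h : l.length ≤ n) :
    esize l ≤ n * (2 * bd F + 1) :=
  (esize_list_le fun a _ => esize_le_bd a).trans (Nat.mul_le_mul_right _ h)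

theorem pbd_len {F α : Type} [Fintype F] [Enc F] [Enc α] {n : α → ℕ} (hn : PBd n) :
    PBd fun a => n a * (2 * bd F + 1) := hn.mul (PBd.const _)

theorem PR.comp {F α β : Type} [Fintype F] [Enc α] [Enc β] {R : α → ℕ} {f : β → α}
    (hR : PR F R) (hf : PT ∅ f) : PR F fun b => R (f b) :=
  ⟨hR.1.comp hf, hR.2.1.comp hf, hR.2.2.comp hf⟩

/-! ### The operations -/

variable [Fintype F] [Enc F] [EncInj F] {α : Type} [Enc α]

theorem pt_add {x y : α → List F} (hx : PT ∅ x) (hy : PT ∅ y) :
    PT ∅ fun a => kadd (x a) (y a) := by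
  refine (PT.map (f := fun _ (p : F × F) => p.1 + p.2) (hx.zip hy)
    (PT.finComp (fun p : F × F => p.1 + p.2) PT.snd')).congr fun a => ?_
  rw [kadd, List.map_zip_eq_zipWith]
  rfl

theorem pt_smul {c : α → F} {x : α → List F} (hc : PT ∅ c) (hx : PT ∅ x) :
    PT ∅ fun a => ksmul (c a) (x a) :=
  PT.map (f := fun a b => c a * b) hx
    (PT.finComp2 (fun u v : F => u * v) (hc.comp PT.fst') PT.snd')

theorem pt_shift (w : F) {x : α → List F} (hx : PT ∅ x) : PT ∅ fun a => kshift w (x a) := by
  refine (PT.cons (PT.finComp (fun u : F => w * u) (PT.optGetD hx.getLast? (PT.const 0)))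
    hx.dropLast).congr fun a => ?_
  rw [kshift, List.getLastD_eq_getLast?]

theorem pt_mul (w : F) {x y : α → List F} (hx : PT ∅ x) (hy : PT ∅ y) :
    PT ∅ fun a => kmul w (x a) (y a) :=
  PT.foldr (f := fun a c r => kadd (ksmul c (y a)) (kshift w r)) hx (pt_smul (PT.const 0) hy)
    (pt_add (pt_smul PT.snd'.fst (hy.comp PT.fst')) (pt_shift w PT.snd'.snd))
    (pbd_len (F := F) (PBd.length hy)) fun a i => esize_le_len (len_kmul w ((x a).drop i) (y a))

omit [EncInj F] in
theorem pt_const {R : α → ℕ} {c : α → F} (hR : PR F R) (hc : PT ∅ c) :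
    PT ∅ fun a => kconst (R a) (c a) :=
  PT.cons hc (PT.replicate (hR.1.sub (PT.const 1)) (hR.2.1.mono fun _ => Nat.sub_le _ _)
    (PT.const 0))

omit [EncInj F] in
theorem pt_tau {R : α → ℕ} {c : α → F} (hR : PR F R) (hc : PT ∅ c) :
    PT ∅ fun a => ktau (R a) (c a) :=
  PT.cons hc (PT.cons (PT.const 1) (PT.replicate (hR.1.sub (PT.const 2))
    (hR.2.1.mono fun _ => Nat.sub_le _ _) (PT.const 0)))

theorem pt_pow (w : F) {R e : α → ℕ} {x : α → List F} (hR : PR F R) (hx : PT ∅ x) (he : PT ∅ e)
    (hb : PBd e) : PT ∅ fun a => kpow w (R a) (x a) (e a) :=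
  PT.iterate' (step := fun a => kmul w (x a)) he hb (pt_const hR (PT.const 1))
    (pt_mul w (hx.comp PT.fst') PT.snd') (pbd_len (F := F) (hR.2.1.add (PBd.const 1)))
    fun a j _ => esize_le_len (len_kpow w (R a) (x a) j)

theorem pt_frob (w : F) {R k : α → ℕ} {x : α → List F} (hR : PR F R) (hx : PT ∅ x) (hk : PT ∅ k)
    (hb : PBd k) : PT ∅ fun a => kfrob w (R a) (x a) (k a) :=
  PT.iterate' (step := fun a y => kpow w (R a) y (Fintype.card F)) hk hb hx
    (pt_pow w (PR.comp hR PT.fst') PT.snd' (PT.const _) (PBd.const _))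
    (pbd_len (F := F) ((PBd.length hx).add (hR.2.1.add (PBd.const 1))))
    fun a j _ => esize_le_len (len_kfrob w (R a) (x a) j)

theorem pt_sum {R : α → ℕ} {l : α → List (List F)} (hR : PR F R) (hl : PT ∅ l) :
    PT ∅ fun a => ksum (R a) (l a) :=
  PT.foldr (f := fun _ => kadd) hl (pt_const hR (PT.const 0)) (pt_add PT.snd'.fst PT.snd'.snd)
    (pbd_len (F := F) (hR.2.1.add (PBd.const 1)))
    fun a i => esize_le_len (len_ksum (R a) ((l a).drop i))

theorem pt_prod (w : F) {R : α → ℕ} {l : α → List (List F)} (hR : PR F R) (hl : PT ∅ l) :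
    PT ∅ fun a => kprod w (R a) (l a) :=
  PT.foldr (f := fun _ => kmul w) hl (pt_const hR (PT.const 1)) (pt_mul w PT.snd'.fst PT.snd'.snd)
    (pbd_len (F := F) (hR.2.1.add (PBd.const 1)))
    fun a i => esize_le_len (len_kprod w (R a) ((l a).drop i))

omit [EncInj F] in
theorem pt_all {R : α → ℕ} (hR : PR F R) : PT ∅ fun a => allK F (R a) := by
  refine PT.iterate (step := fun L : List (List F) =>
      L.flatMap fun l => (univ : Finset F).toList.map fun a => a :: l) hR.1 hR.2.1 (PT.const [[]])
    (PT.flatMap (f := fun _ l => (univ : Finset F).toList.map fun a => a :: l) PT.id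
      (PT.map (f := fun (p : List (List F) × List F) a => a :: p.2) (PT.const _)
        (PT.cons PT.snd' PT.fst'.snd)))
    (b := fun a => Fintype.card F ^ R a * (2 * (R a * (2 * bd F + 1)) + 1))
    (hR.2.2.mul (((PBd.const 2).mul (pbd_len (F := F) hR.2.1)).add (PBd.const 1))) fun a j hj => ?_
  change esize (allK F j) ≤ _
  refine (esize_list_le fun l hl => esize_le_len ((len_mem_allK F j l hl).le.trans hj)).trans ?_
  rw [len_allK]
  exact Nat.mul_le_mul_right _ (Nat.pow_le_pow_right Fintype.card_pos hj)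

theorem pt_inv (w : F) {R : α → ℕ} {x : α → List F} (hR : PR F R) (hx : PT ∅ x) :
    PT ∅ fun a => kinv w (R a) (x a) :=
  PT.optGetD (PT.find? (f := fun a y => decide (kmul w (x a) y = kconst (R a) 1)) (pt_all hR)
    (PT.eq (pt_mul w (hx.comp PT.fst') PT.snd') (pt_const (PR.comp hR PT.fst') (PT.const 1))))
    (pt_const hR (PT.const 0))

theorem pt_gen (w : F) {R : α → ℕ} (hR : PR F R) : PT ∅ fun a => kgen w (R a) := by
  have hR1 : PR F fun p : α × List F => R p.1 := PR.comp hR PT.fst'
  have hN : PT ∅ fun p : α × List F => Fintype.card F ^ R p.1 - 1 :=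
    ((PT.const _).pow hR1.1 hR1.2.1).sub (PT.const 1)
  have hNb : PBd fun p : α × List F => Fintype.card F ^ R p.1 - 1 :=
    hR1.2.2.mono fun _ => Nat.sub_le _ _
  have hR2 : PR F fun p : (α × List F) × ℕ => R p.1.1 := PR.comp hR PT.fst'.fst
  have hm : PT ∅ fun p : (α × List F) × ℕ => min p.2 (Fintype.card F ^ R p.1.1 - 1) :=
    PT.min PT.snd' (hN.comp PT.fst')
  have hall : PT ∅ fun p : α × List F => (List.range (Fintype.card F ^ R p.1 - 1)).all fun e =>
      decide (e = 0) || !decide (kpow w (R p.1) p.2 e = kconst (R p.1) 1) := by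
    refine (PT.all (f := fun p e => decide (e = 0) ||
      !decide (kpow w (R p.1) p.2 (min e (Fintype.card F ^ R p.1 - 1)) = kconst (R p.1) 1))
      (PT.range hN hNb) (PT.or (PT.eq PT.snd' (PT.const 0)) (PT.not (PT.eq (pt_pow w hR2
        PT.fst'.snd hm ((hNb.comp (A := ∅) PT.fst').mono fun _ => min_le_right _ _))
        (pt_const hR2 (PT.const 1)))))).congr fun p => ?_
    rw [Bool.eq_iff_iff, List.all_eq_true, List.all_eq_true]
    refine forall₂_congr fun e he => ?_
    rw [min_eq_left (List.mem_range.1 he).le]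
  exact PT.optGetD (PT.find? (f := fun a y => !decide (y = kconst (R a) 0) &&
      (List.range (Fintype.card F ^ R a - 1)).all fun e =>
        decide (e = 0) || !decide (kpow w (R a) y e = kconst (R a) 1)) (pt_all hR)
    (PT.and (PT.not (PT.eq PT.snd' (pt_const hR1 (PT.const 0)))) hall)) (pt_const hR (PT.const 0))

theorem pt_tr (w : F) {R : α → ℕ} {x : α → List F} (hR : PR F R) (hx : PT ∅ x) :
    PT ∅ fun a => ktr w (R a) (x a) := by
  have hR1 : PR F fun p : α × ℕ => R p.1 := PR.comp hR PT.fst'
  have hl : PT ∅ fun a => (List.range (R a)).map fun k => kfrob w (R a) (x a) k := by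
    refine (PT.map (f := fun a k => kfrob w (R a) (x a) (min k (R a))) (PT.range hR.1 hR.2.1)
      (pt_frob w hR1 (hx.comp PT.fst') (PT.min PT.snd' hR1.1)
        (hR1.2.1.mono fun _ => min_le_right _ _))).congr fun a => ?_
    refine List.map_congr_left fun k hk => ?_
    rw [min_eq_left (List.mem_range.1 hk).le]
  exact PT.headD (pt_sum hR hl) (PT.const 0)

theorem pt_fsum {l : α → List F} (hl : PT ∅ l) : PT ∅ fun a => (l a).sum :=
  (PT.foldr (init := fun _ => (0 : F)) (f := fun _ u v => u + v) hl (PT.const 0)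
    (PT.finComp2 (fun u v : F => u + v) PT.snd'.fst PT.snd'.snd) (PBd.const (bd F))
    fun _ _ => esize_le_bd _).congr fun _ => List.sum_eq_foldr.symm

end KPTaux

/-- The arithmetic on codes runs in polynomial time. -/
theorem kPT_proof : KPTStmt := fun _ _ _ _ _ w =>
  { add := KPTaux.pt_add
    smul := KPTaux.pt_smul
    mul := KPTaux.pt_mul w
    const := KPTaux.pt_const
    tau := KPTaux.pt_tau
    pow := KPTaux.pt_pow w
    frob := KPTaux.pt_frob w
    sum := KPTaux.pt_sum
    prod := KPTaux.pt_prod w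
    all := KPTaux.pt_all
    inv := KPTaux.pt_inv w
    gen := KPTaux.pt_gen w
    tr := KPTaux.pt_tr w
    fsum := KPTaux.pt_fsum }

end Vale.Agent.P318.Q
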