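import Vale.Agent.P318.Q.Stmt

/-!
Track Q: correctness of the arithmetic on codes.
-/

namespace Vale.Agent.P318.Q

open Vale.Agent.Lib.PolyTime Vale.Agent.Lib.PCP Finset
open scoped BigOperators Classical

namespace Ks

variable {F K : Type} [Field F] [Fintype F] [Field K] [Algebra F K]

omit [Fintype F] in
theorem kdec_nil (τ : K) : kdec τ ([] : List F) = 0 := rfl

omit [Fintype F] in
theorem kdec_cons (τ : K) (a : F) (l : List F) :
    kdec τ (a :: l) = algebraMap F K a + τ * kdec τ l := rfl

omit [Fintype F] in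
theorem kdec_append (τ : K) (l l' : List F) :
    kdec τ (l ++ l') = kdec τ l + τ ^ l.length * kdec τ l' := by
  induction l with
  | nil => simp [kdec_nil]
  | cons a l ih =>
    rw [List.cons_append, kdec_cons, kdec_cons, ih, List.length_cons, pow_succ]
    ring

omit [Fintype F] in
theorem kdec_zero (τ : K) (n : ℕ) : kdec τ (List.replicate n (0 : F)) = 0 := by
  induction n with
  | zero => rfl
  | succ n ih => rw [List.replicate_succ, kdec_cons, ih]; simp

omit [Fintype F] in
theorem kdec_add (τ : K) : ∀ (x y : List F), x.length = y.length →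
    kdec τ (kadd x y) = kdec τ x + kdec τ y
  | [], [], _ => by simp [kadd, kdec_nil]
  | [], _ :: _, h => by simp at h
  | _ :: _, [], h => by simp at h
  | a :: x, b :: y, h => by
    have ih := kdec_add τ x y (by simpa using h)
    have e : kadd (a :: x) (b :: y) = (a + b) :: kadd x y := rfl
    rw [e, kdec_cons, kdec_cons, kdec_cons, ih, map_add]
    ring

omit [Fintype F] in
theorem kdec_smul (τ : K) (c : F) (x : List F) :
    kdec τ (ksmul c x) = algebraMap F K c * kdec τ x := by
  induction x with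
  | nil => simp [ksmul, kdec_nil]
  | cons a x ih =>
    have e : ksmul c (a :: x) = (c * a) :: ksmul c x := rfl
    rw [e, kdec_cons, kdec_cons, ih, map_mul]
    ring

omit [Fintype F] in
theorem rep_add {R : ℕ} {τ : K} {x y : List F} {a b : K} (hx : Rep R τ x a) (hy : Rep R τ y b) :
    Rep R τ (kadd x y) (a + b) := by
  refine ⟨?_, ?_⟩
  · simp [kadd, hx.1, hy.1]
  · rw [kdec_add τ x y (hx.1.trans hy.1.symm), hx.2, hy.2]

omit [Fintype F] in
theorem rep_smul {R : ℕ} {τ : K} {x : List F} {a : K} (c : F) (hx : Rep R τ x a) :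
    Rep R τ (ksmul c x) (algebraMap F K c * a) := by
  refine ⟨?_, ?_⟩
  · simp [ksmul, hx.1]
  · rw [kdec_smul, hx.2]

omit [Fintype F] in
theorem rep_shift {R : ℕ} {τ : K} {ω : F} (hR : 1 ≤ R) (hτ : τ ^ R = algebraMap F K ω)
    {x : List F} {a : K} (hx : Rep R τ x a) : Rep R τ (kshift ω x) (τ * a) := by
  obtain ⟨h1, h2⟩ := hx
  rcases List.eq_nil_or_concat x with rfl | ⟨l, b, rfl⟩
  · simp at h1; omega
  · rw [List.concat_eq_append] at h1 h2 ⊢
    have hl : l.length + 1 = R := by simpa using h1
    have e : kshift ω (l ++ [b]) = (ω * b) :: l := by simp [kshift]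
    rw [e]
    refine ⟨by simpa using hl, ?_⟩
    rw [← h2, kdec_cons, kdec_append, kdec_cons, kdec_nil, map_mul, ← hτ, ← hl, pow_succ]
    ring

omit [Fintype F] in
theorem rep_mul' {R : ℕ} {τ : K} {ω : F} (hR : 1 ≤ R) (hτ : τ ^ R = algebraMap F K ω)
    {y : List F} {b : K} (hy : Rep R τ y b) (x : List F) :
    Rep R τ (kmul ω x y) (kdec τ x * b) := by
  induction x with
  | nil =>
    have := rep_smul (0 : F) hy
    simpa [kmul, kdec_nil] using this
  | cons a x ih =>
    have e : kmul ω (a :: x) y = kadd (ksmul a y) (kshift ω (kmul ω x y)) := rfl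
    rw [e, kdec_cons]
    have := rep_add (rep_smul a hy) (rep_shift hR hτ ih)
    convert this using 1
    ring

omit [Fintype F] in
theorem rep_mul {R : ℕ} {τ : K} {ω : F} (hR : 1 ≤ R) (hτ : τ ^ R = algebraMap F K ω)
    {x y : List F} {a b : K} (hx : Rep R τ x a) (hy : Rep R τ y b) :
    Rep R τ (kmul ω x y) (a * b) := by
  rw [← hx.2]
  exact rep_mul' hR hτ hy x

omit [Fintype F] in
theorem rep_const {R : ℕ} (τ : K) (hR : 1 ≤ R) (c : F) :
    Rep R τ (kconst R c) (algebraMap F K c) := by
  refine ⟨?_, ?_⟩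
  · simp [kconst]; omega
  · rw [kconst, kdec_cons, kdec_zero]; simp

omit [Fintype F] in
theorem rep_one {R : ℕ} (τ : K) (hR : 1 ≤ R) : Rep R τ (kconst R (1 : F)) 1 := by
  simpa using rep_const τ hR (1 : F)

omit [Fintype F] in
theorem rep_zero {R : ℕ} (τ : K) (hR : 1 ≤ R) : Rep R τ (kconst R (0 : F)) 0 := by
  simpa using rep_const τ hR (0 : F)

omit [Fintype F] in
theorem rep_tau {R : ℕ} (τ : K) (hR : 2 ≤ R) (c : F) :
    Rep R τ (ktau R c) (τ + algebraMap F K c) := by
  refine ⟨?_, ?_⟩
  · simp [ktau]; omega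
  · rw [ktau, kdec_cons, kdec_cons, kdec_zero]; simp [add_comm]

omit [Fintype F] in
theorem rep_pow {R : ℕ} {τ : K} {ω : F} (hR : 1 ≤ R) (hτ : τ ^ R = algebraMap F K ω)
    {x : List F} {a : K} (e : ℕ) (hx : Rep R τ x a) : Rep R τ (kpow ω R x e) (a ^ e) := by
  induction e with
  | zero => simpa [kpow] using rep_one τ hR
  | succ e ih =>
    have h : kpow ω R x (e + 1) = kmul ω x (kpow ω R x e) := Function.iterate_succ_apply' _ _ _
    rw [h, pow_succ']
    exact rep_mul hR hτ hx ih

theorem rep_frob {R : ℕ} {τ : K} {ω : F} (hR : 1 ≤ R) (hτ : τ ^ R = algebraMap F K ω)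
    {x : List F} {a : K} (k : ℕ) (hx : Rep R τ x a) :
    Rep R τ (kfrob ω R x k) (a ^ Fintype.card F ^ k) := by
  induction k with
  | zero => simpa [kfrob] using hx
  | succ k ih =>
    have h : kfrob ω R x (k + 1) = kpow ω R (kfrob ω R x k) (Fintype.card F) :=
      Function.iterate_succ_apply' _ _ _
    rw [h, pow_succ, pow_mul]
    exact rep_pow hR hτ _ ih

omit [Fintype F] in
theorem rep_sum {R : ℕ} {τ : K} (hR : 1 ≤ R) {β : Type} (L : List β) (f : β → List F)
    (g : β → K) (h : ∀ i ∈ L, Rep R τ (f i) (g i)) :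
    Rep R τ (ksum R (L.map f)) (L.map g).sum := by
  induction L with
  | nil => simpa [ksum] using rep_zero τ hR
  | cons i L ih =>
    have e : ksum R ((i :: L).map f) = kadd (f i) (ksum R (L.map f)) := rfl
    rw [e, List.map_cons, List.sum_cons]
    exact rep_add (h i List.mem_cons_self) (ih fun j hj => h j (List.mem_cons_of_mem _ hj))

omit [Fintype F] in
theorem rep_prod {R : ℕ} {τ : K} {ω : F} (hR : 1 ≤ R) (hτ : τ ^ R = algebraMap F K ω)
    {β : Type} (L : List β) (f : β → List F) (g : β → K) (h : ∀ i ∈ L, Rep R τ (f i) (g i)) :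
    Rep R τ (kprod ω R (L.map f)) (L.map g).prod := by
  induction L with
  | nil => simpa [kprod] using rep_one τ hR
  | cons i L ih =>
    have e : kprod ω R ((i :: L).map f) = kmul ω (f i) (kprod ω R (L.map f)) := rfl
    rw [e, List.map_cons, List.prod_cons]
    exact rep_mul hR hτ (h i List.mem_cons_self) (ih fun j hj => h j (List.mem_cons_of_mem _ hj))

omit [Field F] in
theorem allK_succ (R : ℕ) : allK F (R + 1) =
    (allK F R).flatMap fun l => (univ : Finset F).toList.map fun a => a :: l :=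
  Function.iterate_succ_apply' _ _ _

omit [Field F] in
theorem mem_allK (R : ℕ) (l : List F) : l ∈ allK F R ↔ l.length = R := by
  induction R generalizing l with
  | zero => simp [allK]
  | succ R ih =>
    rw [allK_succ]
    simp only [List.mem_flatMap, List.mem_map, Finset.mem_toList, Finset.mem_univ, true_and]
    constructor
    · rintro ⟨l', hl', a, rfl⟩
      simp [(ih l').1 hl']
    · intro h
      cases l with
      | nil => simp at h
      | cons a l => exact ⟨l, (ih l).2 (by simpa using h), a, rfl⟩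

omit [Field F] in
theorem nodup_allK (R : ℕ) : (allK F R).Nodup := by
  induction R with
  | zero => simp [allK]
  | succ R ih =>
    rw [allK_succ, List.nodup_flatMap]
    refine ⟨fun l _ => (Finset.nodup_toList _).map fun a b h => (List.cons.inj h).1, ?_⟩
    refine List.Pairwise.imp ?_ ih
    intro l l' hne
    simp only [Function.onFun, List.disjoint_left, List.mem_map]
    rintro _ ⟨a, -, rfl⟩ ⟨b, -, h⟩
    exact hne (List.cons.inj h).2.symm

omit [Fintype F] in
theorem rep_uniq {R : ℕ} {τ : K} {ω : F} (h : KOK ω R τ) {x y : List F} {a : K}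
    (hx : Rep R τ x a) (hy : Rep R τ y a) : x = y :=
  h.inj x y hx.1 hy.1 (hx.2.trans hy.2.symm)

omit [Fintype F] in
theorem rep_eq_iff {R : ℕ} {τ : K} {ω : F} (h : KOK ω R τ) {x y : List F} {a b : K}
    (hx : Rep R τ x a) (hy : Rep R τ y b) : x = y ↔ a = b := by
  constructor
  · rintro rfl
    exact hx.2.symm.trans hy.2
  · rintro rfl
    exact rep_uniq h hx hy

theorem rep_inv {R : ℕ} {τ : K} {ω : F} (hR : 1 ≤ R) (h : KOK ω R τ) {x : List F} {a : K}
    (hx : Rep R τ x a) : Rep R τ (kinv ω R x) a⁻¹ := by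
  have key : ∀ y ∈ allK F R, kmul ω x y = kconst R 1 ↔ a * kdec τ y = 1 := fun y hy =>
    rep_eq_iff h (rep_mul hR h.pow hx ⟨(mem_allK R y).1 hy, rfl⟩) (rep_one τ hR)
  unfold kinv
  cases hf : (allK F R).find? fun y => decide (kmul ω x y = kconst R 1) with
  | none =>
    rw [List.find?_eq_none] at hf
    have ha : a = 0 := by
      by_contra ha
      obtain ⟨y, hy, hy'⟩ := h.surj a⁻¹
      have hm := (mem_allK R y).2 hy
      exact hf y hm (decide_eq_true ((key y hm).2 (by rw [hy', mul_inv_cancel₀ ha])))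
    rw [ha, inv_zero]
    exact rep_zero τ hR
  | some y =>
    have hm := List.mem_of_find?_eq_some hf
    have hq := List.find?_some hf
    have hp := (key y hm).1 (of_decide_eq_true hq)
    exact ⟨(mem_allK R y).1 hm, eq_inv_of_mul_eq_one_right hp⟩

theorem rep_gen [Fintype K] {R : ℕ} {τ : K} {ω : F} (hR : 1 ≤ R) (h : KOK ω R τ) :
    ∃ γ : K, γ ≠ 0 ∧ orderOf γ = Fintype.card F ^ R - 1 ∧ Rep R τ (kgen ω R) γ := by
  have hc : Fintype.card K = Fintype.card F ^ R := by
    rw [Module.card_eq_pow_finrank (K := F) (V := K), h.rank]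
  have key : ∀ y ∈ allK F R, (!decide (y = kconst R 0) &&
      (List.range (Fintype.card F ^ R - 1)).all fun e =>
        decide (e = 0) || !decide (kpow ω R y e = kconst R 1)) = true ↔
      kdec τ y ≠ 0 ∧ ∀ e < Fintype.card F ^ R - 1, 0 < e → kdec τ y ^ e ≠ 1 := by
    intro y hy
    have hy' : Rep R τ y (kdec τ y) := ⟨(mem_allK R y).1 hy, rfl⟩
    have e0 : y = kconst R 0 ↔ kdec τ y = 0 := rep_eq_iff h hy' (rep_zero τ hR)
    have e1 : ∀ e, kpow ω R y e = kconst R 1 ↔ kdec τ y ^ e = 1 := fun e =>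
      rep_eq_iff h (rep_pow hR h.pow e hy') (rep_one τ hR)
    simp only [Bool.and_eq_true, Bool.not_eq_true', decide_eq_false_iff_not, List.all_eq_true,
      List.mem_range, Bool.or_eq_true, decide_eq_true_eq, e0, e1]
    refine and_congr Iff.rfl (forall_congr' fun e => imp_congr Iff.rfl ?_)
    constructor
    · rintro (h0 | h0) hp
      · omega
      · exact h0
    · intro h0
      rcases Nat.eq_zero_or_pos e with h1 | h1
      · exact Or.inl h1
      · exact Or.inr (h0 h1)
  have hpos : 0 < Fintype.card F ^ R - 1 := by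
    have := Fintype.one_lt_card (α := K)
    omega
  unfold kgen
  cases hf : (allK F R).find? fun y => !decide (y = kconst R 0) &&
      (List.range (Fintype.card F ^ R - 1)).all fun e =>
        decide (e = 0) || !decide (kpow ω R y e = kconst R 1) with
  | none =>
    exfalso
    rw [List.find?_eq_none] at hf
    obtain ⟨g, hg⟩ := IsCyclic.exists_ofOrder_eq_natCard (α := Kˣ)
    rw [Nat.card_units, Nat.card_eq_fintype_card, hc, ← orderOf_units] at hg
    obtain ⟨y, hy, hy'⟩ := h.surj (g : K)
    have hm := (mem_allK R y).2 hy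
    refine hf y hm ((key y hm).2 ⟨by rw [hy']; exact g.ne_zero, fun e he he0 => ?_⟩)
    rw [hy']
    exact pow_ne_one_of_lt_orderOf he0.ne' (by rw [hg]; exact he)
  | some y =>
    have hm := List.mem_of_find?_eq_some hf
    have hq := List.find?_some hf
    obtain ⟨h0, h1⟩ := (key y hm).1 hq
    refine ⟨kdec τ y, h0, ?_, (mem_allK R y).1 hm, rfl⟩
    rw [orderOf_eq_iff hpos]
    refine ⟨?_, h1⟩
    rw [← hc]
    exact FiniteField.pow_card_sub_one_eq_one _ h0

theorem ktr_eq [Fintype K] {R : ℕ} {τ : K} {ω : F} (hR : 1 ≤ R) (h : KOK ω R τ) {x : List F}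
    {a : K} (hx : Rep R τ x a) : ktr ω R x = Algebra.trace F K a := by
  have h1 := rep_sum hR (List.range R) (fun k => kfrob ω R x k)
    (fun k => a ^ Fintype.card F ^ k) fun k _ => rep_frob hR h.pow k hx
  have h2 : ((List.range R).map fun k => a ^ Fintype.card F ^ k).sum =
      algebraMap F K (Algebra.trace F K a) := by
    rw [FiniteField.algebraMap_trace_eq_sum_pow, h.rank, Nat.card_eq_fintype_card,
      ← List.sum_toFinset _ List.nodup_range, List.toFinset_range]
  rw [h2] at h1
  rw [ktr, rep_uniq h h1 (rep_const τ hR _)]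
  rfl

end Ks

/-- Correctness of the field arithmetic. -/
theorem kSpec_proof : KSpecStmt := by
  intro F K _ _ _ _ _ ω R τ hR h
  have h1 : 1 ≤ R := by omega
  exact
    { add := Ks.rep_add
      smul := Ks.rep_smul
      mul := Ks.rep_mul h1 h.pow
      const := Ks.rep_const τ h1
      tau := Ks.rep_tau τ hR
      pow := Ks.rep_pow h1 h.pow
      frob := Ks.rep_frob h1 h.pow
      sum := Ks.rep_sum h1
      prod := Ks.rep_prod h1 h.pow
      inv := Ks.rep_inv h1 h
      gen := Ks.rep_gen h1 h
      tr := Ks.ktr_eq h1 h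
      nodup := Ks.nodup_allK R
      mem := Ks.mem_allK R
      uniq := Ks.rep_uniq h
      ex := h.surj }

end Vale.Agent.P318.Q
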