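import Vale.Agent.P318.Q.Stmt

/-!
Track Q: local testability from the repair step and the core estimate.
-/

namespace Vale.Agent.P318.Q

open Finset
open scoped BigOperators Classical

namespace LTC

theorem pr_eq {α : Type} [Fintype α] (P : α → Prop) :
    pr P = (∑ a, if P a then (1 : ℝ) else 0) / Fintype.card α := by
  unfold pr
  rw [Fintype.expect_eq_sum_div_card]

theorem pr_nonneg {α : Type} [Fintype α] (P : α → Prop) : 0 ≤ pr P := by
  rw [pr_eq]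
  exact div_nonneg (sum_nonneg fun a _ => by split_ifs <;> norm_num) (Nat.cast_nonneg _)

theorem pr_le_add {α : Type} [Fintype α] {P Q R : α → Prop} (h : ∀ a, P a → Q a ∨ R a) :
    pr P ≤ pr Q + pr R := by
  rw [pr_eq, pr_eq, pr_eq, ← add_div, ← sum_add_distrib]
  refine div_le_div_of_nonneg_right (sum_le_sum fun a _ => ?_) (Nat.cast_nonneg _)
  have := h a
  split_ifs <;> simp_all

theorem pr_mono {α : Type} [Fintype α] {P Q : α → Prop} (h : ∀ a, P a → Q a) : pr P ≤ pr Q := by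
  rw [pr_eq, pr_eq]
  refine div_le_div_of_nonneg_right (sum_le_sum fun a _ => ?_) (Nat.cast_nonneg _)
  have := h a
  split_ifs <;> simp_all

theorem pr_false {α : Type} [Fintype α] {P : α → Prop} (h : ∀ a, ¬ P a) : pr P = 0 := by
  rw [pr_eq, sum_eq_zero fun a _ => if_neg (h a), zero_div]

theorem pr_pos {α : Type} [Fintype α] {P : α → Prop} {a : α} (h : P a) : 0 < pr P := by
  rw [pr_eq]
  have : Nonempty α := ⟨a⟩
  refine div_pos (sum_pos' (fun a _ => by split_ifs <;> norm_num) ⟨a, mem_univ _, ?_⟩)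
    (Nat.cast_pos.2 Fintype.card_pos)
  rw [if_pos h]; norm_num

theorem pr_split {α : Type} [Fintype α] (P Q : α → Prop) :
    pr P = pr (fun a => Q a ∧ P a) + pr (fun a => ¬ Q a ∧ P a) := by
  rw [pr_eq, pr_eq, pr_eq, ← add_div, ← sum_add_distrib]
  congr 1
  refine sum_congr rfl fun a _ => ?_
  by_cases hP : P a <;> by_cases hQ : Q a <;> simp [hP, hQ]

variable {F G : Type} [Field F] [Group G]

theorem pr_coset [Fintype G] (K : Subgroup G) [Fintype K] (g : G) (P : G → Prop) :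
    pr (fun g' => g⁻¹ * g' ∈ K ∧ P g') =
      (Fintype.card K : ℝ) / Fintype.card G * pr fun u : K => P (g * u) := by
  have hK : (Fintype.card K : ℝ) ≠ 0 := Nat.cast_ne_zero.2 Fintype.card_ne_zero
  rw [pr_eq, pr_eq, div_mul_div_comm, mul_comm (Fintype.card G : ℝ), mul_div_mul_left _ _ hK]
  congr 1
  rw [← Equiv.sum_comp (Equiv.mulLeft g), ← sum_filter_add_sum_filter_not univ (· ∈ K),
    sum_eq_zero (s := univ.filter fun x => ¬ x ∈ K), add_zero,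
    sum_subtype (univ.filter (· ∈ K)) (p := (· ∈ K)) (by simp)]
  · refine sum_congr rfl fun u _ => ?_
    simp
  · intro x hx
    rw [if_neg]
    simp only [mem_filter] at hx
    simp [hx.2]

theorem deg_zero (l : ℕ) : Deg l fun _ : F => (0 : F) := ⟨0, by simp, by simp⟩

/-- `f` looks like a codeword on the coset `g K`. -/
def LocK (K : Subgroup G) (X Y : F → G) (f : G → F) (g : G) : Prop :=
  ∀ u ∈ K, (∀ a, f (g * u * Y a) = f (g * u)) ∧ Deg 5 fun a => f (g * u * X a)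

/-- A family of plane polynomials. -/
def Adm (X Y : F → G) (f : G → F) : Prop :=
  (∀ g a, f (g * Y a) = f g) ∧ ∀ g, Deg 5 fun a => f (g * X a)

/-- The line through `g` is bad. -/
def Bad (X : F → G) (f₁ f₂ : G → F) (g : G) : Prop := ∃ a, f₁ (g * X a) ≠ f₂ (g * X a)

/-- The plane through `g` has been changed. -/
def Ch (K : Subgroup G) (f f₀ : G → F) (g : G) : Prop := ∃ u ∈ K, f (g * u) ≠ f₀ (g * u)

/-- The initial family of plane polynomials. -/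
noncomputable def init (K : Subgroup G) (X Y : F → G) (f : G → F) (g : G) : F :=
  if LocK K X Y f g then f g else 0

variable {K : Subgroup G} {X Y : F → G}

theorem locK_mul {f : G → F} {g v : G} (hv : v ∈ K) : LocK K X Y f (g * v) ↔ LocK K X Y f g := by
  constructor
  · intro h u hu
    have := h (v⁻¹ * u) (K.mul_mem (K.inv_mem hv) hu)
    rwa [show g * v * (v⁻¹ * u) = g * u by group] at this
  · intro h u hu
    have := h (v * u) (K.mul_mem hv hu)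
    rwa [← mul_assoc] at this

theorem adm_init (hX : ∀ a, X a ∈ K) (hY : ∀ a, Y a ∈ K) (f : G → F) :
    Adm X Y (init K X Y f) := by
  refine ⟨fun g a => ?_, fun g => ?_⟩
  · simp only [init, locK_mul (hY a)]
    split_ifs with h
    · simpa using (h 1 K.one_mem).1 a
    · rfl
  · simp only [init, fun a => locK_mul (X := X) (Y := Y) (f := f) (g := g) (hX a)]
    split_ifs with h
    · simpa using (h 1 K.one_mem).2
    · exact deg_zero 5

theorem improve [Fintype G] [Fintype K] (hX : ∀ a, X a ∈ K) (hY : ∀ a, Y a ∈ K)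
    {f₁ f₂ : G → F} (f₀ : G → F) (h₁ : Adm X Y f₁) {g : G}
    (hb : 1 / 64 < pr fun u : K => Bad X f₁ f₂ (g * u)) {f' : G → F} (hf : LocK K X Y f' g)
    (hd : pr (fun u : K => Bad X f' f₂ (g * u)) ≤ 50 * (1 / 6500)) :
    ∃ f₃, Adm X Y f₃ ∧ pr (Bad X f₃ f₂) + 1 / 128 * pr (Ch K f₃ f₀) <
      pr (Bad X f₁ f₂) + 1 / 128 * pr (Ch K f₁ f₀) := by
  let f₃ : G → F := fun g' => if g⁻¹ * g' ∈ K then f' g' else f₁ g'
  have hm : ∀ g' v, v ∈ K → (g⁻¹ * (g' * v) ∈ K ↔ g⁻¹ * g' ∈ K) := fun g' v hv => by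
    rw [← mul_assoc]; exact K.mul_mem_cancel_right hv
  have hin : ∀ g' v, v ∈ K → g⁻¹ * g' ∈ K → f₃ (g' * v) = f' (g' * v) := fun g' v hv h =>
    if_pos ((hm g' v hv).2 h)
  have hout : ∀ g' v, v ∈ K → g⁻¹ * g' ∉ K → f₃ (g' * v) = f₁ (g' * v) := fun g' v hv h =>
    if_neg fun h' => h ((hm g' v hv).1 h')
  refine ⟨f₃, ⟨fun g' a => ?_, fun g' => ?_⟩, ?_⟩
  · by_cases h : g⁻¹ * g' ∈ K
    · rw [hin _ _ (hY a) h, show f₃ g' = f' g' from if_pos h]
      simpa using (hf _ h).1 a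
    · rw [hout _ _ (hY a) h, show f₃ g' = f₁ g' from if_neg h]
      exact h₁.1 g' a
  · by_cases h : g⁻¹ * g' ∈ K
    · simp only [fun a => hin g' _ (hX a) h]
      simpa using (hf _ h).2
    · simp only [fun a => hout g' _ (hX a) h]
      exact h₁.2 g'
  have hκ : (0 : ℝ) < (Fintype.card K : ℝ) / Fintype.card G :=
    div_pos (Nat.cast_pos.2 Fintype.card_pos) (Nat.cast_pos.2 Fintype.card_pos)
  have e1 := pr_split (Bad X f₃ f₂) fun g' => g⁻¹ * g' ∈ K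
  have e2 := pr_split (Bad X f₁ f₂) fun g' => g⁻¹ * g' ∈ K
  have e3 : pr (fun g' => g⁻¹ * g' ∉ K ∧ Bad X f₃ f₂ g') ≤
      pr (fun g' => g⁻¹ * g' ∉ K ∧ Bad X f₁ f₂ g') :=
    pr_mono fun g' ⟨h, a, ha⟩ => ⟨h, a, by rwa [← hout _ _ (hX a) h]⟩
  have e4 : pr (fun g' => g⁻¹ * g' ∈ K ∧ Bad X f₃ f₂ g') ≤
      pr (fun g' => g⁻¹ * g' ∈ K ∧ Bad X f' f₂ g') :=
    pr_mono fun g' ⟨h, a, ha⟩ => ⟨h, a, by rwa [← hin _ _ (hX a) h]⟩
  have e5 : pr (Ch K f₃ f₀) ≤ pr (fun g' => g⁻¹ * g' ∈ K ∧ True) + pr (Ch K f₁ f₀) :=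
    pr_le_add fun g' ⟨u, hu, h⟩ => by
      by_cases h' : g⁻¹ * g' ∈ K
      · exact Or.inl ⟨h', trivial⟩
      · exact Or.inr ⟨u, hu, by rwa [← hout _ _ hu h']⟩
  have e6 : pr (fun _ : K => True) = 1 := by
    rw [pr_eq]
    simp
  rw [pr_coset] at e2 e5
  rw [pr_coset K g (Bad X f' f₂)] at e4
  rw [e6] at e5
  have e7 := mul_lt_mul_of_pos_left hb hκ
  have e8 := mul_le_mul_of_nonneg_left hd hκ.le
  linarith

end LTC

open LTC in
theorem ltc_proof (hR : RepairStmt) (hC : CoreStmt) : LTCStmt := by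
  intro F G _ _ _ _ T hT hq f ε hε hp
  have h10 : ∀ a, T.x 0 a ∈ T.K 1 := fun a => Subgroup.subset_closure (Or.inr ⟨a, rfl⟩)
  have h12 : ∀ a, T.x 2 a ∈ T.K 1 := fun a => Subgroup.subset_closure (Or.inl ⟨a, rfl⟩)
  have h20 : ∀ a, T.x 0 a ∈ T.K 2 := fun a => Subgroup.subset_closure (Or.inl ⟨a, rfl⟩)
  have h21 : ∀ a, T.x 1 a ∈ T.K 2 := fun a => Subgroup.subset_closure (Or.inr ⟨a, rfl⟩)
  have hx0 : T.x 0 0 = 1 := by
    have := hT.x_add 0 0 0
    rw [add_zero] at this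
    exact mul_left_cancel (a := T.x 0 0) (by rw [← this, mul_one])
  have hq' : 100 ≤ Fintype.card F := le_trans (by norm_num) hq
  set g₁ := init (T.K 1) (T.x 0) (T.x 2) f with hg₁
  set g₂ := init (T.K 2) (T.x 0) (T.x 1) f with hg₂
  let Φ : (G → F) × (G → F) → ℝ := fun p => pr (Bad (T.x 0) p.1 p.2) +
    1 / 128 * pr (Ch (T.K 1) p.1 g₁) + 1 / 128 * pr (Ch (T.K 2) p.2 g₂)
  let S : Set ((G → F) × (G → F)) := {p | Adm (T.x 0) (T.x 2) p.1 ∧ Adm (T.x 0) (T.x 1) p.2}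
  have h0 : (g₁, g₂) ∈ S := ⟨adm_init h10 h12 f, adm_init h20 h21 f⟩
  obtain ⟨⟨f₁, f₂⟩, ⟨a₁, a₂⟩, hmin⟩ := Set.exists_min_image S Φ (Set.toFinite S) ⟨_, h0⟩
  have hs : Φ (g₁, g₂) ≤ ε := by
    have e1 : pr (Ch (T.K 1) g₁ g₁) = 0 := pr_false fun g ⟨u, _, h⟩ => h rfl
    have e2 : pr (Ch (T.K 2) g₂ g₂) = 0 := pr_false fun g ⟨u, _, h⟩ => h rfl
    have e3 : pr (Bad (T.x 0) g₁ g₂) ≤ pr fun g => ¬ T.Loc 5 f g :=
      pr_mono fun g ⟨a, ha⟩ ⟨l1, l2⟩ => ha <| by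
        rw [hg₁, hg₂, init, init, if_pos ((locK_mul (h10 a)).2 l1),
          if_pos ((locK_mul (h20 a)).2 l2)]
    simp only [Φ, e1, e2]
    linarith
  have hv : Φ (f₁, f₂) ≤ ε := (hmin _ h0).trans hs
  have n0 := pr_nonneg (Bad (T.x 0) f₁ f₂)
  have n1 := pr_nonneg (Ch (T.K 1) f₁ g₁)
  have n2 := pr_nonneg (Ch (T.K 2) f₂ g₂)
  simp only [Φ] at hv
  have hsym : ∀ f₁ f₂ : G → F, Bad (T.x 0) f₁ f₂ = Bad (T.x 0) f₂ f₁ := fun f₁ f₂ => by
    funext g
    simp only [Bad, ne_comm]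
  have hD : ¬ 0 < pr (Bad (T.x 0) f₁ f₂) := by
    intro hpos
    rcases hC F G T hT hq f₁ f₂ a₁.1 a₂.1 a₁.2 a₂.2 hpos (by
      change pr (Bad (T.x 0) f₁ f₂) ≤ _
      linarith) with ⟨g, hb, hc⟩ | ⟨g, hb, hc⟩
    · obtain ⟨f', hf, hd⟩ := hR F G T hT hq' 1 (by decide) f₂ g (1 / 6500) a₂.2 (by norm_num) hc
      obtain ⟨f₃, a₃, hlt⟩ := improve h10 h12 g₁ a₁ (f₂ := f₂) hb hf hd
      have := hmin (f₃, f₂) ⟨a₃, a₂⟩
      simp only [Φ] at this
      linarith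
    · obtain ⟨f', hf, hd⟩ := hR F G T hT hq' 2 (by decide) f₁ g (1 / 6500) a₁.2 (by norm_num) hc
      obtain ⟨f₃, a₃, hlt⟩ := improve h20 h21 g₂ a₂ (f₂ := f₁) (by rw [hsym]; exact hb) hf hd
      have := hmin (f₁, f₃) ⟨a₁, a₃⟩
      simp only [Φ] at this
      rw [hsym f₃, hsym f₂] at hlt
      linarith
  have h12' : f₁ = f₂ := by
    funext g
    by_contra hne
    exact hD (pr_pos (a := g) ⟨0, by rwa [hx0, mul_one]⟩)
  subst h12'
  refine ⟨f₁, ⟨a₂.1, a₁.1, a₁.2⟩, ?_⟩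
  have e : pr (fun g => f g ≠ f₁ g) ≤ pr (fun g => ¬ T.Loc 5 f g) + pr (Ch (T.K 1) f₁ g₁) :=
    pr_le_add fun g hg => by
      by_cases hl : T.Loc 5 f g
      · refine Or.inr ⟨1, (T.K 1).one_mem, ?_⟩
        rw [mul_one, hg₁, init, if_pos (show LocK _ _ _ f g from hl.1)]
        exact hg.symm
      · exact Or.inl hl
  have := pr_nonneg fun g => ¬ T.Loc 5 f g
  linarith

end Vale.Agent.P318.Q
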