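import Mathlib.LinearAlgebra.Lagrange
import Vale.Agent.P318.Q.Stmt

/-!
The plane lemma.
-/

namespace Vale.Agent.P318.Q

open Finset
open scoped BigOperators Classical

namespace Plane

/-- Number of points with a property. -/
noncomputable def cn {α : Type} [Fintype α] (P : α → Prop) : ℝ := ∑ x, if P x then 1 else 0

section Count

variable {α β : Type} [Fintype α] [Fintype β]

theorem pr_eq (P : α → Prop) : pr P = cn P / Fintype.card α := by
  rw [pr, Finset.expect_eq_sum_div_card, cn, Finset.card_univ]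

theorem cn_nonneg (P : α → Prop) : 0 ≤ cn P :=
  Finset.sum_nonneg fun x _ => by split_ifs <;> norm_num

theorem cn_card (P : α → Prop) [DecidablePred P] : cn P = (univ.filter P).card := by
  rw [Finset.card_filter, cn]
  push_cast
  exact Finset.sum_congr rfl fun x _ => by congr

theorem cn_equiv (e : α ≃ β) (P : β → Prop) : cn (fun x => P (e x)) = cn P :=
  Equiv.sum_comp e fun y => if P y then (1 : ℝ) else 0

theorem cn_prod (P : α × β → Prop) : cn P = ∑ a, cn fun b => P (a, b) :=
  Fintype.sum_prod_type _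

theorem cn_prod' (P : α × β → Prop) : cn P = ∑ b, cn fun a => P (a, b) :=
  Fintype.sum_prod_type_right _

theorem cn_mono {P Q : α → Prop} (h : ∀ x, P x → Q x) : cn P ≤ cn Q :=
  Finset.sum_le_sum fun x _ => by
    by_cases hp : P x
    · simp [hp, h x hp]
    · by_cases hq : Q x <;> simp [hp, hq]

theorem cn_or (P Q : α → Prop) : cn (fun x => P x ∨ Q x) ≤ cn P + cn Q := by
  rw [cn, cn, cn, ← Finset.sum_add_distrib]
  refine Finset.sum_le_sum fun x _ => ?_
  by_cases hp : P x <;> by_cases hq : Q x <;> simp [hp, hq]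

theorem cn_not (P : α → Prop) : cn (fun x => ¬ P x) = Fintype.card α - cn P := by
  rw [eq_sub_iff_add_eq, cn, cn, ← Finset.sum_add_distrib]
  rw [Finset.sum_congr rfl (g := fun _ => (1 : ℝ)) fun x _ => by
    by_cases hp : P x <;> simp [hp]]
  simp

theorem cn_const (p : Prop) : cn (fun _ : α => p) = if p then (Fintype.card α : ℝ) else 0 := by
  by_cases hp : p <;> simp [cn, hp]

omit [Fintype β] in
theorem cn_exists (T : Finset β) (P : β → α → Prop) :
    cn (fun x => ∃ y ∈ T, P y x) ≤ ∑ y ∈ T, cn (P y) := by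
  simp only [cn]
  rw [Finset.sum_comm]
  refine Finset.sum_le_sum fun x _ => ?_
  split_ifs with h
  · obtain ⟨y, hy, hp⟩ := h
    refine le_trans ?_ (Finset.single_le_sum (f := fun y => if P y x then (1 : ℝ) else 0)
      (fun y _ => by split_ifs <;> norm_num) hy)
    simp [hp]
  · exact Finset.sum_nonneg fun y _ => by split_ifs <;> norm_num

theorem cn_mul_le {P : α → Prop} {f : α → ℝ} {t : ℝ} (h0 : ∀ x, 0 ≤ f x)
    (h : ∀ x, P x → t ≤ f x) : cn P * t ≤ ∑ x, f x := by
  rw [cn, Finset.sum_mul]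
  refine Finset.sum_le_sum fun x _ => ?_
  split_ifs with hp
  · simpa using h x hp
  · simpa using h0 x

theorem markov {f : α → ℝ} {t k : ℝ} (h0 : ∀ x, 0 ≤ f x) (ht : 0 ≤ t) (hk : 0 ≤ k)
    (h : ∑ x, f x ≤ k * t) : cn (fun x => t < f x) ≤ k := by
  by_contra hc
  rw [not_le] at hc
  have hne : (univ.filter fun x => t < f x).Nonempty := by
    rw [← Finset.card_pos]
    have := hk.trans_lt hc
    rw [cn_card] at this
    exact_mod_cast this
  have h1 : ∑ _x ∈ univ.filter fun x => t < f x, t < ∑ x ∈ univ.filter fun x => t < f x, f x :=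
    Finset.sum_lt_sum_of_nonempty hne fun x hx => (Finset.mem_filter.1 hx).2
  have h2 : ∑ x ∈ univ.filter fun x => t < f x, f x ≤ ∑ x, f x :=
    Finset.sum_le_sum_of_subset_of_nonneg (Finset.filter_subset _ _) fun x _ _ => h0 x
  rw [Finset.sum_const, nsmul_eq_mul, ← cn_card] at h1
  nlinarith

end Count

section Degree

variable {F : Type} [Field F]

theorem deg_const (l : ℕ) (c : F) : Deg l fun _ => c :=
  ⟨Polynomial.C c, by simp, fun a => by simp⟩

theorem deg_sub {l : ℕ} {φ ψ : F → F} (h : Deg l φ) (h' : Deg l ψ) : Deg l fun a => φ a - ψ a := by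
  obtain ⟨p, hp, e⟩ := h
  obtain ⟨p', hp', e'⟩ := h'
  exact ⟨p - p', (Polynomial.natDegree_sub_le _ _).trans (max_le hp hp'), fun a => by simp [e, e']⟩

theorem deg_mul {l l' : ℕ} {φ ψ : F → F} (h : Deg l φ) (h' : Deg l' ψ) :
    Deg (l + l') fun a => φ a * ψ a := by
  obtain ⟨p, hp, e⟩ := h
  obtain ⟨p', hp', e'⟩ := h'
  exact ⟨p * p', Polynomial.natDegree_mul_le.trans (add_le_add hp hp'), fun a => by simp [e, e']⟩

theorem deg_sum {ι : Type} {l : ℕ} (T : Finset ι) {φ : ι → F → F} (h : ∀ i ∈ T, Deg l (φ i)) :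
    Deg l fun a => ∑ i ∈ T, φ i a := by
  induction T using Finset.induction_on with
  | empty => simpa using deg_const l (0 : F)
  | insert i T hi ih =>
    obtain ⟨p, hp, e⟩ := h i (Finset.mem_insert_self _ _)
    obtain ⟨p', hp', e'⟩ := ih fun j hj => h j (Finset.mem_insert_of_mem hj)
    exact ⟨p + p', (Polynomial.natDegree_add_le _ _).trans (max_le hp hp'), fun a => by
      simp [Finset.sum_insert hi, e, e']⟩

theorem deg_mono {l l' : ℕ} {φ : F → F} (h : Deg l φ) (hl : l ≤ l') : Deg l' φ := by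
  obtain ⟨p, hp, e⟩ := h
  exact ⟨p, hp.trans hl, e⟩

theorem deg_aff {l : ℕ} {φ : F → F} (h : Deg l φ) (x y : F) : Deg l fun a => φ (x + a * y) := by
  obtain ⟨p, hp, e⟩ := h
  refine ⟨p.comp (Polynomial.C y * Polynomial.X + Polynomial.C x),
    Polynomial.natDegree_comp_le.trans ?_, fun a => ?_⟩
  · calc _ ≤ l * 1 := Nat.mul_le_mul hp Polynomial.natDegree_linear_le
      _ = l := mul_one l
  · beta_reduce
    rw [e, Polynomial.eval_comp, add_comm, mul_comm]
    simp

/-- Lagrange basis for the nodes `T`. -/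
noncomputable def lag (T : Finset F) (y a : F) : F := (Lagrange.basis T id y).eval a

theorem deg_lag {T : Finset F} (hT : T.card = 6) {y : F} (hy : y ∈ T) : Deg 5 (lag T y) :=
  ⟨_, by rw [Lagrange.natDegree_basis (Set.injOn_id _) hy, hT], fun _ => rfl⟩

theorem interp {T : Finset F} (hT : T.card = 6) {φ : F → F} (h : Deg 5 φ) (a : F) :
    φ a = ∑ y ∈ T, φ y * lag T y a := by
  obtain ⟨p, hp, e⟩ := h
  have h1 : p.degree < T.card := by
    rw [hT]
    exact (Polynomial.degree_le_of_natDegree_le hp).trans_lt (by norm_num)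
  have h2 := Lagrange.eq_interpolate (Set.injOn_id (T : Set F)) h1
  rw [e a, h2, Lagrange.interpolate_apply, Polynomial.eval_finsetSum]
  simp [e, lag]

theorem zeros [Fintype F] {φ : F → F} (h : Deg 10 φ) (hq : (100 : ℝ) ≤ Fintype.card F)
    (hc : cn (fun a => φ a ≠ 0) ≤ Fintype.card F / 2) (a : F) : φ a = 0 := by
  obtain ⟨p, hp, e⟩ := h
  have h1 := cn_not fun a => φ a = 0
  rw [cn_card fun a => φ a = 0] at h1
  have h2 : (10 : ℝ) < (univ.filter fun a => φ a = 0).card := by
    simp only [ne_eq] at hc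
    linarith
  have h3 : p = 0 := Polynomial.eq_zero_of_natDegree_lt_card_of_eval_eq_zero' p
    (univ.filter fun a => φ a = 0) (fun i hi => (e i).symm.trans (Finset.mem_filter.1 hi).2)
    (hp.trans_lt (by exact_mod_cast h2))
  simp [e, h3]

end Degree

variable {F : Type} [Field F] [Fintype F]

/-- Coordinates along two directions. -/
def co (b1 b2 : F) (h : b2 - b1 ≠ 0) : F × F ≃ F × F where
  toFun p := (p.2 + p.1, p.2 * b2 + p.1 * b1)
  invFun p := ((p.1 * b2 - p.2) / (b2 - b1), (p.2 - p.1 * b1) / (b2 - b1))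
  left_inv p := by
    ext <;> simp only <;> field_simp <;> ring
  right_inv p := by
    ext <;> simp only <;> field_simp <;> ring

/-- A function of total degree ten which is close to one family of lines. -/
theorem exists_P (hq : (100 : ℝ) ≤ Fintype.card F) {Λ : F → F → F → F} {τ : ℝ} (hτ : 0 ≤ τ)
    (hΛ : ∀ s c b, Deg 5 fun a => Λ (s + a) (c + a * b) b) {b1 b2 : F} (hb : b2 - b1 ≠ 0)
    (h : cn (fun p : F × F => Λ p.1 p.2 b1 ≠ Λ p.1 p.2 b2) ≤ 2 * τ * Fintype.card F ^ 2) :
    ∃ P : F → F → F, (∀ s0 s1 c0 c1, Deg 10 fun t => P (s0 + t * s1) (c0 + t * c1)) ∧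
      cn (fun p : F × F => P p.1 p.2 ≠ Λ p.1 p.2 b2) ≤ 24 * τ * Fintype.card F ^ 2 := by
  set q : ℝ := (Fintype.card F : ℝ) with hqd
  let H : F → F → F := fun v u => Λ (v + u) (v * b2 + u * b1) b1
  let V : F → F → F := fun u v => Λ (v + u) (v * b2 + u * b1) b2
  have hH : ∀ v, Deg 5 (H v) := fun v => hΛ v (v * b2) b1
  have hV : ∀ u, Deg 5 (V u) := fun u => by
    simpa only [V, add_comm] using hΛ u (u * b1) b2
  rw [← cn_equiv (co b1 b2 hb), cn_prod'] at h
  have h1 : cn (fun v => 4 * τ * q < cn fun u => H v u ≠ V u v) ≤ q / 2 :=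
    markov (fun v => cn_nonneg _) (by positivity) (by positivity) (h.trans (le_of_eq (by ring)))
  have h2 := cn_not fun v => 4 * τ * q < cn fun u => H v u ≠ V u v
  rw [cn_card] at h2
  obtain ⟨T, hTs, hT⟩ := Finset.exists_subset_card_eq
    (s := univ.filter fun v => ¬ 4 * τ * q < cn fun u => H v u ≠ V u v) (n := 6) (by
      have : (6 : ℝ) ≤ (univ.filter fun v => ¬ 4 * τ * q < cn fun u => H v u ≠ V u v).card := by
        linarith
      exact_mod_cast this)
  let e := co b1 b2 hb
  refine ⟨fun s c => ∑ y ∈ T, H y (e.symm (s, c)).1 * lag T y (e.symm (s, c)).2, ?_, ?_⟩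
  · intro s0 s1 c0 c1
    refine deg_sum T fun y hy => ?_
    have e1 := deg_aff (hH y) ((s0 * b2 - c0) / (b2 - b1)) ((s1 * b2 - c1) / (b2 - b1))
    have e2 := deg_aff (deg_lag hT hy) ((c0 - s0 * b1) / (b2 - b1)) ((c1 - s1 * b1) / (b2 - b1))
    convert deg_mul e1 e2 using 4 with t
    · simp only [e, co, Equiv.coe_fn_symm_mk]
      ring
    · simp only [e, co, Equiv.coe_fn_symm_mk]
      ring
  · rw [← cn_equiv e]
    simp only [Prod.mk.eta, Equiv.symm_apply_apply]
    have h3 : cn (fun u => ∃ y ∈ T, H y u ≠ V u y) ≤ 24 * τ * q := by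
      refine (cn_exists T fun y u => H y u ≠ V u y).trans ?_
      calc _ ≤ ∑ _y ∈ T, 4 * τ * q :=
            Finset.sum_le_sum fun y hy => not_lt.1 (Finset.mem_filter.1 (hTs hy)).2
        _ = _ := by
            rw [Finset.sum_const, hT, nsmul_eq_mul]
            push_cast
            ring
    calc _ ≤ cn fun p : F × F => ∃ y ∈ T, H y p.1 ≠ V p.1 y := by
          refine cn_mono fun p hp => ?_
          by_contra hc
          push Not at hc
          refine hp ?_
          rw [Finset.sum_congr rfl fun y hy => by rw [hc y hy], ← interp hT (hV p.1)]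
          rfl
      _ = ∑ _v : F, cn fun u => ∃ y ∈ T, H y u ≠ V u y := cn_prod' _
      _ ≤ _ := by
          rw [Finset.sum_const, Finset.card_univ, nsmul_eq_mul, ← hqd]
          nlinarith

/-- Shear. -/
def sh (a : F) : F × F ≃ F × F where
  toFun p := (p.1 + a * p.2, p.2)
  invFun p := (p.1 - a * p.2, p.2)
  left_inv p := by simp
  right_inv p := by simp

end Plane

open Plane in
theorem plane_proof : PlaneStmt := by
  intro F _ _ hq' Λ τ hΛ hτ h
  have hq : (100 : ℝ) ≤ Fintype.card F := by exact_mod_cast hq'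
  set q : ℝ := (Fintype.card F : ℝ) with hqd
  have q0 : 0 < q := by linarith
  have hτ0 : 0 ≤ τ := le_trans (by rw [pr_eq]; exact div_nonneg (cn_nonneg _) (Nat.cast_nonneg _)) h
  let N : F → F → ℝ := fun b b' => cn fun p : F × F => Λ p.1 p.2 b ≠ Λ p.1 p.2 b'
  have N0 : ∀ b b', 0 ≤ N b b' := fun b b' => cn_nonneg _
  have h1 : ∑ b', ∑ b, N b b' ≤ τ * q ^ 4 := by
    rw [pr_eq, cn_prod', Fintype.sum_prod_type_right, div_le_iff₀ (by
      simp only [Fintype.card_prod]
      push_cast
      positivity)] at h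
    refine h.trans (le_of_eq ?_)
    simp only [Fintype.card_prod]
    push_cast
    ring
  obtain ⟨b2, -, h2⟩ := Finset.exists_le_of_sum_le (s := (univ : Finset F)) Finset.univ_nonempty
    (f := fun b' => ∑ b, N b b') (g := fun _ => τ * q ^ 3) (h1.trans (le_of_eq (by
      rw [Finset.sum_const, Finset.card_univ, nsmul_eq_mul, ← hqd]
      ring)))
  have hc : ((univ.erase b2).card : ℝ) = q - 1 := by
    rw [Finset.card_erase_of_mem (Finset.mem_univ _), Finset.card_univ, Nat.cast_sub (by omega)]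
    simp [hqd]
  obtain ⟨b1, hb1, h3⟩ := Finset.exists_le_of_sum_le (s := univ.erase b2)
    (Finset.card_pos.1 (by
      have : (0 : ℝ) < (univ.erase b2).card := by linarith
      exact_mod_cast this))
    (f := fun b => N b b2) (g := fun _ => 2 * τ * q ^ 2) (by
      refine (Finset.sum_le_sum_of_subset_of_nonneg (Finset.erase_subset _ _)
        fun b _ _ => N0 b b2).trans (h2.trans ?_)
      rw [Finset.sum_const, nsmul_eq_mul, hc]
      have : 0 ≤ τ * q ^ 2 * (q - 2) := mul_nonneg (by positivity) (by linarith)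
      nlinarith)
  obtain ⟨P, hP, h4⟩ := exists_P hq hτ0 hΛ (sub_ne_zero.2 (Finset.ne_of_mem_erase hb1).symm) h3
  have h5 : ∑ b, cn (fun p : F × F => P p.1 p.2 ≠ Λ p.1 p.2 b) ≤ 25 * τ * q ^ 3 := by
    calc _ ≤ ∑ b, (24 * τ * q ^ 2 + N b b2) := by
          refine Finset.sum_le_sum fun b _ => ?_
          refine le_trans (cn_mono fun p hp => ?_) ((cn_or _ _).trans (add_le_add h4 le_rfl))
          by_contra hc
          push Not at hc
          exact hp (hc.1.trans hc.2.symm)
      _ ≤ _ := by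
          rw [Finset.sum_add_distrib, Finset.sum_const, Finset.card_univ, nsmul_eq_mul, ← hqd]
          linarith
  let Bad : F × F → Prop := fun p => ∃ a, P a (p.1 + a * p.2) ≠ Λ a (p.1 + a * p.2) p.2
  have hL : ∀ c b, Deg 5 fun a => Λ a (c + a * b) b := fun c b => by simpa using hΛ 0 c b
  have hPl : ∀ c b, Deg 10 fun a => P a (c + a * b) := fun c b => by simpa using hP 0 1 c b
  have h6 : cn Bad ≤ 50 * τ * q ^ 2 := by
    have e1 : cn Bad * (q / 2) ≤
        ∑ p : F × F, cn fun a => P a (p.1 + a * p.2) ≠ Λ a (p.1 + a * p.2) p.2 := by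
      refine cn_mul_le (fun p => cn_nonneg _) fun p ⟨a, ha⟩ => ?_
      by_contra hc
      refine ha (sub_eq_zero.1 (zeros (deg_sub (hPl p.1 p.2) (deg_mono (hL p.1 p.2) (by norm_num)))
        hq ?_ a))
      simpa only [ne_eq, sub_eq_zero] using (not_le.1 hc).le
    have e2 : ∑ p : F × F, (cn fun a => P a (p.1 + a * p.2) ≠ Λ a (p.1 + a * p.2) p.2) =
        ∑ b, cn (fun p : F × F => P p.1 p.2 ≠ Λ p.1 p.2 b) := by
      rw [← cn_prod fun r : (F × F) × F => P r.2 (r.1.1 + r.2 * r.1.2) ≠
        Λ r.2 (r.1.1 + r.2 * r.1.2) r.1.2, cn_prod']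
      have e3 : ∀ a, (cn fun p : F × F => P a (p.1 + a * p.2) ≠ Λ a (p.1 + a * p.2) p.2) =
          ∑ b, cn fun c => P a c ≠ Λ a c b := fun a =>
        (cn_equiv (sh a) fun p => P a p.1 ≠ Λ a p.1 p.2).trans (cn_prod' _)
      simp only [e3]
      rw [Finset.sum_comm]
      exact Finset.sum_congr rfl fun b _ => (cn_prod fun p : F × F => P p.1 p.2 ≠ Λ p.1 p.2 b).symm
    rw [e2] at e1
    refine le_of_mul_le_mul_right (e1.trans (h5.trans (le_of_eq (by ring)))) (half_pos q0)
  obtain ⟨T, -, hT⟩ := Finset.exists_subset_card_eq (s := (univ : Finset F)) (n := 6)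
    (by rw [Finset.card_univ]; omega)
  have h7 : ∀ a c b, P a (c + a * b) - ∑ y ∈ T, P y (c + y * b) * lag T y a = 0 := by
    intro a c
    have dc : ∀ b, Deg 10 fun c => P a (c + a * b) - ∑ y ∈ T, P y (c + y * b) * lag T y a :=
      fun b => deg_sub (by simpa [add_comm] using hP a 0 (a * b) 1) (deg_sum T fun y _ =>
        deg_mul (l := 10) (l' := 0) (by simpa [add_comm] using hP y 0 (y * b) 1) (deg_const 0 _))
    have db : Deg 10 fun b => P a (c + a * b) - ∑ y ∈ T, P y (c + y * b) * lag T y a :=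
      deg_sub (by simpa [mul_comm] using hP a 0 c a) (deg_sum T fun y _ =>
        deg_mul (l := 10) (l' := 0) (by simpa [mul_comm] using hP y 0 c y) (deg_const 0 _))
    have e1 : cn (fun b => q / 2 < cn fun c => Bad (c, b)) ≤ q / 2 := by
      refine markov (fun b => cn_nonneg _) (by positivity) (by positivity) ?_
      rw [← cn_prod' Bad]
      nlinarith [sq_nonneg q]
    refine zeros db hq (le_trans (cn_mono fun b hb => ?_) e1)
    by_contra hc
    refine hb (zeros (dc b) hq (le_trans (cn_mono fun c' hc' => ?_) (not_lt.1 hc)) c)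
    by_contra hg
    simp only [Bad, not_exists, not_not] at hg
    refine hc' (sub_eq_zero.2 ?_)
    simp only [hg]
    exact interp hT (hL c' b) a
  refine ⟨P, fun s c b => ?_, ?_⟩
  · have e1 : Deg 5 fun a => P a (c - s * b + a * b) := by
      rw [funext fun a => sub_eq_zero.1 (h7 a (c - s * b) b)]
      exact deg_sum T fun y hy => deg_mul (l := 0) (l' := 5) (deg_const 0 _) (deg_lag hT hy)
    convert deg_aff e1 s 1 using 3 with a <;> ring
  · rw [pr_eq, div_le_iff₀ (by
      simp only [Fintype.card_prod]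
      push_cast
      positivity), cn_prod]
    have e1 : ∀ s, cn (fun p : F × F => ∃ a, P (s + a) (p.1 + a * p.2) ≠
        Λ (s + a) (p.1 + a * p.2) p.2) ≤ 50 * τ * q ^ 2 := fun s => by
      refine le_trans ?_ h6
      rw [← cn_equiv (sh s)]
      refine cn_mono fun p ⟨a, ha⟩ => ⟨s + a, ?_⟩
      simpa only [sh, Equiv.coe_fn_mk, add_mul, add_assoc] using ha
    refine (Finset.sum_le_sum fun s _ => e1 s).trans (le_of_eq ?_)
    rw [Finset.sum_const, Finset.card_univ, nsmul_eq_mul]
    simp only [Fintype.card_prod]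
    push_cast
    ring

end Vale.Agent.P318.Q
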