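import Vale.Agent.P318.Q.Stmt

/-!
Track Q: the plane lemma on a coset of a Heisenberg group.
-/

namespace Vale.Agent.P318.Q

open Finset
open scoped BigOperators Classical

namespace Repair

theorem pr_equiv {α β : Type} [Fintype α] [Fintype β] (e : α ≃ β) (P : β → Prop) :
    pr (fun a => P (e a)) = pr P := by
  unfold pr
  exact Fintype.expect_equiv e _ _ fun _ => rfl

variable {F G : Type} [Field F] [Group G]

/-- A Heisenberg group in the coordinates `Z c * X s * Y b`. -/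
structure Heis (X Y Z : F → G) : Prop where
  X_add : ∀ a b, X (a + b) = X a * X b
  Y_add : ∀ a b, Y (a + b) = Y a * Y b
  Z_add : ∀ a b, Z (a + b) = Z a * Z b
  comm : ∀ a b, Y b * X a = X a * Y b * Z (a * b)
  ZX : ∀ c a, Z c * X a = X a * Z c
  ZY : ∀ c a, Z c * Y a = Y a * Z c

/-- The coordinates. -/
def co (X Y Z : F → G) (p : F × F × F) : G := Z p.2.1 * X p.1 * Y p.2.2

theorem zero_of_add {X : F → G} (h : ∀ a b, X (a + b) = X a * X b) : X 0 = 1 := by
  have := h 0 0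
  rw [add_zero] at this
  exact mul_left_cancel (a := X 0) (by rw [← this, mul_one])

theorem neg_of_add {X : F → G} (h : ∀ a b, X (a + b) = X a * X b) (a : F) :
    X (-a) = (X a)⁻¹ := by
  rw [eq_inv_iff_mul_eq_one, ← h, neg_add_cancel, zero_of_add h]

namespace Heis

variable {X Y Z : F → G} (H : Heis X Y Z)
include H

theorem co_Y (s c b a : F) : co X Y Z (s, c, b) * Y a = co X Y Z (s, c, b + a) := by
  simp only [co, H.Y_add, mul_assoc]

theorem co_X (s c b a : F) : co X Y Z (s, c, b) * X a = co X Y Z (s + a, c + a * b, b) := by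
  simp only [co, H.X_add, H.Z_add]
  rw [mul_assoc, H.comm, mul_assoc (X a), ← H.ZY, ← mul_assoc (X a), ← H.ZX]
  simp only [mul_assoc]
  rw [← mul_assoc (X s), ← H.ZX, mul_assoc]

theorem co_Z (s c b a : F) : co X Y Z (s, c, b) * Z a = co X Y Z (s, c + a, b) := by
  simp only [co, H.Z_add]
  rw [mul_assoc, ← H.ZY]
  simp only [mul_assoc]
  rw [← mul_assoc (X s), ← H.ZX, mul_assoc]

theorem co_zero : co X Y Z (0, 0, 0) = 1 := by
  simp only [co, zero_of_add H.X_add, zero_of_add H.Y_add, zero_of_add H.Z_add, mul_one]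

theorem mem_iff (K : Subgroup G) (hK : K = Subgroup.closure (Set.range X ∪ Set.range Y))
    (u : G) : u ∈ K ↔ ∃ p, co X Y Z p = u := by
  have hX : ∀ a, X a ∈ K := fun a => hK ▸ Subgroup.subset_closure (Or.inl ⟨a, rfl⟩)
  have hY : ∀ a, Y a ∈ K := fun a => hK ▸ Subgroup.subset_closure (Or.inr ⟨a, rfl⟩)
  have hZ : ∀ a, Z a ∈ K := fun a => by
    have h := H.comm a 1
    rw [mul_one] at h
    have : Z a = (X a * Y 1)⁻¹ * (Y 1 * X a) := by rw [h, inv_mul_cancel_left]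
    rw [this]
    exact K.mul_mem (K.inv_mem (K.mul_mem (hX _) (hY _))) (K.mul_mem (hY _) (hX _))
  constructor
  · intro hu
    rw [hK] at hu
    induction hu using Subgroup.closure_induction_right with
    | one => exact ⟨_, H.co_zero⟩
    | mul_right x _ y hy ih =>
      obtain ⟨⟨s, c, b⟩, rfl⟩ := ih
      rcases hy with ⟨a, rfl⟩ | ⟨a, rfl⟩
      · exact ⟨_, (H.co_X s c b a).symm⟩
      · exact ⟨_, (H.co_Y s c b a).symm⟩
    | mul_inv_cancel x _ y hy ih =>
      obtain ⟨⟨s, c, b⟩, rfl⟩ := ih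
      rcases hy with ⟨a, rfl⟩ | ⟨a, rfl⟩
      · exact ⟨_, by rw [← neg_of_add H.X_add, H.co_X s c b]⟩
      · exact ⟨_, by rw [← neg_of_add H.Y_add, H.co_Y s c b]⟩
  · rintro ⟨p, rfl⟩
    exact K.mul_mem (K.mul_mem (hZ _) (hX _)) (hY _)

theorem repair (h : PlaneStmt) [Fintype F] (hq : 100 ≤ Fintype.card F) (K : Subgroup G)
    [Fintype K] (hK : K = Subgroup.closure (Set.range X ∪ Set.range Y))
    (hinj : Function.Injective (co X Y Z)) (f : G → F) (g : G) (τ : ℝ)
    (hf : ∀ g', Deg 5 fun a => f (g' * X a)) (hτ : 50 * τ ≤ 1 / 4)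
    (hp : pr (fun p : K × F => f (g * p.1) ≠ f (g * p.1 * Y p.2)) ≤ τ) :
    ∃ f' : G → F, (∀ u ∈ K, (∀ a, f' (g * u * Y a) = f' (g * u)) ∧
        Deg 5 fun a => f' (g * u * X a)) ∧
      pr (fun u : K => ∃ a, f' (g * u * X a) ≠ f (g * u * X a)) ≤ 50 * τ := by
  have hm := H.mem_iff K hK
  let E : F × F × F ≃ K := Equiv.ofBijective (fun p => ⟨co X Y Z p, (hm _).2 ⟨p, rfl⟩⟩)
    ⟨fun p p' hp => hinj (congrArg Subtype.val hp), fun u => by
      obtain ⟨p, hp⟩ := (hm u).1 u.2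
      exact ⟨p, Subtype.ext hp⟩⟩
  have hE : ∀ p, (E p : G) = co X Y Z p := fun _ => rfl
  let E2 : (F × F) × F × F ≃ K × F :=
    (⟨fun p => ((p.1.1, p.1.2, p.2.1), p.2.2 - p.2.1), fun p => ((p.1.1, p.1.2.1), p.1.2.2,
      p.1.2.2 + p.2), fun p => by simp, fun p => by simp⟩ :
      (F × F) × F × F ≃ (F × F × F) × F).trans (E.prodCongr (Equiv.refl F))
  obtain ⟨P, hP1, hP2⟩ := h F hq (fun s c b => f (g * co X Y Z (s, c, b))) τ
    (fun s c b => by
      have := hf (g * co X Y Z (s, c, b))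
      simpa only [mul_assoc, H.co_X] using this) hτ
    (by
      rw [← pr_equiv E2] at hp
      convert hp using 3 with p
      change _ ↔ f (g * co X Y Z (p.1.1, p.1.2, p.2.1)) ≠
        f (g * co X Y Z (p.1.1, p.1.2, p.2.1) * Y (p.2.2 - p.2.1))
      rw [mul_assoc, H.co_Y, add_sub_cancel])
  let f' : G → F := fun g' =>
    if hg : g⁻¹ * g' ∈ K then P (E.symm ⟨_, hg⟩).1 (E.symm ⟨_, hg⟩).2.1 else 0
  have hf' : ∀ s c b, f' (g * co X Y Z (s, c, b)) = P s c := by
    intro s c b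
    have hg : g⁻¹ * (g * co X Y Z (s, c, b)) ∈ K := by
      rw [inv_mul_cancel_left]; exact (hm _).2 ⟨_, rfl⟩
    have : E.symm ⟨_, hg⟩ = (s, c, b) := by
      rw [Equiv.symm_apply_eq]
      exact Subtype.ext (by rw [hE]; exact inv_mul_cancel_left _ _)
    simp only [f', dif_pos hg, this]
  refine ⟨f', fun u hu => ?_, ?_⟩
  · obtain ⟨⟨s, c, b⟩, rfl⟩ := (hm u).1 hu
    refine ⟨fun a => by rw [mul_assoc, H.co_Y, hf', hf'], ?_⟩
    simpa only [mul_assoc, H.co_X, hf'] using hP1 s c b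
  · rw [← pr_equiv E]
    convert hP2 using 2
    funext ⟨s, c, b⟩
    simp only [hE, mul_assoc, H.co_X, hf']

end Heis

end Repair

open Repair in
theorem repair_proof (h : PlaneStmt) : RepairStmt := by
  intro F G _ _ _ _ T hT hq j hj f g τ hf hτ hp
  have hz := neg_of_add (hT.z_add 2)
  obtain rfl | rfl : j = 1 ∨ j = 2 := by
    clear hp; revert j; decide
  · have H : Heis (T.x 0) (T.x 2) (T.z 1) :=
      ⟨hT.x_add 0, hT.x_add 2, hT.z_add 1, fun a b => by
        rw [mul_comm a b]; exact hT.comm 1 b a, hT.zx2 1, hT.zx1 1⟩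
    refine H.repair h hq (T.K 1) (by rw [Set.union_comm]; rfl) ?_ f g τ hf hτ hp
    have key : ∀ s c b, co (T.x 0) (T.x 2) (T.z 1) (s, c, b) = T.k 1 (b, s, c - s * b) := by
      intro s c b
      have : T.k 1 (b, s, c - s * b) = co (T.x 0) (T.x 2) (T.z 1) (0, 0, 0) * T.x 2 b * T.x 0 s *
        T.z 1 (c - s * b) := by rw [H.co_zero, one_mul]; rfl
      rw [this, H.co_Y, H.co_X, H.co_Z]
      simp
    rintro ⟨s, c, b⟩ ⟨s', c', b'⟩ hp
    rw [key, key] at hp
    have := hT.inj 1 hp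
    simp only [Prod.mk.injEq] at this
    obtain ⟨rfl, rfl, h3⟩ := this
    rw [sub_left_inj.1 h3]
  · have H : Heis (T.x 0) (T.x 1) (fun c => T.z 2 (-c)) :=
      ⟨hT.x_add 0, hT.x_add 1, fun a b => by rw [neg_add, hT.z_add], fun a b => by
        rw [hz, eq_mul_inv_iff_mul_eq]; exact (hT.comm 2 a b).symm,
        fun c a => hT.zx1 2 _ a, fun c a => hT.zx2 2 _ a⟩
    refine H.repair h hq (T.K 2) rfl ?_ f g τ hf hτ hp
    have key : ∀ s c b, co (T.x 0) (T.x 1) (fun c => T.z 2 (-c)) (s, c, b) = T.k 2 (s, b, -c) := by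
      intro s c b
      have : T.k 2 (s, b, -c) = co (T.x 0) (T.x 1) (fun c => T.z 2 (-c)) (0, 0, 0) * T.x 0 s *
        T.x 1 b * (fun c => T.z 2 (-c)) c := by rw [H.co_zero, one_mul]; rfl
      rw [this, H.co_X, H.co_Y, H.co_Z]
      simp
    rintro ⟨s, c, b⟩ ⟨s', c', b'⟩ hp
    rw [key, key] at hp
    have := hT.inj 2 hp
    simp only [Prod.mk.injEq] at this
    obtain ⟨rfl, rfl, h3⟩ := this
    rw [neg_inj.1 h3]

end Vale.Agent.P318.Q
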