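import Vale.Agent.P318.Q.Stmt

/-!
Track Q: the root subgroup systems in `SL(3, K)` and in its cube.
-/

namespace Vale.Agent.P318.Q

open Matrix Matrix.SpecialLinearGroup

namespace SL

variable {F K : Type} [Field F] [Field K] [Algebra F K]

theorem tv_comm {i j k : Fin 3} (hij : i ≠ j) (hjk : j ≠ k) (hik : i ≠ k) (r s : K) :
    transvection hij r * transvection hjk s =
      transvection hjk s * transvection hij r * transvection hik (r * s) := Subtype.ext <| by
  simp [transvection_coe, mul_add, add_mul, single_mul_single_of_ne _ _ _ _ hij.symm,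
    single_mul_single_of_ne _ _ _ _ hik.symm, add_assoc, add_left_comm, add_comm]

theorem tv_cm {i j k l : Fin 3} (hij : i ≠ j) (hkl : k ≠ l) (h1 : j ≠ k) (h2 : l ≠ i) (r s : K) :
    transvection hij r * transvection hkl s = transvection hkl s * transvection hij r :=
  Subtype.ext <| by
    simp [transvection_coe, mul_add, add_mul, single_mul_single_of_ne _ _ _ _ h1,
      single_mul_single_of_ne _ _ _ _ h2, add_left_comm, add_comm]

theorem diag_eq {i j : Fin 3} (hij : i ≠ j) (a : K) (ha : a ≠ 0) :
    diag2n hij a ha = transvection hij a * transvection hij.symm (-a⁻¹) * transvection hij a *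
      transvection hij (-1) * transvection hij.symm 1 * transvection hij (-1) := by
  refine Subtype.ext ?_
  simp only [coe_mul, diag2n_coe, transvection_coe, mul_add, add_mul, one_mul, mul_one,
    single_mul_single_same, single_mul_single_of_ne _ _ _ _ hij.symm,
    single_mul_single_of_ne _ _ _ _ hij, add_zero, mul_neg, neg_mul, mul_inv_cancel₀ ha,
    inv_mul_cancel₀ ha, neg_neg]
  ext u v
  by_cases h1 : u = i <;> by_cases h2 : u = j <;> by_cases h3 : v = i <;> by_cases h4 : v = j <;>
    simp_all [diagonal_apply, one_apply, single_apply, eq_comm]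

theorem k_inj {t : K} (ht : t ≠ 0) (i : Fin 3) : Function.Injective ((slTri F t).k i) := by
  rintro ⟨a, b, c⟩ ⟨a', b', c'⟩ h
  have e := fun u v => congrArg (fun g : SL3 K => g.1 u v) h
  have h1 := e i (i + 1)
  have h2 := e (i + 1) (i + 2)
  have h3 := e i (i + 2)
  fin_cases i <;> simp [Tri.k, slTri, transvection_coe, mul_add, add_mul, ht] at h1 h2 h3 <;>
    subst h1 h2 <;> simpa [ht] using h3

theorem rel {t : K} (ht : t ≠ 0)
    (hg : Subgroup.closure (⋃ i, Set.range ((slTri F t).x i)) = ⊤) : (slTri F t).OK where
  x_add i a b := by simp only [slTri, map_add, add_mul, transvection_add]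
  z_add i a b := by simp only [slTri, map_add, add_mul, transvection_add]
  comm i a b := by
    refine Subtype.ext ?_
    fin_cases i <;> simp [slTri, transvection_coe, mul_add, add_mul, add_assoc, mul_assoc,
      mul_comm t] <;> abel
  zx1 i c a := tv_cm (fin3_ne_add_two i).symm (fin3_ne_add_two _) (by revert i; decide)
    (by revert i; decide) _ _
  zx2 i c a := tv_cm (fin3_ne_add_two i).symm (fin3_ne_add_two _) (by revert i; decide)
    (by revert i; decide) _ _
  inj := k_inj ht
  gen := hg

theorem gen {t : Fin 3 → K} (h : Gen3 F t) :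
    Subgroup.closure (⋃ i, Set.range ((piTri fun j => slTri F (t j)).x i)) = ⊤ := by
  set H := Subgroup.closure (⋃ i, Set.range ((piTri fun j => slTri F (t j)).x i))
  let L : ∀ {i j : Fin 3}, i ≠ j → (Fin 3 → K) → Prop := fun hij r =>
    (fun l => transvection hij (r l)) ∈ H
  have add : ∀ {i j} (hij : i ≠ j) {r s}, L hij r → L hij s → L hij fun l => r l + s l :=
    fun hij r s hr hs => by
      simp only [L, transvection_add]
      exact H.mul_mem hr hs
  have mul : ∀ {i j k} (hij : i ≠ j) (hjk : j ≠ k) (hik : i ≠ k) {r s u}, L hij r → L hjk s →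
      (∀ l, u l = r l * s l) → L hik u := fun hij hjk hik r s u hr hs e => by
    convert H.mul_mem (H.inv_mem (H.mul_mem hs hr)) (H.mul_mem hr hs) using 1
    funext l
    simp only [Pi.mul_apply, Pi.inv_apply, tv_comm hij hjk hik, inv_mul_cancel_left, e]
  have b : ∀ i a, (piTri fun j => slTri F (t j)).x i a ∈ H := fun i a =>
    Subgroup.subset_closure (Set.mem_iUnion.2 ⟨i, a, rfl⟩)
  have b01 : ∀ a : F, L (i := 0) (j := 1) (by decide) fun _ => algebraMap F K a := fun a => by
    simpa [piTri, slTri] using b 1 a
  have b12 : ∀ a : F, L (i := 1) (j := 2) (by decide) fun _ => algebraMap F K a := fun a => by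
    simpa [piTri, slTri] using b 2 a
  have b20 : ∀ a : F, L (i := 2) (j := 0) (by decide) fun l => algebraMap F K a * t l := b 0
  have b02 : ∀ a : F, L (i := 0) (j := 2) (by decide) fun _ => algebraMap F K a := fun a =>
    mul _ _ _ (b01 a) (b12 1) (by simp)
  have b21 : ∀ a : F, L (i := 2) (j := 1) (by decide) fun l => algebraMap F K a * t l := fun a =>
    mul _ _ _ (b20 a) (b01 1) (by simp)
  have b10 : ∀ a : F, L (i := 1) (j := 0) (by decide) fun l => algebraMap F K a * t l := fun a =>
    mul _ _ _ (b12 a) (b20 1) (by simp)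
  have c01 : ∀ a : F, L (i := 0) (j := 1) (by decide) fun l => algebraMap F K a * t l := fun a =>
    mul _ _ _ (b02 a) (b21 1) (by simp)
  have c0 : ∀ {i j} (hij : i ≠ j) (a : F), L hij fun l => algebraMap F K a * t l := by
    intro i j hij a
    fin_cases i <;> fin_cases j
    exacts [absurd rfl hij, c01 a, mul _ _ _ (c01 a) (b12 1) (by simp), b10 a, absurd rfl hij,
      mul _ _ _ (b10 a) (b02 1) (by simp), b20 a, b21 a, absurd rfl hij]
  have cn : ∀ (n : ℕ) {i j} (hij : i ≠ j) (a : F),
      L hij fun l => t l * (algebraMap F K a * t l ^ n) := fun n => by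
    induction n with
    | zero => exact fun hij a => by simpa [mul_comm] using c0 hij a
    | succ n ih =>
      intro i j hij a
      obtain ⟨k, h1, h2⟩ : ∃ k, i ≠ k ∧ k ≠ j := by revert i j; decide
      exact mul h1 h2 hij (ih h1 a) (c0 h2 1) fun l => by simp; ring
  have all : ∀ {i j} (hij : i ≠ j) r, L hij r := fun hij r => by
    obtain ⟨p, hp⟩ := h r
    rw [funext hp]
    clear hp
    induction p using Polynomial.induction_on' with
    | add p q h1 h2 => simpa only [map_add, mul_add] using add hij h1 h2
    | monomial n a => simpa only [Polynomial.aeval_monomial] using cn n hij a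
  have sg : ∀ l (g : SL3 K), Pi.mulSingle l g ∈ H := fun l g => by
    have tv : ∀ i j (hij : i ≠ j) (a : K), Pi.mulSingle l (transvection hij a) ∈ H :=
      fun i j hij a => by
        convert all hij (Pi.single l a) using 1
        funext u
        by_cases e : u = l
        · simp [e]
        · simp [e]
    refine diagonal_transvection_induction' (fun g => Pi.mulSingle l g ∈ H) g
      (fun i j hij c hc => ?_) tv fun A B hA hB => by
        simpa only [Pi.mulSingle_mul] using H.mul_mem hA hB
    simp only [diag_eq, Pi.mulSingle_mul]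
    iterate 5 refine H.mul_mem ?_ (tv _ _ _ _)
    exact tv _ _ _ _
  refine eq_top_iff.2 fun g _ => ?_
  convert H.mul_mem (H.mul_mem (sg 0 (g 0)) (sg 1 (g 1))) (sg 2 (g 2))
  funext l
  fin_cases l <;> simp

end SL

theorem sl_proof : SLStmt := fun F K _ _ _ t h => by
  have ok : ∀ j, (slTri F (t j)).OK := fun j => by
    obtain ⟨p, hp⟩ := h 1
    refine SL.rel (fun e => by simpa [e] using hp j) (eq_top_iff.2 fun g _ => ?_)
    have : (⊤ : Subgroup (Fin 3 → SL3 K)) ≤ (Subgroup.closure
        (⋃ i, Set.range ((slTri F (t j)).x i))).comap (Pi.evalMonoidHom _ j) := by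
      rw [← SL.gen h, Subgroup.closure_le]
      rintro _ ⟨_, ⟨i, rfl⟩, a, rfl⟩
      exact Subgroup.subset_closure (Set.mem_iUnion.2 ⟨i, a, rfl⟩)
    simpa using this (Subgroup.mem_top (Pi.mulSingle j g))
  exact ⟨⟨fun i a b => funext fun j => (ok j).x_add i a b,
    fun i a b => funext fun j => (ok j).z_add i a b, fun i a b => funext fun j => (ok j).comm i a b,
    fun i a b => funext fun j => (ok j).zx1 i a b, fun i a b => funext fun j => (ok j).zx2 i a b,
    fun i p q e => (ok 0).inj i (congrFun e 0), SL.gen h⟩, ok⟩

end Vale.Agent.P318.Q
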