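import Vale.Agent.P318.Q.Stmt

/-!
Track Q: soundness of the constraint system.
-/

namespace Vale.Agent.P318.Q

open Vale.Agent.Lib.PCP Finset
open scoped BigOperators Classical

namespace Sound

section pr

variable {X : Type} [Fintype X] {P Q : X → Prop}

theorem pr_mono (h : ∀ g, P g → Q g) : pr P ≤ pr Q :=
  expect_le_expect fun g _ => by
    by_cases hp : P g
    · simp [hp, h g hp]
    · rw [if_neg hp]
      split_ifs <;> norm_num

theorem pr_or (P Q : X → Prop) : pr (fun g => P g ∨ Q g) ≤ pr P + pr Q := by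
  rw [pr, pr, pr, ← expect_add_distrib]
  refine expect_le_expect fun g _ => ?_
  by_cases hp : P g <;> by_cases hq : Q g <;> simp [hp, hq]

theorem pr_ex {ι : Type} [Fintype ι] (P : ι → X → Prop) :
    pr (fun g => ∃ t, P t g) ≤ ∑ t, pr (P t) := by
  simp only [pr]
  rw [← expect_sum_comm]
  refine expect_le_expect fun g _ => ?_
  split_ifs with h
  · obtain ⟨t, ht⟩ := h
    refine le_trans (by simp [ht]) (single_le_sum (f := fun t => if P t g then (1 : ℝ) else 0)
      (fun t _ => by split_ifs <;> norm_num) (mem_univ t))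
  · exact sum_nonneg fun t _ => by split_ifs <;> norm_num

theorem pr_left [Group X] (P : X → Prop) (a : X) : pr (fun g => P (a * g)) = pr P :=
  Fintype.expect_equiv (Equiv.mulLeft a) _ _ fun _ => rfl

end pr

section cw

variable {F G : Type} [Field F] [Group G] {T : Tri F G} {l l' : ℕ} {f f' : G → F}

theorem cw_mono (h : T.Cw l f) (hl : l ≤ l') : T.Cw l' f :=
  ⟨h.1, h.2.1, fun g => (h.2.2 g).imp fun _ hp => ⟨hp.1.trans hl, hp.2⟩⟩

theorem cw_const (c : F) : T.Cw l fun _ => c :=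
  ⟨fun _ _ => rfl, fun _ _ => rfl, fun _ => ⟨Polynomial.C c, by simp, by simp⟩⟩

theorem cw_add (h : T.Cw l f) (h' : T.Cw l f') : T.Cw l fun g => f g + f' g := by
  refine ⟨fun g a => by simp only [h.1 g a, h'.1 g a],
    fun g a => by simp only [h.2.1 g a, h'.2.1 g a], fun g => ?_⟩
  obtain ⟨p, h1, h2⟩ := h.2.2 g
  obtain ⟨p', h1', h2'⟩ := h'.2.2 g
  exact ⟨p + p', (Polynomial.natDegree_add_le _ _).trans (max_le h1 h1'),
    fun a => by rw [Polynomial.eval_add, ← h2, ← h2']⟩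

theorem cw_mul (h : T.Cw l f) (h' : T.Cw l' f') : T.Cw (l + l') fun g => f g * f' g := by
  refine ⟨fun g a => by simp only [h.1 g a, h'.1 g a],
    fun g a => by simp only [h.2.1 g a, h'.2.1 g a], fun g => ?_⟩
  obtain ⟨p, h1, h2⟩ := h.2.2 g
  obtain ⟨p', h1', h2'⟩ := h'.2.2 g
  exact ⟨p * p', Polynomial.natDegree_mul_le.trans (add_le_add h1 h1'),
    fun a => by rw [Polynomial.eval_mul, ← h2, ← h2']⟩

theorem cw_sub (h : T.Cw l f) (h' : T.Cw l f') : T.Cw l fun g => f g - f' g := by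
  simpa [sub_eq_add_neg] using cw_add h (cw_mul h' (cw_const (l := 0) (-1)))

theorem cw_sum {ι : Type} (s : Finset ι) {f : ι → G → F} (h : ∀ i ∈ s, T.Cw l (f i)) :
    T.Cw l fun g => ∑ i ∈ s, f i g := by
  induction s using Finset.induction_on with
  | empty => simpa using cw_const 0
  | insert i s hi ih =>
    simpa only [sum_insert hi] using
      cw_add (h i (mem_insert_self _ _)) (ih fun j hj => h j (mem_insert_of_mem hj))

theorem cw_left (h : T.Cw l f) (a : G) : T.Cw l fun g => f (a * g) :=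
  ⟨fun g b => by simpa only [mul_assoc] using h.1 (a * g) b,
    fun g b => by simpa only [mul_assoc] using h.2.1 (a * g) b,
    fun g => by simpa only [mul_assoc] using h.2.2 (a * g)⟩

theorem cw_pi {T : Fin 3 → Tri F G} {j : Fin 3} (h : (T j).Cw l f) :
    (piTri T).Cw l fun g => f (g j) :=
  ⟨fun g a => h.1 (g j) a, fun g a => h.2.1 (g j) a, fun g => h.2.2 (g j)⟩

theorem x_zero (hT : T.OK) (i : Fin 3) : T.x i 0 = 1 := by simpa using hT.x_add i 0 0

theorem z_zero (hT : T.OK) (i : Fin 3) : T.z i 0 = 1 := by simpa using hT.z_add i 0 0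

theorem x_inv (hT : T.OK) (i : Fin 3) (a : F) : (T.x i a)⁻¹ = T.x i (-a) :=
  inv_eq_of_mul_eq_one_right (by rw [← hT.x_add, add_neg_cancel, x_zero hT])

theorem mem_K (hT : T.OK) {i : Fin 3} {u : G} (hu : u ∈ T.K i) : ∃ p, u = T.k i p := by
  have h1 : ∀ p a, ∃ p', T.k i p * T.x (i + 1) a = T.k i p' := fun p a =>
    ⟨(p.1 + a, p.2.1, -(a * p.2.1) + p.2.2), by
      have e : T.x (i + 2) p.2.1 * T.x (i + 1) a =
          T.x (i + 1) a * T.x (i + 2) p.2.1 * T.z i (-(a * p.2.1)) := by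
        rw [hT.comm, mul_assoc, ← hT.z_add, add_neg_cancel, z_zero hT, mul_one]
      simp only [Tri.k, hT.x_add, hT.z_add]
      rw [mul_assoc, hT.zx1, ← mul_assoc, mul_assoc (T.x (i + 1) p.1), e]
      simp only [mul_assoc]⟩
  have h2 : ∀ p a, ∃ p', T.k i p * T.x (i + 2) a = T.k i p' := fun p a =>
    ⟨(p.1, p.2.1 + a, p.2.2), by simp only [Tri.k, hT.x_add, mul_assoc, hT.zx2]⟩
  induction hu using Subgroup.closure_induction_right with
  | one => exact ⟨0, by simp [Tri.k, x_zero hT, z_zero hT]⟩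
  | mul_right x _ y hy ih =>
    obtain ⟨p, rfl⟩ := ih
    rcases hy with ⟨a, rfl⟩ | ⟨a, rfl⟩
    exacts [h1 p a, h2 p a]
  | mul_inv_cancel x _ y hy ih =>
    obtain ⟨p, rfl⟩ := ih
    rcases hy with ⟨a, rfl⟩ | ⟨a, rfl⟩ <;> rw [x_inv hT]
    exacts [h1 p _, h2 p _]

theorem delta {N o : ℕ} {h : G} {Φ Ψ : ℕ → G → F} (H : T.ThOK N h o Φ Ψ) {n n' : ℕ} (hn : n < N)
    (hn' : n' < N) : ∑ e ∈ range o, Ψ n (h ^ e) * Φ n' (h ^ e) = if n = n' then 1 else 0 := by
  split_ifs with e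
  · exact e ▸ H.norm n hn
  · simpa using H.orth n hn n' hn' e 1

/-- the coefficients of a decomposition of the sum of all `Φ n` add up to one -/
theorem sum_one {N o : ℕ} {h : G} {Φ Ψ : ℕ → G → F} (H : T.ThOK N h o Φ Ψ) {n : ℕ} (hn : n < N)
    {ι : Type} [Fintype ι] {a : ι → G → F} (ha : ∀ y, ∑ c, a c y = ∑ n ∈ range N, Φ n y) :
    ∑ c, ∑ e ∈ range o, Ψ n (h ^ e) * a c (h ^ e) = 1 := by
  rw [sum_comm]
  simp only [← mul_sum, ha]
  simp only [mul_sum]
  rw [sum_comm, sum_congr rfl fun n' hn' => delta H hn (mem_range.1 hn')]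
  simp [hn]

theorem inv_single {T : Fin 3 → Tri F G} {j : Fin 3} (hT : (T j).OK) {f : (Fin 3 → G) → F}
    (h : ∀ i a g, f (Pi.mulSingle j ((T j).x i a) * g) = f g) (y : G) :
    ∀ g, f (Pi.mulSingle j y * g) = f g := by
  have hy : y ∈ Subgroup.closure (⋃ i, Set.range ((T j).x i)) := hT.gen ▸ Subgroup.mem_top y
  induction hy using Subgroup.closure_induction with
  | mem x hx =>
    obtain ⟨i, a, rfl⟩ := Set.mem_iUnion.1 hx
    exact h i a
  | one => simp
  | mul x y _ _ h1 h2 => exact fun g => by rw [Pi.mulSingle_mul, mul_assoc, h1, h2]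
  | inv x _ h1 => exact fun g => by rw [← h1, ← mul_assoc, ← Pi.mulSingle_mul]; simp

end cw

theorem sum4 {α β γ δ M : Type} [AddCommMonoid M] (s1 : Finset α) (s2 : Finset β) (s3 : Finset γ)
    (s4 : Finset δ) (t : α → β → γ → δ → M) :
    ∑ a ∈ s1, ∑ b ∈ s2, ∑ c ∈ s3, ∑ d ∈ s4, t a b c d =
      ∑ c ∈ s3, ∑ d ∈ s4, ∑ a ∈ s1, ∑ b ∈ s2, t a b c d :=
  calc _ = ∑ p ∈ s1 ×ˢ s2, ∑ r ∈ s3 ×ˢ s4, t p.1 p.2 r.1 r.2 := by simp only [sum_product]
    _ = _ := by rw [sum_comm]; simp only [sum_product]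

theorem vidx_lt (φ : CNF) {i : ℕ} (hi : i < φ.length) (c : Fin 3) :
    vidx φ (lit φ i c).1 < 3 * φ.length := by
  have h1 : (φ.flatMap fun c => [c.1.1, c.2.1.1, c.2.2.1]).length = 3 * φ.length := by
    simp [List.length_flatMap, mul_comm]
  rw [← h1]
  refine List.idxOf_lt_length_of_mem (List.mem_flatMap.2 ⟨φ[i], List.getElem_mem hi, ?_⟩)
  fin_cases c <;> simp [lit, hi]

/-- the exact identities imply satisfiability -/
theorem exact {F G : Type} [Field F] [Group G] {T : Fin 3 → Tri F G} {N o : ℕ} {h : G}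
    {Φ Ψ : Fin 3 → ℕ → G → F} (H : ∀ j, (T j).ThOK N h o (Φ j) (Ψ j)) {φ : CNF}
    (hN : 3 * φ.length ≤ N) {a : Fin 3 → G → F} {b : Bool → G → F} {s : Bool → (Fin 3 → G) → F}
    (ha : ∀ y, ∑ c, a c y = ∑ n ∈ range N, Φ 0 n y) (hb : ∀ y, ∑ c, b c y = ∑ n ∈ range N, Φ 1 n y)
    (hs : ∀ g, ∑ cb : Fin 3 × Bool, (cf φ N Φ Ψ g).2.2 cb * a cb.1 (g 0) * b cb.2 (g 1) =
      ∑ β, (s β (Pi.mulSingle (if β then 1 else 0) h * g) - s β g)) : Satisfiable φ := by
  set A : ℕ → Fin 3 → F := fun i c => ∑ e ∈ range o, Ψ 0 i (h ^ e) * a c (h ^ e) with hA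
  set B : ℕ → Bool → F := fun n β => ∑ e ∈ range o, Ψ 1 n (h ^ e) * b β (h ^ e) with hB
  have h1 : ∀ y, ∑ cb : Fin 3 × Bool, ∑ i ∈ range φ.length, (if (lit φ i cb.1).2 = !cb.2 then
      Φ 2 (3 * i + cb.1) y * (A i cb.1 * B (vidx φ (lit φ i cb.1).1) cb.2) else 0) = 0 := by
    intro y
    have e0 : ∀ u v : G, (Pi.mulSingle 0 h * ![u, v, y] : Fin 3 → G) = ![h * u, v, y] :=
      fun u v => by ext j; fin_cases j <;> simp
    have e1 : ∀ u v : G, (Pi.mulSingle 1 h * ![u, v, y] : Fin 3 → G) = ![u, h * v, y] :=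
      fun u v => by ext j; fin_cases j <;> simp
    have t0 : ∀ Q : G → F, ∑ e ∈ range o, (Q (h * h ^ e) - Q (h ^ e)) = 0 := fun Q => by
      simpa only [← pow_succ', (H 0).pow, pow_zero, sub_self] using
        sum_range_sub (fun e => Q (h ^ e)) o
    calc _ = ∑ cb : Fin 3 × Bool, ∑ i ∈ range φ.length, ∑ e ∈ range o, ∑ e' ∈ range o,
          (if (lit φ i cb.1).2 = !cb.2 then Φ 2 (3 * i + cb.1) y * Ψ 0 i (h ^ e) *
            Ψ 1 (vidx φ (lit φ i cb.1).1) (h ^ e') else 0) * a cb.1 (h ^ e) * b cb.2 (h ^ e') := by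
          refine sum_congr rfl fun cb _ => sum_congr rfl fun i _ => ?_
          split_ifs
          · simp only [hA, hB]
            rw [sum_mul_sum]
            simp only [mul_sum]
            exact sum_congr rfl fun e _ => sum_congr rfl fun e' _ => by ring
          · simp
      _ = ∑ e ∈ range o, ∑ e' ∈ range o, ∑ β, (s β (Pi.mulSingle (if β then 1 else 0) h *
          ![h ^ e, h ^ e', y]) - s β ![h ^ e, h ^ e', y]) := by
          rw [sum4]
          refine sum_congr rfl fun e _ => sum_congr rfl fun e' _ => ?_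
          rw [← hs]
          simp only [cf, sum_mul]
          rfl
      _ = 0 := by
          simp only [Fintype.sum_bool, if_true, Bool.false_eq_true, if_false, e0, e1,
            sum_add_distrib]
          rw [sum_comm (f := fun e e' => s false ![h * h ^ e, h ^ e', y] - _),
            sum_eq_zero fun e _ => t0 fun v => s true ![h ^ e, v, y],
            sum_eq_zero fun e' _ => t0 fun u => s false ![u, h ^ e', y], add_zero]
  have h2 : ∀ i < φ.length, ∀ c : Fin 3,
      A i c * B (vidx φ (lit φ i c).1) (!(lit φ i c).2) = 0 := by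
    intro i hi c
    have h3 := sum_eq_zero (s := range o) fun e _ =>
      mul_eq_zero_of_right (Ψ 2 (3 * i + c) (h ^ e)) (h1 (h ^ e))
    simp only [mul_sum] at h3
    rw [sum_comm, sum_congr rfl fun cb _ => sum_comm] at h3
    rw [← h3, sum_eq_single (c, !(lit φ i c).2), sum_eq_single i]
    · simp only [Bool.not_not, if_true, ← mul_assoc (Ψ _ _ _), ← sum_mul]
      rw [(H 2).norm _ (by omega), one_mul]
    · intro i' hi' e
      split_ifs
      · simp only [← mul_assoc (Ψ _ _ _), ← sum_mul]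
        rw [delta (H 2) (by omega) (by have := mem_range.1 hi'; omega), if_neg (by omega), zero_mul]
      · simp
    · exact fun e => absurd (mem_range.2 hi) e
    · intro cb _ e
      refine sum_eq_zero fun i' hi' => ?_
      split_ifs with e'
      · simp only [← mul_assoc (Ψ _ _ _), ← sum_mul]
        rw [delta (H 2) (by omega) (by have := mem_range.1 hi'; omega), if_neg, zero_mul]
        intro e''
        obtain rfl : i = i' := by omega
        obtain rfl : c = cb.1 := Fin.ext (by omega)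
        exact e (Prod.ext rfl (by simp [e']))
      · simp
    · simp
  refine ⟨fun v => decide (B (vidx φ v) true ≠ 0), fun cl hcl => ?_⟩
  obtain ⟨i, hi, rfl⟩ := List.getElem_of_mem hcl
  obtain ⟨c, -, hc⟩ := exists_ne_zero_of_sum_ne_zero
    ((sum_one (H 0) (show i < N by omega) ha).trans_ne one_ne_zero)
  have h3 := (mul_eq_zero.1 (h2 i hi c)).resolve_left hc
  have h4 : ∑ β, B (vidx φ (lit φ i c).1) β = 1 :=
    sum_one (H 1) ((vidx_lt φ hi c).trans_le hN) hb
  have h5 : satLit (lit φ i c) (fun v => decide (B (vidx φ v) true ≠ 0)) = true := by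
    rw [Fintype.sum_bool] at h4
    cases e : (lit φ i c).2 <;> simp_all [satLit]
  fin_cases c <;> simp_all [lit, satClause]

end Sound

open Sound in
/-- Soundness. -/
theorem sound_proof (hL : LTCStmt) (hD : DistStmt) : SoundStmt := by
  intro F G _ _ _ _ T hP hT hq N h o Φ Ψ H φ hN f hf
  have loc : ∀ t g, okAt φ N T h Φ Ψ f g → (piTri T).Loc 5 (fun g => f g t) g := fun t g hg => by
    refine ⟨fun u hu => ?_, fun u hu => ?_⟩ <;> obtain ⟨p, rfl⟩ := mem_K hP hu
    · simpa [nbL, nbR, x_zero hP, mul_assoc] using hg.1 t p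
    · simpa [nbL, nbR, x_zero hP, mul_assoc] using hg.2.1 t p
  choose c hc hc' using fun t => hL F _ _ hP hq (fun g => f g t) _ le_rfl
    ((pr_mono fun g hg hg' => hg (loc t g hg')).trans hf)
  have bad : pr (fun g => ∃ t, f g t ≠ c t g) ≤ 7 * (257 * (1 / 10 ^ 8)) :=
    (pr_ex _).trans ((sum_le_card_nsmul _ _ _ fun t _ => hc' t).trans (by simp))
  have key : ∀ (E E' : (Fin 3 → G) → F) (l l' : Fin 3 → G), (piTri T).Cw 13 E →
      (piTri T).Cw 13 E' → (∀ g, okAt φ N T h Φ Ψ f g → (∀ t, f g t = c t g) →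
        (∀ t, f (l * g) t = c t (l * g)) → (∀ t, f (l' * g) t = c t (l' * g)) → E g = E' g) →
      ∀ g, E g = E' g := fun E E' l l' h1 h2 h3 g => by
    refine sub_eq_zero.1 (hD F _ _ hP 13 (by omega) (by omega) _ (cw_sub h1 h2) ?_ g)
    have a1 := pr_left (fun g => ∃ t, f g t ≠ c t g) l
    have a2 := pr_left (fun g => ∃ t, f g t ≠ c t g) l'
    refine (pr_mono (Q := fun g => (¬ okAt φ N T h Φ Ψ f g ∨ ∃ t, f g t ≠ c t g) ∨
      (∃ t, f (l * g) t ≠ c t (l * g)) ∨ ∃ t, f (l' * g) t ≠ c t (l' * g)) fun g hg => ?_).trans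
      ((pr_or _ _).trans ((add_le_add (pr_or _ _) (pr_or _ _)).trans (by linarith)))
    by_contra e
    push Not at e
    exact hg (sub_eq_zero.2 (h3 g e.1.1 e.1.2 e.2.1 e.2.2))
  have c13 : ∀ t, (piTri T).Cw 13 (c t) := fun t => cw_mono (hc t) (by norm_num)
  have e1 : ∀ col j, j ≠ 0 → ∀ y g, c (.inl col) (Pi.mulSingle j y * g) = c (.inl col) g :=
    fun col j hj => inv_single (hT j) fun i a => key _ _ (Pi.mulSingle j ((T j).x i a)) 1
      (cw_left (c13 _) _) (c13 _) fun g hg a1 a2 _ => by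
        simpa [nbL, nbR, a1, a2] using hg.2.2.1 col j i a hj
  have e2 : ∀ b j, j ≠ 1 → ∀ y g,
      c (.inr (.inl b)) (Pi.mulSingle j y * g) = c (.inr (.inl b)) g :=
    fun b j hj => inv_single (hT j) fun i a => key _ _ (Pi.mulSingle j ((T j).x i a)) 1
      (cw_left (c13 _) _) (c13 _) fun g hg a1 a2 _ => by
        simpa [nbL, nbR, a1, a2] using hg.2.2.2.1 b j i a hj
  have e3 := key _ _ 1 1 (cw_sum univ fun col _ => c13 (.inl col))
    (cw_sum (range N) fun n _ => cw_mono (cw_pi ((H 0).cwΦ n)) (by norm_num)) fun g hg a1 _ _ => by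
      simpa only [nbL, nbR, one_mul, mul_one, a1, cf] using hg.2.2.2.2.1
  have e4 := key _ _ 1 1 (cw_sum univ fun b _ => c13 (.inr (.inl b)))
    (cw_sum (range N) fun n _ => cw_mono (cw_pi ((H 1).cwΦ n)) (by norm_num)) fun g hg a1 _ _ => by
      simpa only [nbL, nbR, one_mul, mul_one, a1, cf] using hg.2.2.2.2.2.1
  have c3 : ∀ cb, (piTri T).Cw 3 fun g => (cf φ N Φ Ψ g).2.2 cb := fun cb => by
    simp only [cf]
    refine cw_sum _ fun i _ => ?_
    split_ifs
    · exact cw_mul (cw_mul (cw_pi ((H 2).cwΦ _)) (cw_pi ((H 0).cwΨ _))) (cw_pi ((H 1).cwΨ _))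
    · exact cw_const 0
  have e5 := key _ _ (Pi.mulSingle 0 h) (Pi.mulSingle 1 h)
    (cw_sum univ fun (cb : Fin 3 × Bool) _ =>
      cw_mul (cw_mul (c3 cb) (hc (.inl cb.1))) (hc (.inr (.inl cb.2))))
    (cw_sum univ fun (b : Bool) _ => cw_sub (cw_left (c13 (.inr (.inr b)))
      (Pi.mulSingle (if b then 1 else 0) h)) (c13 (.inr (.inr b)))) fun g hg a1 a2 a3 => by
      simpa only [nbL, nbR, one_mul, mul_one, a1, a2, a3, Fintype.sum_bool, if_true,
        Bool.false_eq_true, if_false] using hg.2.2.2.2.2.2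
  refine exact H hN (a := fun col y => c (.inl col) (Pi.mulSingle 0 y))
    (b := fun b y => c (.inr (.inl b)) (Pi.mulSingle 1 y)) (s := fun b => c (.inr (.inr b)))
    (fun y => by simpa using e3 (Pi.mulSingle 0 y))
    (fun y => by simpa using e4 (Pi.mulSingle 1 y)) fun g => ?_
  rw [← e5]
  refine sum_congr rfl fun cb _ => ?_
  rw [← e1 _ 2 (by decide) (g 2), ← e1 _ 1 (by decide) (g 1), ← e2 _ 2 (by decide) (g 2),
    ← e2 _ 0 (by decide) (g 0)]
  congr 2
  · congr 1
    ext j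
    fin_cases j <;> simp
  · ext j
    fin_cases j <;> simp

end Vale.Agent.P318.Q
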