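import Vale.Agent.P318.Q.Stmt

/-!
Track Q: the angle between the two root subgroups of a Heisenberg group.
-/

namespace Vale.Agent.P318.Q

open Finset
open scoped BigOperators Classical

namespace SpecLoc

section Plane

variable {F : Type} [Field F] [Fintype F]

theorem two_pt (u v : F → ℝ) {s t : F} (h : s ≠ t) :
    ∑ a, ∑ c, u (a * s + c) * v (a * t + c) = (∑ c, u c) * ∑ c, v c := by
  have hst : s - t ≠ 0 := sub_ne_zero.2 h
  rw [sum_mul_sum, ← Fintype.sum_prod_type', ← Fintype.sum_prod_type']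
  refine Fintype.sum_bijective (fun p : F × F => (p.1 * s + p.2, p.1 * t + p.2)) ?_ _ _
    fun _ => rfl
  refine Finite.injective_iff_bijective.1 fun p p' hp => ?_
  obtain ⟨h1, h2⟩ := Prod.mk.inj hp
  have h3 : p.1 = p'.1 := mul_right_cancel₀ hst (by linear_combination h1 - h2)
  refine Prod.ext h3 ?_
  rw [h3] at h1
  exact add_left_cancel h1

theorem one_pt (u : F → ℝ) (s : F) :
    ∑ a, ∑ c, u (a * s + c) = Fintype.card F * ∑ c, u c := by
  have : ∀ a : F, ∑ c, u (a * s + c) = ∑ c, u c := fun a =>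
    Fintype.sum_equiv (Equiv.addLeft (a * s)) _ _ fun _ => rfl
  simp [this]

theorem line (φ : F → F → ℝ) (h0 : ∑ s, ∑ c, φ s c = 0) :
    ∑ a, ∑ c, (∑ s, φ s (a * s + c)) ^ 2 ≤ Fintype.card F * ∑ s, ∑ c, φ s c ^ 2 := by
  have e1 : ∑ a, ∑ c, (∑ s, φ s (a * s + c)) ^ 2 =
      ∑ s, ∑ t, ∑ a, ∑ c, φ s (a * s + c) * φ t (a * t + c) := by
    simp only [sq, sum_mul_sum]
    calc ∑ a, ∑ c, ∑ s, ∑ t, φ s (a * s + c) * φ t (a * t + c)
        = ∑ a, ∑ s, ∑ c, ∑ t, φ s (a * s + c) * φ t (a * t + c) :=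
          sum_congr rfl fun a _ => sum_comm
      _ = ∑ s, ∑ a, ∑ c, ∑ t, φ s (a * s + c) * φ t (a * t + c) := sum_comm
      _ = ∑ s, ∑ a, ∑ t, ∑ c, φ s (a * s + c) * φ t (a * t + c) :=
          sum_congr rfl fun s _ => sum_congr rfl fun a _ => sum_comm
      _ = _ := sum_congr rfl fun s _ => sum_comm
  have e2 : ∀ s t, ∑ a, ∑ c, φ s (a * s + c) * φ t (a * t + c) ≤
      (∑ c, φ s c) * (∑ c, φ t c) +
        if s = t then (Fintype.card F : ℝ) * ∑ c, φ s c ^ 2 else 0 := by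
    intro s t
    by_cases h : s = t
    · subst h
      rw [if_pos rfl, ← one_pt (fun c => φ s c ^ 2) s]
      simp only [sq]
      nlinarith [mul_self_nonneg (∑ c, φ s c)]
    · rw [if_neg h, two_pt _ _ h, add_zero]
  rw [e1]
  calc _ ≤ ∑ s, ∑ t, ((∑ c, φ s c) * (∑ c, φ t c) +
        if s = t then (Fintype.card F : ℝ) * ∑ c, φ s c ^ 2 else 0) :=
        sum_le_sum fun s _ => sum_le_sum fun t _ => e2 s t
    _ = _ := by
        simp only [sum_add_distrib, sum_ite_eq, mem_univ, if_true]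
        rw [← sum_mul_sum, h0, mul_zero, zero_add, mul_sum]

theorem key (ψ : F × F → ℝ) :
    𝔼 p : F × F, (𝔼 s, ψ (s, p.1 * s + p.2) - 𝔼 p, ψ p) ^ 2 ≤
      1 / (Fintype.card F : ℝ) * 𝔼 p, (ψ p - 𝔼 p, ψ p) ^ 2 := by
  set m := 𝔼 p, ψ p with hm
  have hq : (0 : ℝ) < Fintype.card F := Nat.cast_pos.2 Fintype.card_pos
  have h0 : ∑ s, ∑ c, (ψ (s, c) - m) = 0 := by
    rw [← Fintype.sum_prod_type' fun s c => ψ (s, c) - m, sum_sub_distrib, hm,
      Fintype.expect_eq_sum_div_card]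
    simp only [sum_const, card_univ, nsmul_eq_mul]
    have : (Fintype.card (F × F) : ℝ) ≠ 0 := Nat.cast_ne_zero.2 Fintype.card_ne_zero
    field_simp
    simp
  have h1 := line (fun s c => ψ (s, c) - m) h0
  have h2 : ∀ p : F × F, 𝔼 s, ψ (s, p.1 * s + p.2) - m =
      (∑ s, (ψ (s, p.1 * s + p.2) - m)) / Fintype.card F := by
    intro p
    rw [Fintype.expect_eq_sum_div_card, sum_sub_distrib]
    simp only [sum_const, card_univ, nsmul_eq_mul]
    field_simp
  simp only [h2, div_pow]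
  rw [Fintype.expect_eq_sum_div_card, Fintype.expect_eq_sum_div_card, ← sum_div,
    Fintype.sum_prod_type, Fintype.sum_prod_type, ← mul_div_assoc]
  refine div_le_div_of_nonneg_right ?_ (Nat.cast_nonneg _)
  rw [div_le_iff₀ (by positivity)]
  refine h1.trans (le_of_eq ?_)
  field_simp

theorem red (Φ : F × F → ℝ) (e : F × F × F → (F × F) × F) (he : Function.Injective e) :
    𝔼 p, Φ (e p).1 = 𝔼 p, Φ p := by
  have hb : Function.Bijective e := (Fintype.bijective_iff_injective_and_card e).2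
    ⟨he, by simp [mul_assoc]⟩
  rw [Fintype.expect_bijective e hb _ (fun p => Φ p.1) fun _ => rfl, ← univ_product_univ,
    expect_product]
  simp

end Plane

section Heis

variable {F G : Type} [Field F] [Group G] {T : Tri F G}

theorem x_zero (h : T.OK) (i : Fin 3) : T.x i 0 = 1 := by
  have := h.x_add i 0 0
  rw [add_zero] at this
  exact left_eq_mul.1 this

theorem z_zero (h : T.OK) (i : Fin 3) : T.z i 0 = 1 := by
  have := h.z_add i 0 0
  rw [add_zero] at this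
  exact left_eq_mul.1 this

theorem x_inv (h : T.OK) (i : Fin 3) (a : F) : (T.x i a)⁻¹ = T.x i (-a) :=
  inv_eq_of_mul_eq_one_right (by rw [← h.x_add, add_neg_cancel, x_zero h])

theorem k_x2 (h : T.OK) (i : Fin 3) (p : F × F × F) (b : F) :
    T.k i p * T.x (i + 2) b = T.k i (p.1, p.2.1 + b, p.2.2) := by
  simp only [Tri.k]
  rw [mul_assoc, h.zx2, h.x_add]
  simp only [mul_assoc]

theorem k_x1 (h : T.OK) (i : Fin 3) (p : F × F × F) (a : F) :
    T.k i p * T.x (i + 1) a = T.k i (p.1 + a, p.2.1, p.2.2 - a * p.2.1) := by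
  simp only [Tri.k]
  have e : p.2.2 = a * p.2.1 + (p.2.2 - a * p.2.1) := by ring
  rw [mul_assoc, h.zx1, h.x_add, mul_assoc (T.x (i + 1) p.1) (T.x (i + 1) a), h.comm i a]
  conv_lhs => rw [e, h.z_add]
  simp only [mul_assoc]

theorem k_mem (h : T.OK) (i : Fin 3) (p : F × F × F) : T.k i p ∈ T.K i := by
  have h1 : ∀ a, T.x (i + 1) a ∈ T.K i := fun a => Subgroup.subset_closure (Or.inl ⟨a, rfl⟩)
  have h2 : ∀ a, T.x (i + 2) a ∈ T.K i := fun a => Subgroup.subset_closure (Or.inr ⟨a, rfl⟩)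
  refine mul_mem (mul_mem (h1 _) (h2 _)) ?_
  have e := h.comm i p.2.2 1
  rw [mul_one] at e
  have : T.z i p.2.2 =
      (T.x (i + 2) 1 * T.x (i + 1) p.2.2)⁻¹ * (T.x (i + 1) p.2.2 * T.x (i + 2) 1) := by
    rw [e, inv_mul_cancel_left]
  rw [this]
  exact mul_mem (inv_mem (mul_mem (h2 _) (h1 _))) (mul_mem (h1 _) (h2 _))

theorem k_surj (h : T.OK) (i : Fin 3) {u : G} (hu : u ∈ T.K i) : ∃ p, T.k i p = u := by
  induction hu using Subgroup.closure_induction_right with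
  | one => exact ⟨(0, 0, 0), by simp [Tri.k, x_zero h, z_zero h]⟩
  | mul_right x _ y hy ih =>
    obtain ⟨p, rfl⟩ := ih
    rcases hy with ⟨a, rfl⟩ | ⟨a, rfl⟩
    · exact ⟨_, (k_x1 h i p a).symm⟩
    · exact ⟨_, (k_x2 h i p a).symm⟩
  | mul_inv_cancel x _ y hy ih =>
    obtain ⟨p, rfl⟩ := ih
    rcases hy with ⟨a, rfl⟩ | ⟨a, rfl⟩
    · exact ⟨_, by rw [x_inv h]; exact (k_x1 h i p _).symm⟩
    · exact ⟨_, by rw [x_inv h]; exact (k_x2 h i p _).symm⟩

theorem expect_K [Fintype F] [Fintype G] (h : T.OK) (i : Fin 3) (Φ : G → ℝ) :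
    𝔼 u : T.K i, Φ u = 𝔼 p, Φ (T.k i p) := by
  symm
  refine Fintype.expect_bijective (fun p => (⟨T.k i p, k_mem h i p⟩ : T.K i)) ⟨?_, ?_⟩ _ _
    fun _ => rfl
  · exact fun p p' e => h.inj i (congrArg Subtype.val e)
  · intro u
    obtain ⟨p, hp⟩ := k_surj h i u.2
    exact ⟨p, Subtype.ext hp⟩

end Heis

end SpecLoc

open SpecLoc in
theorem specLoc_proof : SpecLocStmt := by
  intro F G _ _ _ _ T h i f g
  have hK : T.PK i f g = 𝔼 p, f (g * T.k i p) := expect_K h i fun u => f (g * u)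
  rw [expect_K h i fun u => (T.PX (i + 2) f (g * u) - T.PK i f g) ^ 2,
    expect_K h i fun u => (T.PX (i + 1) f (g * u) - T.PK i f g) ^ 2,
    expect_K h i fun u => (f (g * u) - T.PK i f g) ^ 2]
  constructor
  · intro hf
    set ψ : F × F → ℝ := fun p => f (g * T.k i (0, p.1, p.2)) with hψ
    have h1 : ∀ p : F × F × F, f (g * T.k i p) = ψ (p.2.1, p.1 * p.2.1 + p.2.2) := by
      intro p
      simp only [hψ]
      rw [← hf (g * T.k i (0, _, _)) p.1, mul_assoc, k_x1 h]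
      simp
    have i1 : Function.Injective
        fun p : F × F × F => (((p.2.1, p.1 * p.2.1 + p.2.2), p.1) : (F × F) × F) := by
      rintro ⟨a, b, c⟩ ⟨a', b', c'⟩ e
      simp only [Prod.mk.injEq] at e
      obtain ⟨⟨rfl, e⟩, rfl⟩ := e
      rw [add_left_cancel e]
    have i2 : Function.Injective fun p : F × F × F => (((p.1, p.2.2), p.2.1) : (F × F) × F) := by
      rintro ⟨a, b, c⟩ ⟨a', b', c'⟩ e
      simp only [Prod.mk.injEq] at e
      obtain ⟨⟨rfl, rfl⟩, rfl⟩ := e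
      rfl
    have hm : T.PK i f g = 𝔼 p, ψ p := by
      rw [hK, ← red ψ _ i1]
      simp only [h1]
    have h2 : ∀ p : F × F × F,
        T.PX (i + 2) f (g * T.k i p) = 𝔼 s, ψ (s, p.1 * s + p.2.2) := by
      intro p
      simp only [Tri.PX, mul_assoc, k_x2 h, h1]
      exact Fintype.expect_equiv (Equiv.addLeft p.2.1) _ _ fun _ => rfl
    simp only [h1, h2, hm]
    rw [red (fun p => (ψ p - 𝔼 p, ψ p) ^ 2) _ i1,
      red (fun p => (𝔼 s, ψ (s, p.1 * s + p.2) - 𝔼 p, ψ p) ^ 2) _ i2]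
    exact key ψ
  · intro hf
    set ψ : F × F → ℝ := fun p => f (g * T.k i (p.1, 0, p.2)) with hψ
    have h1 : ∀ p : F × F × F, f (g * T.k i p) = ψ (p.1, p.2.2) := by
      intro p
      simp only [hψ]
      rw [← hf (g * T.k i (_, 0, _)) p.2.1, mul_assoc, k_x2 h]
      simp
    have i1 : Function.Injective fun p : F × F × F => (((p.1, p.2.2), p.2.1) : (F × F) × F) := by
      rintro ⟨a, b, c⟩ ⟨a', b', c'⟩ e
      simp only [Prod.mk.injEq] at e
      obtain ⟨⟨rfl, rfl⟩, rfl⟩ := e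
      rfl
    have i2 : Function.Injective
        fun p : F × F × F => (((-p.2.1, p.1 * p.2.1 + p.2.2), p.1) : (F × F) × F) := by
      rintro ⟨a, b, c⟩ ⟨a', b', c'⟩ e
      simp only [Prod.mk.injEq, neg_inj] at e
      obtain ⟨⟨rfl, e⟩, rfl⟩ := e
      rw [add_left_cancel e]
    have hm : T.PK i f g = 𝔼 p, ψ p := by
      rw [hK, ← red ψ _ i1]
      simp only [h1]
    have h2 : ∀ p : F × F × F, T.PX (i + 1) f (g * T.k i p) =
        𝔼 s, ψ (s, -p.2.1 * s + (p.1 * p.2.1 + p.2.2)) := by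
      intro p
      simp only [Tri.PX, mul_assoc, k_x1 h, h1]
      refine Fintype.expect_equiv (Equiv.addLeft p.1) _ _ fun a => ?_
      simp only [Equiv.coe_addLeft]
      congr 2
      ring
    simp only [h1, h2, hm]
    rw [red (fun p => (ψ p - 𝔼 p, ψ p) ^ 2) _ i1,
      red (fun p => (𝔼 s, ψ (s, p.1 * s + p.2) - 𝔼 p, ψ p) ^ 2) _ i2]
    exact key ψ

end Vale.Agent.P318.Q
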