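import Vale.Agent.P318.Q.Stmt

/-!
Theta functions are codewords of level one.
-/

namespace Vale.Agent.P318.Q

open Finset
open scoped Classical

namespace Th1

/-- Simultaneous column operations do not change the determinant. -/
theorem det_colops {I K : Type} [Fintype I] [DecidableEq I] [Field K] (M : Matrix I I K)
    (S : Finset I) (σ : I → I) (hσ : ∀ v ∈ S, σ v ∉ S) (c : K) :
    ∀ s : Finset I, s ⊆ S →
      Matrix.det (Matrix.of fun u v => M u v + if v ∈ s then c * M u (σ v) else 0) = M.det := by
  intro s
  induction s using Finset.induction_on with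
  | empty =>
    intro _
    congr 1
    ext u v
    simp
  | insert w s hw ih =>
    intro hs
    have hwS : w ∈ S := hs (mem_insert_self _ _)
    have hsS : s ⊆ S := fun v hv => hs (mem_insert_of_mem hv)
    have hne : w ≠ σ w := fun h => hσ w hwS (h ▸ hwS)
    have hσs : σ w ∉ s := fun h => hσ w hwS (hsS h)
    rw [← ih hsS, ← Matrix.det_updateCol_add_smul_self
      (Matrix.of fun u v => M u v + if v ∈ s then c * M u (σ v) else 0) hne c]
    congr 1
    ext u v
    by_cases hv : v = w
    · subst hv
      simp [hw, hσs]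
    · simp [hv]

theorem det_eq_of_colops {I K : Type} [Fintype I] [DecidableEq I] [Field K]
    (M M' : Matrix I I K) (p : I → Prop) (σ : I → I) (hσ : ∀ v, p v → ¬ p (σ v)) (c : K)
    (h₁ : ∀ u v, p v → M' u v = M u v + c * M u (σ v)) (h₂ : ∀ u v, ¬ p v → M' u v = M u v) :
    M'.det = M.det := by
  rw [← det_colops M (univ.filter p) σ (by simpa using hσ) c _ (Subset.refl _)]
  congr 1
  ext u v
  by_cases hv : p v
  · simp [hv, h₁ u v hv]
  · simp [hv, h₂ u v hv]

variable {F K : Type} [Field F] [Fintype F] [Field K] [Algebra F K]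

theorem frob_add (x y : K) (a : F) (k : ℕ) :
    (x + algebraMap F K a * y) ^ Fintype.card F ^ k =
      x ^ Fintype.card F ^ k + algebraMap F K a * y ^ Fintype.card F ^ k := by
  induction k with
  | zero => simp
  | succ k ih =>
    rw [pow_succ, pow_mul, pow_mul, pow_mul, ih]
    have h := FiniteField.coe_frobeniusAlgHom F K
    have e : ∀ z : K, z ^ Fintype.card F = FiniteField.frobeniusAlgHom F K z := fun z => by
      rw [h]
    rw [e, e, e, map_add, map_mul, AlgHom.commutes]

theorem mul_tv (g : SL3 K) {i j : Fin 3} (hij : i ≠ j) (r : K) (u v : Fin 3) :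
    (g * Matrix.SpecialLinearGroup.transvection hij r).1 u v =
      g.1 u v + if v = j then r * g.1 u i else 0 := by
  have h : (g * Matrix.SpecialLinearGroup.transvection hij r).1 =
      g.1 * Matrix.transvection i j r := rfl
  rw [h]
  by_cases hv : v = j
  · subst hv
    simp [Matrix.mul_transvection_apply_same]
  · rw [if_neg hv, add_zero]
    exact Matrix.mul_transvection_apply_of_ne _ _ _ _ hv _ _

theorem th_inv (t : K) (m n : ℕ) (fl : Bool) (g : SL3 K) {i j : Fin 3} (hij : i ≠ j) (a : F) :
    th (Fintype.card F) t m n fl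
        (g * Matrix.SpecialLinearGroup.transvection hij (algebraMap F K a)).1 =
      th (Fintype.card F) t m n fl g.1 := by
  unfold th
  refine det_eq_of_colops _ _ (fun v => v.1 = j) (fun v => (i, v.2)) (fun _ _ => hij)
    (algebraMap F K a) ?_ ?_
  · intro u v hv
    simp only [thMat, mul_tv, if_pos hv]
    rw [← frob_add]
    congr 1
    ring
  · intro u v hv
    simp only [thMat, mul_tv, if_neg hv, add_zero]

theorem th_aff (t : K) (m n : ℕ) (hm : 1 ≤ m) (fl : Bool) (g : SL3 K) {i j : Fin 3}
    (hij : i ≠ j) : ∃ B : K, ∀ a : F,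
    th (Fintype.card F) t m n fl
        (g * Matrix.SpecialLinearGroup.transvection hij (algebraMap F K a * t)).1 =
      th (Fintype.card F) t m n fl g.1 + algebraMap F K a * B := by
  let w : Fin 3 × Fin m := (j, ⟨m - 1, by omega⟩)
  let M := thMat (Fintype.card F) t m n fl g.1
  let y : Fin 3 × Fin m → K := fun u =>
    (t ^ m * g.1 u.1 i) ^ Fintype.card F ^ rowExp n fl u.1 u.2
  refine ⟨(M.updateCol w y).det, fun a => ?_⟩
  have h1 : (M.updateCol w ((fun u => M u w) + algebraMap F K a • y)).det =
      M.det + algebraMap F K a * (M.updateCol w y).det := by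
    rw [Matrix.det_updateCol_add, Matrix.det_updateCol_smul, Matrix.updateCol_eq_self]
  unfold th
  rw [← h1]
  refine det_eq_of_colops _ _ (fun v => v.1 = j ∧ (v.2 : ℕ) + 1 < m)
    (fun v => (i, if h : (v.2 : ℕ) + 1 < m then ⟨v.2 + 1, h⟩ else v.2))
    (fun _ _ h => hij h.1) (algebraMap F K a) ?_ ?_
  · intro u v hv
    have hvw : v ≠ w := by
      intro h
      have h2 := hv.2
      rw [h] at h2
      simp only [w] at h2
      omega
    have hiw : ((i, if h : (v.2 : ℕ) + 1 < m then ⟨v.2 + 1, h⟩ else v.2) : Fin 3 × Fin m) ≠ w :=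
      fun h => hij (congrArg Prod.fst h)
    rw [Matrix.updateCol_ne hvw, Matrix.updateCol_ne hiw]
    simp only [M, thMat, mul_tv, if_pos hv.1, dif_pos hv.2]
    rw [← frob_add]
    congr 1
    ring
  · intro u v hv
    by_cases hvw : v = w
    · rw [hvw, Matrix.updateCol_self]
      simp only [M, y, w, thMat, mul_tv, if_true, Pi.add_apply, Pi.smul_apply, smul_eq_mul]
      rw [← frob_add]
      congr 1
      have e : t ^ m = t ^ (m - 1) * t := by
        rw [← pow_succ]
        congr 1
        omega
      rw [e]
      ring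
    · have hj : v.1 ≠ j := by
        intro h
        apply hvw
        refine Prod.ext h (Fin.ext ?_)
        have h2 := v.2.2
        have h3 : ¬ (v.2 : ℕ) + 1 < m := fun h' => hv ⟨h, h'⟩
        simp only [w]
        omega
      rw [Matrix.updateCol_ne hvw]
      simp only [M, thMat, mul_tv, if_neg hj, add_zero]

theorem cw (t c : K) (m n : ℕ) (hm : 1 ≤ m) (fl : Bool) :
    (slTri F t).Cw 1 fun g => Algebra.trace F K (c * th (Fintype.card F) t m n fl g.1) := by
  refine ⟨fun g a => ?_, fun g a => ?_, fun g => ?_⟩
  · have h := th_inv t m n fl g (fin3_ne_add_two 1) a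
    simp only [slTri, show (1 : Fin 3) ≠ 0 by decide, if_false, mul_one]
    rw [h]
  · have h := th_inv t m n fl g (fin3_ne_add_two 2) a
    simp only [slTri, show (2 : Fin 3) ≠ 0 by decide, if_false, mul_one]
    rw [h]
  · obtain ⟨B, hB⟩ := th_aff (F := F) t m n hm fl g (fin3_ne_add_two 0)
    refine ⟨Polynomial.C (Algebra.trace F K (c * B)) * Polynomial.X +
      Polynomial.C (Algebra.trace F K (c * th (Fintype.card F) t m n fl g.1)),
      Polynomial.natDegree_linear_le, fun a => ?_⟩
    simp only [slTri, if_true]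
    rw [hB a]
    have e : c * (th (Fintype.card F) t m n fl g.1 + algebraMap F K a * B) =
        a • (c * B) + c * th (Fintype.card F) t m n fl g.1 := by
      rw [Algebra.smul_def]
      ring
    rw [e, map_add, map_smul, Polynomial.eval_add, Polynomial.eval_mul, Polynomial.eval_C,
      Polynomial.eval_C, Polynomial.eval_X, smul_eq_mul, mul_comm a]

end Th1

theorem th1_proof : Th1Stmt := by
  intro F K _ _ _ _ t m n hm
  refine ⟨?_, Th1.cw t _ m n hm true⟩
  have h := Th1.cw (F := F) t 1 m n hm false
  simp only [one_mul] at h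
  exact h

end Vale.Agent.P318.Q
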