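import Mathlib.LinearAlgebra.Vandermonde
import Vale.Agent.P318.Q.Stmt

/-!
Track Q: theta functions are biorthogonal on the orbits of the torus.
-/

namespace Vale.Agent.P318.Q

open Finset

namespace Th2

section Digits

variable {q : ℤ} {d : ℕ → ℤ}

theorem bound (hq : 5 ≤ q) (hd : ∀ y, |d y| ≤ 2) :
    ∀ R : ℕ, 2 * |∑ y ∈ range R, d y * q ^ y| ≤ q ^ R - 1
  | 0 => by simp
  | R + 1 => by
    have h1 := bound hq hd R
    have h2 : 0 < q ^ R := pow_pos (by omega) _
    have h3 : |d R * q ^ R| ≤ 2 * q ^ R := by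
      rw [abs_mul, abs_of_pos h2]
      exact mul_le_mul_of_nonneg_right (hd R) h2.le
    have h4 := abs_add_le (∑ y ∈ range R, d y * q ^ y) (d R * q ^ R)
    rw [sum_range_succ, pow_succ]
    nlinarith

theorem digits (hq : 5 ≤ q) (hd : ∀ y, |d y| ≤ 2) :
    ∀ R : ℕ, ∑ y ∈ range R, d y * q ^ y = 0 → ∀ y < R, d y = 0
  | 0 => by simp
  | R + 1 => fun h y hy => by
    have h1 := bound hq hd R
    have h2 : 0 < q ^ R := pow_pos (by omega) _
    rw [sum_range_succ] at h
    have h3 : ∑ y ∈ range R, d y * q ^ y = 0 :=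
      Int.eq_zero_of_abs_lt_dvd (m := q ^ R) ⟨-d R, by linarith⟩ (by
        linarith [abs_nonneg (∑ y ∈ range R, d y * q ^ y)])
    rcases Nat.lt_succ_iff_lt_or_eq.1 hy with h4 | rfl
    · exact digits hq hd R h3 y h4
    · rw [h3, zero_add] at h
      exact (mul_eq_zero.1 h).resolve_right h2.ne'

theorem digits_dvd (hq : 5 ≤ q) (hd : ∀ y, |d y| ≤ 2) {R : ℕ}
    (h : q ^ R - 1 ∣ ∑ y ∈ range R, d y * q ^ y) : ∀ y < R, d y = 0 := fun y hy => by
  have h1 := bound hq hd R
  have h2 : 1 < q ^ R := one_lt_pow₀ (by omega) (by omega)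
  exact digits hq hd R (Int.eq_zero_of_abs_lt_dvd h (by
    linarith [abs_nonneg (∑ y ∈ range R, d y * q ^ y)])) y hy

/-- The sign pattern of `n`. -/
def sg (m n x : ℕ) : ℤ :=
  if x < 2 * m then if x % 2 = (n.testBit (x / 2)).toNat then 1 else -1 else 0

/-- The weight of a theta function. -/
def wt (q : ℤ) (m n : ℕ) (fl : Bool) : ℤ :=
  ∑ r ∈ range m, q ^ rowExp n fl 0 r - ∑ r ∈ range m, q ^ rowExp n fl 1 r

theorem wt_true (m n : ℕ) : wt q m n true = -wt q m n false := by
  simp [wt, rowExp]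

theorem abs_sg (m n x : ℕ) : |sg m n x| ≤ 1 := by
  unfold sg
  split_ifs <;> simp

theorem sg_eq_zero {m n x : ℕ} : sg m n x = 0 ↔ 2 * m ≤ x := by
  unfold sg
  split_ifs <;> simp <;> omega

theorem wt_eq {m R : ℕ} (n : ℕ) (h : 2 * m ≤ R) :
    wt q m n false = ∑ x ∈ range R, sg m n x * q ^ x := by
  have h1 : ∀ l ≤ m, wt q l n false = ∑ x ∈ range (2 * l), sg m n x * q ^ x := fun l hl => by
    induction l with
    | zero => simp [wt]
    | succ l ih =>
      rw [mul_add, mul_one, sum_range_succ, sum_range_succ, ← ih (by omega), sg, sg,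
        if_pos (by omega), if_pos (show 2 * l + 1 < 2 * m by omega),
        show 2 * l / 2 = l by omega, show (2 * l + 1) / 2 = l by omega,
        show 2 * l % 2 = 0 by omega, show (2 * l + 1) % 2 = 1 by omega]
      simp only [wt, sum_range_succ, rowExp]
      cases n.testBit l <;> simp <;> ring
  rw [h1 m le_rfl]
  exact sum_subset (range_subset_range.2 h) fun x _ hx => by
    rw [sg_eq_zero.2 (by simpa using hx), zero_mul]

theorem key (hq : 5 ≤ q) {m R j n n' : ℕ} (hm : 1 ≤ m) (hR : 2 * m < R) (hj : j < R)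
    (hn : n < 2 ^ m) (hn' : n' < 2 ^ m)
    (h : q ^ R - 1 ∣ q ^ j * wt q m n' false - wt q m n false) : j = 0 ∧ n = n' := by
  obtain ⟨i, rfl⟩ := Nat.exists_eq_add_of_le hj.le
  let d : ℕ → ℤ := fun y => (if y < j then sg m n' (i + y) else sg m n' (y - j)) - sg m n y
  have h1 : ∀ y, |d y| ≤ 2 := fun y => (abs_sub _ _).trans (by
    have := abs_sg m n y
    split_ifs
    · linarith [abs_sg m n' (i + y)]
    · linarith [abs_sg m n' (y - j)])
  have h2 : ∑ y ∈ range (j + i), d y * q ^ y = q ^ j * wt q m n' false - wt q m n false -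
      (q ^ (j + i) - 1) * ∑ x ∈ range j, sg m n' (i + x) * q ^ x := by
    rw [wt_eq n hR.le, wt_eq n' (hR.le.trans_eq (add_comm j i)), sum_range_add _ i j]
    simp only [d, sub_mul, sum_sub_distrib]
    rw [sum_range_add _ j i, sum_congr rfl fun x hx => by rw [if_pos (mem_range.1 hx)],
      sum_congr (s₁ := range i) rfl fun x _ => by
        rw [if_neg (Nat.not_lt.2 (Nat.le_add_right j x)), Nat.add_sub_cancel_left]]
    simp only [mul_add, mul_sum, pow_add]
    rw [sum_congr (s₁ := range i) rfl fun x _ => mul_left_comm _ (q ^ j) _,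
      sum_congr (s₁ := range j) (g := fun x => q ^ j * q ^ i * (sg m n' (i + x) * q ^ x))
        (f := fun x => q ^ j * (sg m n' (i + x) * (q ^ i * q ^ x))) rfl fun x _ => by ring]
    simp only [one_mul]
    ring
  have h3 := digits_dvd hq h1 (h2 ▸ dvd_sub h (dvd_mul_right _ _))
  have h4 : j = 0 := by
    by_contra h4
    have h5 := h3 j hj
    have h6 := h3 (j - 1) (by omega)
    simp only [d, lt_irrefl, if_false, Nat.sub_self, sub_eq_zero] at h5
    simp only [d, if_pos (show j - 1 < j by omega), sub_eq_zero] at h6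
    have h7 := sg_eq_zero.1 (h6.symm.trans (sg_eq_zero.2 (by omega)))
    have h8 := sg_eq_zero.1 (h5.trans (sg_eq_zero.2 (by omega)))
    omega
  refine ⟨h4, Nat.eq_of_testBit_eq fun r => ?_⟩
  by_cases hr : r < m
  · have h5 := h3 (2 * r) (by omega)
    simp only [d, h4, Nat.not_lt_zero, if_false, Nat.sub_zero, sub_eq_zero, sg,
      if_pos (show 2 * r < 2 * m by omega), show 2 * r / 2 = r by omega,
      show 2 * r % 2 = 0 by omega] at h5
    revert h5
    cases n.testBit r <;> cases n'.testBit r <;> simp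
  · have h5 := Nat.pow_le_pow_right (n := 2) (by omega) (Nat.not_lt.1 hr)
    rw [Nat.testBit_lt_two_pow (hn.trans_le h5), Nat.testBit_lt_two_pow (hn'.trans_le h5)]

theorem key' (hq : 5 ≤ q) {m R k k' n n' : ℕ} (hm : 1 ≤ m) (hR : 2 * m < R) (hk : k < R)
    (hk' : k' < R) (hn : n < 2 ^ m) (hn' : n' < 2 ^ m)
    (h : q ^ R - 1 ∣ q ^ k' * wt q m n' false - q ^ k * wt q m n false) : k = k' ∧ n = n' := by
  wlog hle : k ≤ k' generalizing k k' n n'
  · exact (this hk' hk hn' hn (dvd_sub_comm.1 h) (by omega)).imp Eq.symm Eq.symm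
  obtain ⟨j, rfl⟩ := Nat.exists_eq_add_of_le hle
  obtain ⟨i, rfl⟩ := Nat.exists_eq_add_of_le hk.le
  obtain ⟨rfl, h1⟩ := key hq hm hR (j := j) (by omega) hn hn' (by
    refine (dvd_sub (h.mul_left (q ^ i))
      (dvd_mul_right _ (q ^ j * wt q m n' false - wt q m n false))).trans (dvd_of_eq ?_)
    ring)
  exact ⟨rfl, h1⟩

end Digits

variable {K : Type} [Field K]

theorem torus_pow (γ : K) (hγ : γ ≠ 0) (e : ℕ) :
    (torus γ hγ ^ e).1 = Matrix.diagonal ![γ ^ e, (γ ^ e)⁻¹, 1] := by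
  rw [Matrix.SpecialLinearGroup.coe_pow, torus, Matrix.SpecialLinearGroup.diag2n_coe,
    Matrix.diagonal_pow]
  congr 1
  funext i
  fin_cases i <;> simp

theorem th_diag (q : ℕ) (t : K) (m n : ℕ) (fl : Bool) {y : K} (hy : y ≠ 0)
    (g : Matrix (Fin 3) (Fin 3) K) :
    th q t m n fl (Matrix.diagonal ![y, y⁻¹, 1] * g) = y ^ wt q m n fl * th q t m n fl g := by
  have h1 : thMat q t m n fl (Matrix.diagonal ![y, y⁻¹, 1] * g) = Matrix.of fun u v =>
      (![y, y⁻¹, 1] u.1) ^ q ^ rowExp n fl u.1 u.2 * thMat q t m n fl g u v := by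
    ext u v
    simp only [thMat, Matrix.diagonal_mul, Matrix.of_apply, ← mul_pow, mul_left_comm]
  rw [th, h1, Matrix.det_mul_column, th, Fintype.prod_prod_type, Fin.prod_univ_three, wt,
    zpow_sub₀ hy, sum_range, sum_range]
  simp only [Matrix.cons_val_zero, Matrix.cons_val_one, Matrix.cons_val, one_pow, prod_const_one,
    mul_one, prod_pow_eq_pow_sum, inv_pow, prod_inv_distrib, div_eq_mul_inv, ← Nat.cast_pow,
    ← Nat.cast_sum, zpow_natCast]

theorem th_one_ne {F : Type} [Field F] [Fintype F] {R : ℕ} {t : K} (ht : ConjInj F R t) {m : ℕ}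
    (hR : 2 * m < R) (n : ℕ) (fl : Bool) : th (Fintype.card F) t m n fl 1 ≠ 0 := by
  have h1 : (thMat (Fintype.card F) t m n fl 1).submatrix (Equiv.prodComm _ _)
      (Equiv.prodComm _ _) = Matrix.blockDiagonal fun i : Fin 3 =>
        Matrix.vandermonde fun r : Fin m => t ^ Fintype.card F ^ rowExp n fl i r := by
    ext ⟨r, i⟩ ⟨s, j⟩
    show (t ^ (s : ℕ) * (1 : Matrix (Fin 3) (Fin 3) K) i j) ^ Fintype.card F ^ rowExp n fl i r = _
    by_cases h : i = j
    · subst h
      simp [Matrix.blockDiagonal_apply, ← pow_mul, mul_comm]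
    · simp [Matrix.blockDiagonal_apply, h]
  have h2 : ∀ i (r : Fin m), rowExp n fl i r < R := fun i r => by
    have := r.2
    have := Bool.toNat_le (n.testBit r ^^ fl)
    have := Bool.toNat_le (!(n.testBit r ^^ fl))
    unfold rowExp
    split_ifs <;> omega
  rw [th, ← Matrix.det_submatrix_equiv_self (Equiv.prodComm _ _), h1, Matrix.det_blockDiagonal]
  refine prod_ne_zero_iff.2 fun i _ => Matrix.det_vandermonde_ne_zero_iff.2 fun r s e => ?_
  have h3 := ht _ (h2 i r) _ (h2 i s) e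
  have := Bool.toNat_le (n.testBit r ^^ fl)
  have := Bool.toNat_le (!(n.testBit r ^^ fl))
  have := Bool.toNat_le (n.testBit s ^^ fl)
  have := Bool.toNat_le (!(n.testBit s ^^ fl))
  unfold rowExp at h3
  ext
  split_ifs at h3 <;> omega

theorem geom {γ : K} (hγ : γ ≠ 0) (w : ℤ) :
    ∑ e ∈ range (orderOf γ), (γ ^ w) ^ e = if (orderOf γ : ℤ) ∣ w then (orderOf γ : K) else 0 := by
  have h1 : (orderOf γ : ℤ) ∣ w ↔ γ ^ w = 1 := by
    rw [← Units.val_mk0 hγ, orderOf_units, orderOf_dvd_iff_zpow_eq_one,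
      ← Units.val_zpow_eq_zpow_val, Units.val_eq_one]
  split_ifs with h
  · simp [h1.1 h]
  · rw [geom_sum_eq (mt h1.2 h), ← zpow_natCast, ← zpow_mul, mul_comm, zpow_mul, zpow_natCast,
      pow_orderOf_eq_one, one_zpow, sub_self, zero_div]

theorem orbit {F : Type} [Field F] [Fintype F] [Fintype K] [Algebra F K] {R : ℕ} (t : K) {γ : K}
    (hγ : γ ≠ 0) {m : ℕ} (hr : Module.finrank F K = R) (hm : 1 ≤ m) (hR : 2 * m < R)
    (hq : 5 ≤ Fintype.card F) (ho : orderOf γ = Fintype.card F ^ R - 1) {n n' : ℕ}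
    (hn : n < 2 ^ m) (hn' : n' < 2 ^ m) (g : SL3 K) :
    algebraMap F K (∑ e ∈ range (orderOf γ),
      thΨ F t m n (torus γ hγ ^ e * g) * thΦ F t m n' (torus γ hγ ^ e * g)) =
    if n = n' then ∑ k ∈ range R, ((th (Fintype.card F) t m n false 1 *
      th (Fintype.card F) t m n true 1)⁻¹ * th (Fintype.card F) t m n true g.1 *
        th (Fintype.card F) t m n false g.1) ^ Fintype.card F ^ k * orderOf γ else 0 := by
  set q := Fintype.card F with hq'
  set c := (th q t m n false 1 * th q t m n true 1)⁻¹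
  have h1 : ∀ k ∈ range R, ∀ k' ∈ range R, ∑ e ∈ range (orderOf γ),
      (c * ((γ ^ e) ^ wt q m n true * th q t m n true g.1)) ^ q ^ k *
        ((γ ^ e) ^ wt q m n' false * th q t m n' false g.1) ^ q ^ k' =
      if k = k' ∧ n = n' then (c * th q t m n true g.1 * th q t m n false g.1) ^ q ^ k * orderOf γ
        else 0 := fun k hk k' hk' => by
    have h2 : ∀ e : ℕ, (c * ((γ ^ e) ^ wt q m n true * th q t m n true g.1)) ^ q ^ k *
        ((γ ^ e) ^ wt q m n' false * th q t m n' false g.1) ^ q ^ k' =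
        (c * th q t m n true g.1) ^ q ^ k * th q t m n' false g.1 ^ q ^ k' *
          (γ ^ ((q : ℤ) ^ k' * wt q m n' false - (q : ℤ) ^ k * wt q m n false)) ^ e := fun e => by
      have h3 : ((γ ^ e) ^ wt q m n true) ^ q ^ k * ((γ ^ e) ^ wt q m n' false) ^ q ^ k' =
          (γ ^ ((q : ℤ) ^ k' * wt q m n' false - (q : ℤ) ^ k * wt q m n false)) ^ e := by
        simp only [← zpow_natCast, ← zpow_mul, ← zpow_add₀ hγ, wt_true]
        congr 1
        push_cast
        ring
      rw [← h3]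
      simp only [mul_pow]
      ring
    simp only [h2, ← mul_sum, geom hγ]
    split_ifs with h3 h4 h4
    · rw [h4.1, h4.2, ← mul_pow]
    · rw [ho, Nat.cast_sub (Nat.one_le_pow _ _ (by omega))] at h3
      exact absurd (key' (q := q) (by exact_mod_cast hq) hm hR (mem_range.1 hk) (mem_range.1 hk')
        hn hn' (by simpa using h3)) h4
    · exact absurd (by simp [h4.1, h4.2]) h3
    · exact mul_zero _
  have h2 : ∀ n fl (e : ℕ), th q t m n fl (torus γ hγ ^ e * g).1 =
      (γ ^ e) ^ wt q m n fl * th q t m n fl g.1 := fun n fl e => by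
    rw [← th_diag _ _ _ _ _ (pow_ne_zero _ hγ), ← torus_pow γ hγ]
    rfl
  rw [map_sum, sum_congr rfl fun e _ => by
    rw [map_mul, thΨ, thΦ, FiniteField.algebraMap_trace_eq_sum_pow,
      FiniteField.algebraMap_trace_eq_sum_pow, hr, Nat.card_eq_fintype_card, ← hq', h2, h2,
      sum_mul_sum], sum_comm, sum_congr rfl fun k hk => sum_comm.trans (sum_congr rfl (h1 k hk))]
  split_ifs with h
  · exact sum_congr rfl fun k hk => by simp [h, mem_range.1 hk]
  · simp [h]

end Th2

open Th2 in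
theorem th2_proof (h : Th1Stmt) : Th2Stmt := by
  intro F K _ _ _ _ _ _ R t γ hγ m hr hodd ht hm hR hq ho
  have h1 : ((Fintype.card F ^ R - 1 : ℕ) : F) = 1 := by
    rw [Nat.cast_sub (Nat.one_le_pow _ _ (by omega)), Nat.cast_pow, FiniteField.cast_card_eq_zero,
      zero_pow (by omega), Nat.cast_one, zero_sub, CharTwo.neg_eq]
  have h2 : (R : F) = 1 := by
    obtain ⟨l, rfl⟩ := hodd
    simp [CharTwo.two_eq_zero]
  refine ⟨fun n => (h F K t m n hm).1, fun n => (h F K t m n hm).2, Subtype.ext ?_,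
    h1 ▸ one_ne_zero, fun n hn n' hn' hne g => (algebraMap F K).injective ?_,
    fun n hn => (algebraMap F K).injective ?_⟩
  · rw [torus_pow, ← ho, pow_orderOf_eq_one, inv_one]
    ext i j
    fin_cases i <;> fin_cases j <;> simp
  · rw [← ho, orbit t hγ hr hm hR hq ho hn hn', if_neg hne, map_zero]
  · have h3 := orbit t hγ hr hm hR hq ho hn hn 1
    rw [if_pos rfl, sum_congr rfl fun e _ => by rw [mul_one]] at h3
    rw [← ho, h3, show (1 : SL3 K).1 = 1 from rfl, mul_assoc, mul_comm (th _ _ _ _ true _),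
      inv_mul_cancel₀ (mul_ne_zero (th_one_ne ht hR _ _) (th_one_ne ht hR _ _)), ho,
      ← map_natCast (algebraMap F K), h1]
    simp [← map_natCast (algebraMap F K), h2]

end Vale.Agent.P318.Q
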