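import Vale.Agent.P318.Q.Stmt

/-!
Track Q: the coefficients of the constraints are computable in polynomial time.
-/

namespace Vale.Agent.P318.Q

open Vale.Agent.Lib.PolyTime Vale.Agent.Lib.PCP Finset
open scoped BigOperators Classical

namespace ThPT

variable {F : Type} [Field F] [Fintype F] [Enc F] {ω : F} {α β : Type} [Enc α] [Enc β]

omit [Field F] [Enc F] in
theorem pr_comp {R : β → ℕ} (h : PR F R) {f : α → β} (hf : PT ∅ f) : PR F fun a => R (f a) :=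
  ⟨h.1.comp hf, h.2.1.comp hf, h.2.2.comp hf⟩

theorem mem_idx3 {m : ℕ} {v : Fin 3 × ℕ} (h : v ∈ idx3 m) : v.2 < m := by
  simp only [idx3, List.mem_flatMap, List.mem_map, List.mem_range] at h
  obtain ⟨i, -, r, hr, rfl⟩ := h
  exact hr

theorem rowExp_le (n : ℕ) (fl : Bool) (i : Fin 3) (r : ℕ) : rowExp n fl i r ≤ 2 * r + 1 := by
  unfold rowExp
  have h1 := Bool.toNat_le (Bool.xor (n.testBit r) fl)
  have h2 := Bool.toNat_le (!Bool.xor (n.testBit r) fl)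
  split_ifs <;> omega

theorem pt_idx3 {m : α → ℕ} (hm : PT ∅ m) (hb : PBd m) : PT ∅ fun a => idx3 (m a) :=
  PT.flatMapConst _ fun i _ => PT.map (PT.range hm hb) ((PT.const i).pair PT.snd')

theorem pt_toNat {b : α → Bool} (h : PT ∅ b) : PT ∅ fun a => (b a).toNat :=
  (h.cond (PT.const 1) (PT.const 0)).congr fun a => by cases b a <;> rfl

theorem pt_rowExp {n r : α → ℕ} {i : α → Fin 3} (fl : Bool) (hn : PT ∅ n) (hi : PT ∅ i)
    (hr : PT ∅ r) : PT ∅ fun a => rowExp (n a) fl (i a) (r a) := by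
  have h1 : PT ∅ fun a => Bool.xor ((n a).testBit (r a)) fl := (hn.testBit hr).xor (PT.const _)
  exact PT.ite (hi.eqConst 0) (hr.double.add (pt_toNat h1))
    (PT.ite (hi.eqConst 1) (hr.double.add (pt_toNat h1.not)) hr)

theorem pt_thc (hK : KPT ω) {R m n : α → ℕ} {x : α → MC F} (c : F) (fl : Bool) (hR : PR F R)
    (hm : PT ∅ m) (hb : PBd m) (hb2 : PBd fun a => 2 ^ (3 * m a)) (hn : PT ∅ n) (hx : PT ∅ x) :
    PT ∅ fun a => thc ω (R a) c (m a) (n a) fl (x a) := by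
  have p1 : PT ∅ fun p : ((α × ℕ) × (Fin 3 × ℕ)) × (Fin 3 × ℕ) => p.1.1.1 := PT.fst'.fst.fst
  have p2 : PT ∅ fun p : (α × ℕ) × (Fin 3 × ℕ) => p.1.1 := PT.fst'.fst
  have h1 : PT ∅ fun p : ((α × ℕ) × (Fin 3 × ℕ)) × (Fin 3 × ℕ) =>
      kfrob ω (R p.1.1.1) (kmul ω (kpow ω (R p.1.1.1) (ktau (R p.1.1.1) c) (min p.2.2 (m p.1.1.1)))
        (x p.1.1.1 p.1.2.1 p.2.1))
        (min (rowExp (n p.1.1.1) fl p.1.2.1 p.1.2.2) (2 * m p.1.1.1 + 1)) :=
    hK.frob (pr_comp hR p1)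
      (hK.mul (hK.pow (pr_comp hR p1) (hK.tau (pr_comp hR p1) (PT.const c))
        (PT.snd'.snd.min (hm.comp p1)) ((hb.comp p1).mono fun _ => min_le_right _ _))
        (PT.funApp (PT.funApp (hx.comp p1) PT.fst'.snd.fst) PT.snd'.fst))
      ((pt_rowExp fl (hn.comp p1) PT.fst'.snd.fst PT.fst'.snd.snd).min
        ((hm.comp p1).double.add (PT.const 1)))
      ((((PBd.const 2).mul (hb.comp p1)).add (PBd.const 1)).mono fun _ => min_le_right _ _)
  have h2 : PT ∅ fun p : ((α × ℕ) × (Fin 3 × ℕ)) × (Fin 3 × ℕ) =>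
      p.1.1.2.testBit (p.2.1 * m p.1.1.1 + p.2.2) :=
    PT.fst'.fst.snd.testBit ((PT.snd'.fst.finVal.mul (hm.comp p1)).add PT.snd'.snd)
  have h3 := hK.sum (pr_comp hR p2) (PT.map (PT.filter
    (f := fun (p : (α × ℕ) × (Fin 3 × ℕ)) (v : Fin 3 × ℕ) => p.1.2.testBit (v.1 * m p.1.1 + v.2))
    (pt_idx3 (hm.comp p2) (hb.comp p2)) h2)
    (f := fun (p : (α × ℕ) × (Fin 3 × ℕ)) (v : Fin 3 × ℕ) =>
      kfrob ω (R p.1.1) (kmul ω (kpow ω (R p.1.1) (ktau (R p.1.1) c) (min v.2 (m p.1.1)))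
        (x p.1.1 p.2.1 v.1)) (min (rowExp (n p.1.1) fl p.2.1 p.2.2) (2 * m p.1.1 + 1))) h1)
  have h4 := hK.prod (pr_comp hR (PT.fst' (β := ℕ))) (PT.map
    (pt_idx3 (hm.comp PT.fst') (hb.comp (A := ∅) PT.fst'))
    (f := fun (p : α × ℕ) (u : Fin 3 × ℕ) => ksum (R p.1) (((idx3 (m p.1)).filter fun v =>
      p.2.testBit (v.1 * m p.1 + v.2)).map fun v =>
      kfrob ω (R p.1) (kmul ω (kpow ω (R p.1) (ktau (R p.1) c) (min v.2 (m p.1)))
        (x p.1 u.1 v.1)) (min (rowExp (n p.1) fl u.1 u.2) (2 * m p.1 + 1)))) h3)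
  have h5 := hK.sum hR (PT.map (PT.range (PT.pow (PT.const 2) ((PT.const 3).mul hm)
    ((PBd.const 3).mul hb)) hb2)
    (f := fun (a : α) (w : ℕ) => kprod ω (R a) ((idx3 (m a)).map fun u =>
      ksum (R a) (((idx3 (m a)).filter fun v => w.testBit (v.1 * m a + v.2)).map fun v =>
      kfrob ω (R a) (kmul ω (kpow ω (R a) (ktau (R a) c) (min v.2 (m a)))
        (x a u.1 v.1)) (min (rowExp (n a) fl u.1 u.2) (2 * m a + 1))))) h4)
  refine h5.congr fun a => ?_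
  unfold thc
  congr 2
  funext w
  congr 1
  refine List.map_congr_left fun u hu => ?_
  congr 1
  refine List.map_congr_left fun v hv => ?_
  have a1 := mem_idx3 hu
  have a2 := mem_idx3 (List.mem_of_mem_filter hv)
  have a3 := rowExp_le (n a) fl u.1 u.2
  rw [min_eq_left a2.le, min_eq_left (by omega)]

theorem pt_mone (hK : KPT ω) {R : α → ℕ} (hR : PR F R) : PT ∅ fun a => (mone (R a) : MC F) :=
  PT.funMk fun _ => PT.funMk fun _ => hK.const hR (PT.const _)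

theorem pt_Φ (hK : KPT ω) {R m n : α → ℕ} {x : α → MC F} (c : F) (hR : PR F R)
    (hm : PT ∅ m) (hb : PBd m) (hb2 : PBd fun a => 2 ^ (3 * m a)) (hn : PT ∅ n) (hx : PT ∅ x) :
    PT ∅ fun a => thΦc ω (R a) c (m a) (n a) (x a) :=
  hK.tr hR (pt_thc hK c false hR hm hb hb2 hn hx)

theorem pt_Ψ (hK : KPT ω) {R m n : α → ℕ} {x : α → MC F} (c : F) (hR : PR F R)
    (hm : PT ∅ m) (hb : PBd m) (hb2 : PBd fun a => 2 ^ (3 * m a)) (hn : PT ∅ n) (hx : PT ∅ x) :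
    PT ∅ fun a => thΨc ω (R a) c (m a) (n a) (x a) :=
  hK.tr hR (hK.mul (hK.inv hR (hK.mul (pt_thc hK c false hR hm hb hb2 hn (pt_mone hK hR))
    (pt_thc hK c true hR hm hb hb2 hn (pt_mone hK hR)))) (pt_thc hK c true hR hm hb hb2 hn hx))

theorem pt_lit {φ : α → CNF} {i : α → ℕ} (hφ : PT ∅ φ) (hi : PT ∅ i) (c : Fin 3) :
    PT ∅ fun a => lit (φ a) (i a) c := by
  have h := PT.getD hφ hi (PT.const ((0, false), (0, false), (0, false)))
  unfold lit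
  split_ifs
  exacts [h.fst, h.snd.fst, h.snd.snd]

theorem pt_vidx {φ : α → CNF} {v : α → ℕ} (hφ : PT ∅ φ) (hv : PT ∅ v) :
    PT ∅ fun a => vidx (φ a) (v a) := by
  have h := PT.idxOf (PT.flatMap (f := fun _ c => [c.1.1, c.2.1.1, c.2.2.1]) hφ
    (PT.snd'.fst.fst.cons (PT.snd'.snd.fst.fst.cons (PT.snd'.snd.snd.fst.cons PT.nil)))) hv
  exact h.congr fun a => by unfold vidx; congr

end ThPT

open ThPT in
theorem thPT_proof : ThPTStmt := by
  intro F _ _ _ _ ω c hK ⟨_, hm, hb, hb2, hR⟩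
  have hR' := hR F
  have p1 : PT ∅ fun p : (CNF × XC F) × ℕ => p.1.1 := PT.fst'.fst
  have px : ∀ j, PT ∅ fun p : (CNF × XC F) × ℕ => p.1.2 j := fun j => PT.funAt PT.fst'.snd j
  have hΦ := fun (j : Fin 3) (n : (CNF × XC F) × ℕ → ℕ) (hn : PT ∅ n) =>
    pt_Φ hK (c j) (pr_comp hR' p1) (hm.comp p1) (hb.comp p1) (hb2.comp p1) hn (px j)
  have hΨ := fun (j : Fin 3) (n : (CNF × XC F) × ℕ → ℕ) (hn : PT ∅ n) =>
    pt_Ψ hK (c j) (pr_comp hR' p1) (hm.comp p1) (hb.comp p1) (hb2.comp p1) hn (px j)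
  have hr : PT ∅ fun p : CNF × XC F => List.range (2 ^ parM p.1) :=
    PT.range (PT.pow (PT.const 2) (hm.comp PT.fst') (hb.comp (A := ∅) PT.fst'))
      ((hb2.comp (A := ∅) PT.fst').mono fun p => Nat.pow_le_pow_right (by norm_num) (by omega))
  refine PT.pair (hK.fsum (PT.map hr (hΦ 0 _ PT.snd'))) (PT.pair
    (hK.fsum (PT.map hr (hΦ 1 _ PT.snd'))) (PT.funMk fun cb => hK.fsum (PT.map
      (PT.range PT.fst'.length (PBd.length (A := ∅) PT.fst')) ?_)))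
  have hl := pt_lit p1 PT.snd' cb.1
  exact PT.ite (hl.snd.eqConst _) (PT.finComp2 (fun a b : F => a * b)
    (PT.finComp2 (fun a b : F => a * b)
      (hΦ 2 _ (((PT.const 3).mul PT.snd').add (PT.const _))) (hΨ 0 _ PT.snd'))
    (hΨ 1 _ (pt_vidx p1 hl.fst))) (PT.const 0)

end Vale.Agent.P318.Q
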