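import Vale.Agent.P318.Q.Stmt

/-!
Track Q: the theta functions on codes are correct (formula of Ryser in characteristic two).
-/

namespace Vale.Agent.P318.Q

open Finset

namespace ThSpec

/-- The formula of Ryser in characteristic two. -/
theorem ryser {K I : Type} [Field K] [CharP K 2] [Fintype I] [DecidableEq I] (M : Matrix I I K) :
    ∑ b : I → Bool, ∏ u, ∑ v, (if b v then M u v else 0) = M.det := by
  classical
  have e1 : ∀ b : I → Bool, ∏ u, ∑ v, (if b v then M u v else 0) =
      ∑ f : I → I, (∏ u, M u (f u)) *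
        ∏ v, (if v ∈ Set.range f then (if b v then (1 : K) else 0) else 1) := by
    intro b
    rw [Finset.prod_univ_sum, Fintype.piFinset_univ]
    refine sum_congr rfl fun f _ => ?_
    by_cases h : ∀ u, b (f u) = true
    · rw [prod_congr rfl fun u _ => if_pos (h u), prod_eq_one (f := fun v =>
        if v ∈ Set.range f then (if b v then (1 : K) else 0) else 1), mul_one]
      intro v _
      split_ifs with h1 h2
      · rfl
      · obtain ⟨u, rfl⟩ := h1
        exact absurd (h u) h2
      · rfl
    · obtain ⟨u, hu⟩ := not_forall.1 h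
      have z : ∏ v, (if v ∈ Set.range f then (if b v then (1 : K) else 0) else 1) = 0 :=
        prod_eq_zero (mem_univ (f u)) (by rw [if_pos ⟨u, rfl⟩, if_neg hu])
      rw [z, mul_zero]
      exact prod_eq_zero (mem_univ u) (if_neg hu)
  have e2 : ∀ f : I → I, ∑ b : I → Bool,
      ∏ v, (if v ∈ Set.range f then (if b v then (1 : K) else 0) else 1) =
      if Function.Bijective f then 1 else 0 := by
    intro f
    have := Finset.prod_univ_sum (fun _ : I => (univ : Finset Bool))
      fun v (β : Bool) => if v ∈ Set.range f then (if β then (1 : K) else 0) else 1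
    rw [Fintype.piFinset_univ] at this
    rw [← this]
    split_ifs with h
    · refine prod_eq_one fun v _ => ?_
      have : v ∈ Set.range f := h.2 v
      simp only [if_pos this]
      simp
    · have : ¬ Function.Surjective f := fun hs =>
        h (Finite.surjective_iff_bijective.1 hs)
      obtain ⟨v, hv⟩ := not_forall.1 this
      refine prod_eq_zero (mem_univ v) ?_
      have hv' : v ∉ Set.range f := hv
      simp only [if_neg hv']
      rw [Fintype.sum_bool]
      exact CharTwo.add_self_eq_zero 1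
  simp_rw [e1]
  rw [sum_comm]
  simp_rw [← mul_sum, e2, mul_ite, mul_one, mul_zero]
  rw [← sum_filter, ← Matrix.det_transpose, Matrix.det_apply']
  refine sum_bij (fun p h => Equiv.ofBijective p (mem_filter.1 h).2) (fun _ _ => mem_univ _)
    (fun _ _ _ _ h => by injection h)
    (fun b _ => ⟨b, mem_filter.2 ⟨mem_univ _, b.bijective⟩, Equiv.coe_fn_injective rfl⟩) ?_
  intro p hp
  have : ∀ σ : Equiv.Perm I, (((Equiv.Perm.sign σ : ℤˣ) : ℤ) : K) = 1 := fun σ => by
    rcases Int.units_eq_one_or (Equiv.Perm.sign σ) with h | h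
    · simp [h]
    · simp [h, CharTwo.neg_eq]
  rw [this, one_mul]
  rfl

/-- Subsets of the index set as numbers. -/
theorem sum_bits {K : Type} [AddCommMonoid K] (m : ℕ) (G : (Fin 3 × Fin m → Bool) → K) :
    ∑ w ∈ range (2 ^ (3 * m)), G (fun v => w.testBit (v.1 * m + v.2)) = ∑ b, G b := by
  have hinj : Set.InjOn (fun (w : ℕ) (v : Fin 3 × Fin m) => w.testBit (v.1 * m + v.2))
      (range (2 ^ (3 * m)) : Finset ℕ) := by
    intro w hw w' hw' h
    refine Nat.eq_of_testBit_eq fun i => ?_
    by_cases hi : i < 3 * m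
    · have hm : 0 < m := by omega
      have := congrFun h (⟨i / m, (Nat.div_lt_iff_lt_mul hm).2 hi⟩, ⟨i % m, Nat.mod_lt _ hm⟩)
      simpa only [Nat.div_add_mod'] using this
    · have h2 : 2 ^ (3 * m) ≤ 2 ^ i := Nat.pow_le_pow_right (by norm_num) (not_lt.1 hi)
      rw [Nat.testBit_eq_false_of_lt ((mem_range.1 hw).trans_le h2),
        Nat.testBit_eq_false_of_lt ((mem_range.1 hw').trans_le h2)]
  refine sum_nbij _ (fun _ _ => mem_univ _) hinj ?_ fun _ _ => rfl
  refine surjOn_of_injOn_of_card_le _ (fun _ _ => mem_coe.2 (mem_univ _)) hinj ?_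
  simp

theorem prod_idx {K : Type} [CommMonoid K] (m : ℕ) (h : Fin 3 × ℕ → K) :
    ((idx3 m).map h).prod = ∏ u : Fin 3 × Fin m, h (u.1, u.2) := by
  have e : ∀ i : Fin 3, ((List.range m).map fun r => h (i, r)).prod = ∏ r : Fin m, h (i, r) :=
    fun i => prod_range fun r => h (i, r)
  have e3 : List.finRange 3 = [0, 1, 2] := rfl
  rw [Fintype.prod_prod_type, Fin.prod_univ_three, ← e, ← e, ← e, idx3, e3]
  simp [Function.comp_def, mul_assoc]

theorem sum_idx {K : Type} [AddCommMonoid K] (m : ℕ) (h : Fin 3 × ℕ → K) :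
    ((idx3 m).map h).sum = ∑ u : Fin 3 × Fin m, h (u.1, u.2) := by
  have e : ∀ i : Fin 3, ((List.range m).map fun r => h (i, r)).sum = ∑ r : Fin m, h (i, r) :=
    fun i => sum_range fun r => h (i, r)
  have e3 : List.finRange 3 = [0, 1, 2] := rfl
  rw [Fintype.sum_prod_type, Fin.sum_univ_three, ← e, ← e, ← e, idx3, e3]
  simp [Function.comp_def, add_assoc]

theorem sum_filt {K β : Type} [AddCommMonoid K] (L : List β) (p : β → Bool) (h : β → K) :
    ((L.filter p).map h).sum = (L.map fun v => if p v then h v else 0).sum := by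
  induction L with
  | nil => rfl
  | cons a L ih => by_cases hp : p a <;> simp [hp, ih]

theorem thc_rep {F K : Type} [Field F] [Fintype F] [CharP F 2] [Field K] [Algebra F K] {ω : F}
    {R : ℕ} {τ : K} (H : KSpec ω R τ) (c : F) (m n : ℕ) (fl : Bool) {x : MC F} {g : SL3 K}
    (hx : MRep R τ x g) :
    Rep R τ (thc ω R c m n fl x) (th (Fintype.card F) (τ + algebraMap F K c) m n fl g.1) := by
  have : CharP K 2 := charP_of_injective_algebraMap (algebraMap F K).injective 2
  have := H.sum (List.range (2 ^ (3 * m))) _ _ fun w _ =>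
    H.prod (idx3 m) _ _ fun u _ =>
      H.sum ((idx3 m).filter fun v => w.testBit (v.1 * m + v.2)) _ _ fun v _ =>
        H.frob (rowExp n fl u.1 u.2) (H.mul (H.pow v.2 (H.tau c)) (hx u.1 v.1))
  refine ⟨this.1, this.2.trans ?_⟩
  rw [th, ← ryser, ← sum_bits]
  refine sum_congr (s₁ := range (2 ^ (3 * m))) (M := K) rfl fun w _ => ?_
  rw [prod_idx]
  refine prod_congr rfl fun u _ => ?_
  rw [sum_filt, sum_idx]
  rfl

end ThSpec

open ThSpec in
theorem thSpec_proof : ThSpecStmt := by
  intro F K _ _ _ _ _ ω R τ H h1 c m n x g hx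
  exact ⟨H.tr (thc_rep H c m n false hx),
    H.tr (H.mul (H.inv (H.mul (thc_rep H c m n false h1) (thc_rep H c m n true h1)))
      (thc_rep H c m n true hx))⟩

end Vale.Agent.P318.Q
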