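import Vale.Agent.P318.Q.Blow
import Vale.Agent.P318.Q.Bridge
import Vale.Agent.P318.Q.Complete
import Vale.Agent.P318.Q.Core
import Vale.Agent.P318.Q.Dist
import Vale.Agent.P318.Q.Fam
import Vale.Agent.P318.Q.Field
import Vale.Agent.P318.Q.Final
import Vale.Agent.P318.Q.GPT
import Vale.Agent.P318.Q.GSpec
import Vale.Agent.P318.Q.GadNo
import Vale.Agent.P318.Q.GadPT
import Vale.Agent.P318.Q.GadYes
import Vale.Agent.P318.Q.Had
import Vale.Agent.P318.Q.KPT
import Vale.Agent.P318.Q.KSpec
import Vale.Agent.P318.Q.LTC
import Vale.Agent.P318.Q.Par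
import Vale.Agent.P318.Q.Plane
import Vale.Agent.P318.Q.Repair
import Vale.Agent.P318.Q.SL
import Vale.Agent.P318.Q.Sound
import Vale.Agent.P318.Q.SpecLoc
import Vale.Agent.P318.Q.Th1
import Vale.Agent.P318.Q.Th2
import Vale.Agent.P318.Q.ThPT
import Vale.Agent.P318.Q.ThSpec

/-!
Track Q: all parts together.
-/

namespace Vale.Agent.P318.Q

theorem final_all : FinalStmt :=
  have hG : SpecGlobStmt := specGlob_proof specLoc_proof
  final_proof base_proof had_proof
    (fam_proof field_proof sl_proof (th2_proof th1_proof) kSpec_proof gSpec_proof thSpec_proof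
      par_proof (exp_proof specLoc_proof hG) complete_proof
      (sound_proof (ltc_proof (repair_proof plane_proof) (core_proof specLoc_proof hG))
        (dist_proof specLoc_proof hG)))
    kPT_proof gPT_proof thPT_proof par_proof gadYes_proof gadNo_proof gadPT_proof blow_proof
    bridge_proof

end Vale.Agent.P318.Q
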