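import Vale.Agent.P318.Q.Stmt
import Mathlib.Algebra.Order.BigOperators.Expect
import Mathlib.Algebra.Polynomial.Roots

/-!
Track Q: elementary lemmas on low degree functions, probabilities and root subgroup systems.
-/

set_option linter.unusedSectionVars false

namespace Vale.Agent.P318.Q

open Finset
open scoped BigOperators Classical

/-! ### Low degree functions -/

section Deg

variable {F : Type} [Field F] {l l' : ℕ} {φ ψ : F → F}

theorem Deg.mono (h : Deg l φ) (hl : l ≤ l') : Deg l' φ := by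
  obtain ⟨p, hp, e⟩ := h
  exact ⟨p, hp.trans hl, e⟩

theorem Deg.const (l : ℕ) (c : F) : Deg l fun _ : F => c :=
  ⟨Polynomial.C c, by simp, fun a => by simp⟩

theorem Deg.id : Deg 1 fun a : F => a := ⟨Polynomial.X, by simp, fun a => by simp⟩

theorem Deg.congr (h : Deg l φ) (e : ∀ a, φ a = ψ a) : Deg l ψ := by
  have : φ = ψ := funext e
  rwa [← this]

theorem Deg.add (h : Deg l φ) (h' : Deg l ψ) : Deg l fun a => φ a + ψ a := by
  obtain ⟨p, hp, e⟩ := h
  obtain ⟨p', hp', e'⟩ := h'
  exact ⟨p + p', (Polynomial.natDegree_add_le _ _).trans (max_le hp hp'),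
    fun a => by simp [e, e']⟩

theorem Deg.neg (h : Deg l φ) : Deg l fun a => -φ a := by
  obtain ⟨p, hp, e⟩ := h
  exact ⟨-p, by simpa using hp, fun a => by simp [e]⟩

theorem Deg.sub (h : Deg l φ) (h' : Deg l ψ) : Deg l fun a => φ a - ψ a :=
  (h.add h'.neg).congr fun a => by ring

theorem Deg.mul (h : Deg l φ) (h' : Deg l' ψ) : Deg (l + l') fun a => φ a * ψ a := by
  obtain ⟨p, hp, e⟩ := h
  obtain ⟨p', hp', e'⟩ := h'
  exact ⟨p * p', Polynomial.natDegree_mul_le.trans (add_le_add hp hp'), fun a => by simp [e, e']⟩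

theorem Deg.const_mul (c : F) (h : Deg l φ) : Deg l fun a => c * φ a := by
  simpa using (Deg.const 0 c).mul h

theorem Deg.mul_const (h : Deg l φ) (c : F) : Deg l fun a => φ a * c := by
  simpa using h.mul (Deg.const 0 c)

theorem Deg.sum {ι : Type} (s : Finset ι) {f : ι → F → F} (h : ∀ i ∈ s, Deg l (f i)) :
    Deg l fun a => ∑ i ∈ s, f i a := by
  induction s using Finset.induction_on with
  | empty => simpa using Deg.const l (0 : F)
  | insert i s hi ih =>
    exact ((h i (mem_insert_self _ _)).add (ih fun j hj => h j (mem_insert_of_mem hj))).congr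
      fun a => by rw [sum_insert hi]

/-- Affine reparametrisation. -/
theorem Deg.affine (h : Deg l φ) (b c : F) : Deg l fun a => φ (b + c * a) := by
  obtain ⟨p, hp, e⟩ := h
  refine ⟨p.comp (Polynomial.C b + Polynomial.C c * Polynomial.X), ?_, fun a => by simp [e]⟩
  refine Polynomial.natDegree_comp_le.trans ?_
  have : (Polynomial.C b + Polynomial.C c * Polynomial.X).natDegree ≤ 1 := by
    refine (Polynomial.natDegree_add_le _ _).trans (max_le (by simp) ?_)
    exact (Polynomial.natDegree_C_mul_le _ _).trans (by simp)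
  calc p.natDegree * _ ≤ l * 1 := Nat.mul_le_mul hp this
    _ = l := mul_one l

theorem Deg.eval (p : Polynomial F) (hp : p.natDegree ≤ l) : Deg l fun a => p.eval a :=
  ⟨p, hp, fun _ => rfl⟩

/-- A low degree function with many zeros vanishes. -/
theorem Deg.eq_zero (h : Deg l φ) (s : Finset F) (hs : l < s.card) (h0 : ∀ a ∈ s, φ a = 0)
    (a : F) : φ a = 0 := by
  obtain ⟨p, hp, e⟩ := h
  have : p = 0 := Polynomial.eq_zero_of_natDegree_lt_card_of_eval_eq_zero' p s
    (fun a ha => by rw [← e, h0 a ha]) (hp.trans_lt hs)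
  rw [e, this, Polynomial.eval_zero]

/-- Two low degree functions which agree at many points are equal. -/
theorem Deg.eq_of_agree (h : Deg l φ) (h' : Deg l ψ) (s : Finset F) (hs : l < s.card)
    (h0 : ∀ a ∈ s, φ a = ψ a) (a : F) : φ a = ψ a :=
  sub_eq_zero.1 ((h.sub h').eq_zero s hs (fun a ha => sub_eq_zero.2 (h0 a ha)) a)

/-- A nonzero low degree function has at most `l` zeros. -/
theorem Deg.card_zeros_le [Fintype F] (h : Deg l φ) {a : F} (ha : φ a ≠ 0) :
    (univ.filter fun b => φ b = 0).card ≤ l := by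
  by_contra hc
  exact ha (h.eq_zero _ (not_le.1 hc) (fun b hb => (mem_filter.1 hb).2) a)

end Deg

/-! ### Probabilities -/

section Pr

variable {G : Type} [Fintype G] {P Q : G → Prop}

/-- The indicator function. -/
noncomputable def ind {G : Type} (P : G → Prop) (g : G) : ℝ := if P g then 1 else 0

theorem ind_nonneg {G : Type} (P : G → Prop) (g : G) : 0 ≤ ind P g := by
  unfold ind; split_ifs <;> norm_num

theorem ind_le_one {G : Type} (P : G → Prop) (g : G) : ind P g ≤ 1 := by
  unfold ind; split_ifs <;> norm_num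

theorem ind_sq {G : Type} (P : G → Prop) (g : G) : ind P g ^ 2 = ind P g := by
  unfold ind; split_ifs <;> norm_num

theorem ind_pos {G : Type} {P : G → Prop} {g : G} (h : P g) : ind P g = 1 := if_pos h

theorem ind_neg {G : Type} {P : G → Prop} {g : G} (h : ¬ P g) : ind P g = 0 := if_neg h

theorem pr_eq (P : G → Prop) : pr P = 𝔼 g, ind P g := rfl

theorem pr_eq_card (P : G → Prop) :
    pr P = ((univ.filter P).card : ℝ) / Fintype.card G := by
  rw [pr, Fintype.expect_eq_sum_div_card, Finset.sum_boole]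

theorem pr_nonneg (P : G → Prop) : 0 ≤ pr P :=
  Finset.expect_nonneg fun g _ => ind_nonneg P g

theorem pr_mono (h : ∀ g, P g → Q g) : pr P ≤ pr Q :=
  Finset.expect_le_expect fun g _ => by
    by_cases hp : P g
    · simp [hp, h g hp]
    · simp only [hp, if_false]; exact ind_nonneg Q g

theorem pr_congr (h : ∀ g, P g ↔ Q g) : pr P = pr Q :=
  le_antisymm (pr_mono fun g => (h g).1) (pr_mono fun g => (h g).2)

theorem pr_le_one (P : G → Prop) : pr P ≤ 1 := by
  rcases isEmpty_or_nonempty G with h | h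
  · simp [pr]
  · exact Finset.expect_le univ_nonempty fun g _ => ind_le_one P g

theorem pr_or_le (P Q : G → Prop) : pr (fun g => P g ∨ Q g) ≤ pr P + pr Q := by
  rw [pr, pr, pr, ← Finset.expect_add_distrib]
  refine Finset.expect_le_expect fun g _ => ?_
  by_cases hp : P g <;> by_cases hq : Q g <;> simp [hp, hq]

theorem pr_le_add {R : G → Prop} (h : ∀ g, R g → P g ∨ Q g) : pr R ≤ pr P + pr Q :=
  (pr_mono h).trans (pr_or_le P Q)

theorem pr_exists_le {ι : Type} (s : Finset ι) (P : ι → G → Prop) :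
    pr (fun g => ∃ i ∈ s, P i g) ≤ ∑ i ∈ s, pr (P i) := by
  induction s using Finset.induction_on with
  | empty => simp [pr]
  | insert i s hi ih =>
    rw [sum_insert hi]
    refine (pr_le_add (P := P i) (Q := fun g => ∃ j ∈ s, P j g) fun g hg => ?_).trans
      (add_le_add le_rfl ih)
    obtain ⟨j, hj, h⟩ := hg
    rcases mem_insert.1 hj with rfl | hj
    · exact Or.inl h
    · exact Or.inr ⟨j, hj, h⟩

theorem pr_not [Nonempty G] (P : G → Prop) : pr (fun g => ¬ P g) = 1 - pr P := by
  have : pr (fun g => ¬ P g) + pr P = 𝔼 _g : G, (1 : ℝ) := by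
    rw [pr, pr, ← Finset.expect_add_distrib]
    refine Finset.expect_congr rfl fun g _ => ?_
    by_cases hp : P g <;> simp [hp]
  rw [Fintype.expect_const] at this
  linarith

theorem pr_pos {g : G} (h : P g) : 0 < pr P := by
  rw [pr_eq_card]
  have : Nonempty G := ⟨g⟩
  have h1 : 0 < (univ.filter P).card := card_pos.2 ⟨g, mem_filter.2 ⟨mem_univ _, h⟩⟩
  have h2 : 0 < Fintype.card G := Fintype.card_pos
  positivity

theorem exists_of_pr_pos (h : 0 < pr P) : ∃ g, P g := by
  by_contra hc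
  push Not at hc
  simp [pr, hc] at h

theorem pr_equiv {G' : Type} [Fintype G'] (e : G ≃ G') (P : G' → Prop) :
    pr (fun g => P (e g)) = pr P :=
  Fintype.expect_equiv e _ _ fun _ => rfl

/-- Markov inequality. -/
theorem pr_le_of_le {f : G → ℝ} {t : ℝ} (ht : 0 < t) (h0 : ∀ g, 0 ≤ f g)
    (h : ∀ g, P g → t ≤ f g) : pr P ≤ (𝔼 g, f g) / t := by
  rw [le_div_iff₀ ht, pr, Finset.expect_mul]
  refine Finset.expect_le_expect fun g _ => ?_
  by_cases hp : P g
  · simpa [hp] using h g hp
  · simpa [hp] using h0 g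

theorem pr_prod {G' : Type} [Fintype G'] (P : G × G' → Prop) :
    pr P = 𝔼 g, pr fun g' => P (g, g') := by
  rw [pr, ← Finset.univ_product_univ, Finset.expect_product]
  rfl

/-- Some point is at most average. -/
theorem exists_le_expect [Nonempty G] (f : G → ℝ) : ∃ g, f g ≤ 𝔼 g, f g :=
  let ⟨g, _, h⟩ := Finset.exists_le_of_expect_le (f := f) univ_nonempty le_rfl
  ⟨g, h⟩

variable [Group G]

theorem expect_mul_right (f : G → ℝ) (u : G) : 𝔼 g, f (g * u) = 𝔼 g, f g :=
  Fintype.expect_equiv (Equiv.mulRight u) _ _ fun _ => rfl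

theorem expect_mul_left (f : G → ℝ) (u : G) : 𝔼 g, f (u * g) = 𝔼 g, f g :=
  Fintype.expect_equiv (Equiv.mulLeft u) _ _ fun _ => rfl

theorem pr_mul_right (P : G → Prop) (u : G) : pr (fun g => P (g * u)) = pr P :=
  expect_mul_right (ind P) u

theorem pr_mul_left (P : G → Prop) (u : G) : pr (fun g => P (u * g)) = pr P :=
  expect_mul_left (ind P) u

/-- Averaging first over a finite family of right translates does not change the mean. -/
theorem expect_expect_mul {ι : Type} [Fintype ι] [Nonempty ι] (f : G → ℝ) (u : ι → G) :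
    𝔼 g, 𝔼 i, f (g * u i) = 𝔼 g, f g := by
  rw [Finset.expect_comm]
  simp only [expect_mul_right, Fintype.expect_const]

end Pr

/-! ### Root subgroup systems -/

namespace Tri

variable {F G : Type} [Field F] [Group G] {T : Tri F G}

theorem OK.x_zero (h : T.OK) (i : Fin 3) : T.x i 0 = 1 := by
  have := h.x_add i 0 0
  rw [add_zero] at this
  exact left_eq_mul.1 this

theorem OK.z_zero (h : T.OK) (i : Fin 3) : T.z i 0 = 1 := by
  have := h.z_add i 0 0
  rw [add_zero] at this
  exact left_eq_mul.1 this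

theorem OK.x_neg (h : T.OK) (i : Fin 3) (a : F) : T.x i (-a) = (T.x i a)⁻¹ :=
  eq_inv_of_mul_eq_one_left (by rw [← h.x_add, neg_add_cancel, h.x_zero])

theorem OK.z_neg (h : T.OK) (i : Fin 3) (a : F) : T.z i (-a) = (T.z i a)⁻¹ :=
  eq_inv_of_mul_eq_one_left (by rw [← h.z_add, neg_add_cancel, h.z_zero])

/-- The commutation relation read from the other side. -/
theorem OK.comm' (h : T.OK) (i : Fin 3) (a b : F) :
    T.x (i + 2) b * T.x (i + 1) a = T.x (i + 1) a * T.x (i + 2) b * T.z i (-(a * b)) := by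
  rw [h.comm, mul_assoc, ← h.z_add, add_neg_cancel, h.z_zero, mul_one]

/-- The group law in the parameters. -/
theorem OK.k_mul (h : T.OK) (i : Fin 3) (p p' : F × F × F) :
    T.k i p * T.k i p' =
      T.k i (p.1 + p'.1, p.2.1 + p'.2.1, p.2.2 + p'.2.2 - p'.1 * p.2.1) := by
  obtain ⟨a, b, c⟩ := p
  obtain ⟨a', b', c'⟩ := p'
  simp only [k]
  have e : c + c' - a' * b = -(a' * b) + (c + c') := by ring
  rw [h.x_add, h.x_add, e, h.z_add, h.z_add]
  calc T.x (i + 1) a * T.x (i + 2) b * T.z i c * (T.x (i + 1) a' * T.x (i + 2) b' * T.z i c')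
      = T.x (i + 1) a * T.x (i + 2) b * (T.z i c * T.x (i + 1) a') * T.x (i + 2) b' *
          T.z i c' := by simp only [mul_assoc]
    _ = T.x (i + 1) a * (T.x (i + 2) b * T.x (i + 1) a') * (T.z i c * T.x (i + 2) b') *
          T.z i c' := by rw [h.zx1]; simp only [mul_assoc]
    _ = T.x (i + 1) a * T.x (i + 1) a' * T.x (i + 2) b * (T.z i (-(a' * b)) * T.x (i + 2) b') *
          T.z i c * T.z i c' := by rw [h.comm', h.zx2]; simp only [mul_assoc]
    _ = _ := by rw [h.zx2]; simp only [mul_assoc]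

theorem OK.k_zero (h : T.OK) (i : Fin 3) : T.k i 0 = 1 := by
  simp [k, h.x_zero, h.z_zero]

theorem x1_mem (T : Tri F G) (i : Fin 3) (a : F) : T.x (i + 1) a ∈ T.K i :=
  Subgroup.subset_closure (Or.inl ⟨a, rfl⟩)

theorem x2_mem (T : Tri F G) (i : Fin 3) (a : F) : T.x (i + 2) a ∈ T.K i :=
  Subgroup.subset_closure (Or.inr ⟨a, rfl⟩)

theorem x_mem (T : Tri F G) {i j : Fin 3} (hij : j ≠ i) (a : F) : T.x j a ∈ T.K i := by
  have : j = i + 1 ∨ j = i + 2 := by revert i j; decide
  rcases this with rfl | rfl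
  · exact T.x1_mem i a
  · exact T.x2_mem i a

theorem OK.z_mem (h : T.OK) (i : Fin 3) (c : F) : T.z i c ∈ T.K i := by
  have e := h.comm i c 1
  rw [mul_one] at e
  have : T.z i c = (T.x (i + 2) 1 * T.x (i + 1) c)⁻¹ * (T.x (i + 1) c * T.x (i + 2) 1) := by
    rw [e, inv_mul_cancel_left]
  rw [this]
  exact mul_mem (inv_mem (mul_mem (T.x2_mem i _) (T.x1_mem i _)))
    (mul_mem (T.x1_mem i _) (T.x2_mem i _))

theorem OK.k_mem (h : T.OK) (i : Fin 3) (p : F × F × F) : T.k i p ∈ T.K i :=
  mul_mem (mul_mem (T.x1_mem i _) (T.x2_mem i _)) (h.z_mem i _)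

theorem OK.mem_K (h : T.OK) (i : Fin 3) (u : G) : u ∈ T.K i ↔ ∃ p, u = T.k i p := by
  refine ⟨fun hu => ?_, fun ⟨p, e⟩ => e ▸ h.k_mem i p⟩
  induction hu using Subgroup.closure_induction with
  | mem x hx =>
    rcases hx with ⟨a, rfl⟩ | ⟨a, rfl⟩
    · exact ⟨(a, 0, 0), by simp [k, h.x_zero, h.z_zero]⟩
    · exact ⟨(0, a, 0), by simp [k, h.x_zero, h.z_zero]⟩
  | one => exact ⟨0, (h.k_zero i).symm⟩
  | mul x y _ _ hx hy =>
    obtain ⟨p, rfl⟩ := hx
    obtain ⟨p', rfl⟩ := hy
    exact ⟨_, h.k_mul i p p'⟩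
  | inv x _ hx =>
    obtain ⟨p, rfl⟩ := hx
    refine ⟨(-p.1, -p.2.1, -p.2.2 - p.1 * p.2.1), (eq_inv_of_mul_eq_one_right ?_).symm⟩
    rw [h.k_mul, ← h.k_zero i]
    congr 1
    refine Prod.ext (by simp) (Prod.ext (by simp) ?_)
    simp only [Prod.snd_zero]
    ring

/-- The parametrisation of the Heisenberg group is a bijection. -/
noncomputable def OK.kEquiv (h : T.OK) (i : Fin 3) : F × F × F ≃ T.K i :=
  Equiv.ofBijective (fun p => ⟨T.k i p, h.k_mem i p⟩)
    ⟨fun _ _ e => h.inj i (congrArg Subtype.val e), fun u =>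
      let ⟨p, e⟩ := (h.mem_K i u.1).1 u.2
      ⟨p, Subtype.ext e.symm⟩⟩

@[simp] theorem OK.kEquiv_apply (h : T.OK) (i : Fin 3) (p : F × F × F) :
    (h.kEquiv i p : G) = T.k i p := rfl

theorem OK.expect_K [Fintype F] [Fintype G] (h : T.OK) (i : Fin 3) (f : G → ℝ) :
    𝔼 u : T.K i, f u = 𝔼 p, f (T.k i p) :=
  (Fintype.expect_equiv (h.kEquiv i) _ _ fun _ => rfl).symm

theorem InvK.inv {β : Type} {i j : Fin 3} {f : G → β} (h : T.InvK i f) (hij : j ≠ i) :
    T.Inv j f := fun g a => h g _ (T.x_mem hij a)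

theorem invK_of_inv {β : Type} {i : Fin 3} {f : G → β} (h1 : T.Inv (i + 1) f)
    (h2 : T.Inv (i + 2) f) : T.InvK i f := by
  intro g u hu
  induction hu using Subgroup.closure_induction generalizing g with
  | mem x hx =>
    rcases hx with ⟨a, rfl⟩ | ⟨a, rfl⟩
    · exact h1 g a
    · exact h2 g a
  | one => rw [mul_one]
  | mul x y _ _ hx hy => rw [← mul_assoc, hy, hx]
  | inv x _ hx => rw [← hx (g * x⁻¹), inv_mul_cancel_right]

/-- A function invariant under all root subgroups is constant. -/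
theorem OK.const_of_inv {β : Type} (h : T.OK) {f : G → β} (hf : ∀ i, T.Inv i f) (g : G) :
    f g = f 1 := by
  have key : ∀ u ∈ Subgroup.closure (⋃ i, Set.range (T.x i)), ∀ g, f (g * u) = f g := by
    intro u hu
    induction hu using Subgroup.closure_induction with
    | mem x hx =>
      obtain ⟨i, a, rfl⟩ := Set.mem_iUnion.1 hx
      exact fun g => hf i g a
    | one => exact fun g => by rw [mul_one]
    | mul x y _ _ hx hy => exact fun g => by rw [← mul_assoc, hy, hx]
    | inv x _ hx => exact fun g => by rw [← hx (g * x⁻¹), inv_mul_cancel_right]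
  have := key g (h.gen ▸ Subgroup.mem_top g) 1
  rwa [one_mul] at this

section Avg

variable [Fintype F] [Fintype G]

omit [Fintype F] in
theorem PK_invK (T : Tri F G) (i : Fin 3) (f : G → ℝ) : T.InvK i (T.PK i f) := by
  intro g u hu
  exact Fintype.expect_equiv (Equiv.mulLeft (⟨u, hu⟩ : T.K i)) _ _ fun v => by
    simp [mul_assoc]

omit [Fintype G] in
theorem OK.PX_inv (h : T.OK) (i : Fin 3) (f : G → ℝ) : T.Inv i (T.PX i f) := by
  intro g a
  exact Fintype.expect_equiv (Equiv.addLeft a) _ _ fun b => by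
    simp [mul_assoc, h.x_add]

omit [Fintype F] in
theorem InvK.PK_eq {i : Fin 3} {f : G → ℝ} (h : T.InvK i f) (g : G) : T.PK i f g = f g := by
  rw [PK, Finset.expect_congr rfl fun (u : T.K i) _ => h g u u.2, Fintype.expect_const]

omit [Fintype G] in
theorem Inv.PX_eq {i : Fin 3} {f : G → ℝ} (h : T.Inv i f) (g : G) : T.PX i f g = f g := by
  rw [PX, Finset.expect_congr rfl fun a _ => h g a, Fintype.expect_const]

omit [Fintype F] in
theorem expect_PK (T : Tri F G) (i : Fin 3) (f : G → ℝ) : 𝔼 g, T.PK i f g = 𝔼 g, f g :=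
  expect_expect_mul f fun u : T.K i => (u : G)

theorem expect_PX (T : Tri F G) (i : Fin 3) (f : G → ℝ) : 𝔼 g, T.PX i f g = 𝔼 g, f g :=
  expect_expect_mul f fun a => T.x i a

omit [Fintype F] in
/-- An invariant factor can be taken out of the average. -/
theorem InvK.PK_mul {i : Fin 3} {f : G → ℝ} (h : T.InvK i f) (f' : G → ℝ) (g : G) :
    T.PK i (fun g => f g * f' g) g = f g * T.PK i f' g := by
  rw [PK, PK, Finset.mul_expect]
  exact Finset.expect_congr rfl fun u _ => by rw [h g u u.2]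

omit [Fintype G] in
theorem Inv.PX_mul {i : Fin 3} {f : G → ℝ} (h : T.Inv i f) (f' : G → ℝ) (g : G) :
    T.PX i (fun g => f g * f' g) g = f g * T.PX i f' g := by
  rw [PX, PX, Finset.mul_expect]
  exact Finset.expect_congr rfl fun a _ => by rw [h g a]

omit [Fintype F] in
theorem InvK.expect_mul {i : Fin 3} {f : G → ℝ} (h : T.InvK i f) (f' : G → ℝ) :
    𝔼 g, f g * f' g = 𝔼 g, f g * T.PK i f' g := by
  rw [← T.expect_PK i fun g => f g * f' g]
  exact Finset.expect_congr rfl fun g _ => h.PK_mul f' g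

theorem Inv.expect_mul {i : Fin 3} {f : G → ℝ} (h : T.Inv i f) (f' : G → ℝ) :
    𝔼 g, f g * f' g = 𝔼 g, f g * T.PX i f' g := by
  rw [← T.expect_PX i fun g => f g * f' g]
  exact Finset.expect_congr rfl fun g _ => h.PX_mul f' g

/-- Averaging over a root subgroup first does not change the average over `K i`. -/
theorem PK_PX (T : Tri F G) {i j : Fin 3} (hij : j ≠ i) (f : G → ℝ) (g : G) :
    T.PK i (T.PX j f) g = T.PK i f g := by
  simp only [PK, PX]
  rw [Finset.expect_comm]
  rw [Finset.expect_congr rfl (g := fun _ => 𝔼 u : T.K i, f (g * u)) fun a _ =>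
    Fintype.expect_equiv (Equiv.mulRight (⟨T.x j a, T.x_mem hij a⟩ : T.K i)) _ _ fun v => by
      simp [mul_assoc], Fintype.expect_const]

omit [Fintype F] in
/-- Local averages of a function of `g * u` integrate to the global average. -/
theorem expect_expect_K (T : Tri F G) (i : Fin 3) (f : G → ℝ) :
    𝔼 g, 𝔼 u : T.K i, f (g * u) = 𝔼 g, f g := T.expect_PK i f

end Avg

/-! ### Codewords -/

theorem Cw.invK {l : ℕ} {f : G → F} (h : T.Cw l f) : T.InvK 0 f := invK_of_inv h.1 h.2.1

theorem Cw.mono {l l' : ℕ} {f : G → F} (h : T.Cw l f) (hl : l ≤ l') : T.Cw l' f :=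
  ⟨h.1, h.2.1, fun g => (h.2.2 g).mono hl⟩

theorem Cw.congr {l : ℕ} {f f' : G → F} (h : T.Cw l f) (e : ∀ g, f g = f' g) : T.Cw l f' := by
  have : f = f' := funext e
  rwa [← this]

theorem Cw.const (T : Tri F G) (l : ℕ) (c : F) : T.Cw l fun _ => c :=
  ⟨fun _ _ => rfl, fun _ _ => rfl, fun _ => Deg.const l c⟩

theorem Cw.add {l : ℕ} {f f' : G → F} (h : T.Cw l f) (h' : T.Cw l f') :
    T.Cw l fun g => f g + f' g :=
  ⟨fun g a => by simp only [h.1 g a, h'.1 g a], fun g a => by simp only [h.2.1 g a, h'.2.1 g a],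
    fun g => (h.2.2 g).add (h'.2.2 g)⟩

theorem Cw.sub {l : ℕ} {f f' : G → F} (h : T.Cw l f) (h' : T.Cw l f') :
    T.Cw l fun g => f g - f' g :=
  ⟨fun g a => by simp only [h.1 g a, h'.1 g a], fun g a => by simp only [h.2.1 g a, h'.2.1 g a],
    fun g => (h.2.2 g).sub (h'.2.2 g)⟩

theorem Cw.mul {l l' : ℕ} {f f' : G → F} (h : T.Cw l f) (h' : T.Cw l' f') :
    T.Cw (l + l') fun g => f g * f' g :=
  ⟨fun g a => by simp only [h.1 g a, h'.1 g a], fun g a => by simp only [h.2.1 g a, h'.2.1 g a],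
    fun g => (h.2.2 g).mul (h'.2.2 g)⟩

theorem Cw.const_mul {l : ℕ} {f : G → F} (c : F) (h : T.Cw l f) : T.Cw l fun g => c * f g := by
  simpa using (Cw.const T 0 c).mul h

theorem Cw.sum {l : ℕ} {ι : Type} (s : Finset ι) {f : ι → G → F} (h : ∀ i ∈ s, T.Cw l (f i)) :
    T.Cw l fun g => ∑ i ∈ s, f i g :=
  ⟨fun g a => sum_congr rfl fun i hi => (h i hi).1 g a,
    fun g a => sum_congr rfl fun i hi => (h i hi).2.1 g a,
    fun g => Deg.sum s fun i hi => (h i hi).2.2 g⟩

theorem Cw.ite {l : ℕ} {f : G → F} (p : Prop) [Decidable p] (h : T.Cw l f) :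
    T.Cw l fun g => if p then f g else 0 := by
  by_cases hp : p
  · simpa [hp] using h
  · simpa [hp] using Cw.const T l 0

/-- Left translates of codewords are codewords. -/
theorem Cw.left {l : ℕ} {f : G → F} (h : T.Cw l f) (u : G) : T.Cw l fun g => f (u * g) :=
  ⟨fun g a => by simp only [← mul_assoc, h.1 _ a], fun g a => by simp only [← mul_assoc, h.2.1 _ a],
    fun g => by simpa only [← mul_assoc] using h.2.2 (u * g)⟩

/-- Pull back along a projection of the product. -/
theorem Cw.proj {l : ℕ} {T : Fin 3 → Tri F G} {j : Fin 3} {f : G → F} (h : (T j).Cw l f) :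
    (piTri T).Cw l fun g => f (g j) :=
  ⟨fun g a => h.1 (g j) a, fun g a => h.2.1 (g j) a, fun g => h.2.2 (g j)⟩

/-! ### Exchanging the indices 1 and 2 -/

/-- The system with the root subgroups 1 and 2 exchanged. -/
def swap (T : Tri F G) : Tri F G := ⟨fun i => T.x (-i), fun i c => T.z (-i) (-c)⟩

@[simp] theorem swap_x (T : Tri F G) (i : Fin 3) : T.swap.x i = T.x (-i) := rfl

theorem neg_add_one' (i : Fin 3) : -(i + 1) = -i + 2 := by revert i; decide

theorem neg_add_two' (i : Fin 3) : -(i + 2) = -i + 1 := by revert i; decide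

theorem swap_K (T : Tri F G) (i : Fin 3) : T.swap.K i = T.K (-i) := by
  simp only [K, swap_x, neg_add_one', neg_add_two', Set.union_comm]

theorem OK.swap (h : T.OK) : T.swap.OK where
  x_add i := h.x_add (-i)
  z_add i a b := by simp only [Tri.swap, neg_add, h.z_add]
  comm i a b := by
    simp only [Tri.swap, neg_add_one', neg_add_two']
    rw [h.comm', mul_comm a b]
  zx1 i c a := by simp only [Tri.swap, neg_add_one']; exact h.zx2 _ _ _
  zx2 i c a := by simp only [Tri.swap, neg_add_two']; exact h.zx1 _ _ _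
  inj i p p' e := by
    have key : ∀ p : F × F × F, T.swap.k i p = T.k (-i) (p.2.1, p.1, -p.2.2 - p.2.1 * p.1) := by
      intro p
      simp only [k, Tri.swap, neg_add_one', neg_add_two']
      rw [h.comm', mul_assoc _ (T.z _ _), ← h.z_add]
      congr 2
      ring
    rw [key, key] at e
    have := h.inj _ e
    simp only [Prod.mk.injEq] at this
    obtain ⟨h1, h2, h3⟩ := this
    rw [h1, h2, sub_left_inj, neg_inj] at h3
    exact Prod.ext h2 (Prod.ext h1 h3)
  gen := by
    rw [← h.gen]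
    congr 1
    exact (Equiv.neg (Fin 3)).surjective.iUnion_comp fun i => Set.range (T.x i)

end Tri

end Vale.Agent.P318.Q
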