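import Vale.Agent.P318.Q.Stmt

/-! Track Q: vertex masses are simulated by heavy cliques. -/

namespace Vale.Agent.P318.Q

open Vale.Agent.Lib.PolyTime Vale.Agent.Lib.PCP Finset
open scoped BigOperators Classical

noncomputable section

namespace Blow

variable {B : Type}

/-- the new vertices -/
def vs (I : WI B) : List (B × ℕ) := I.1.flatMap fun v => (List.range v.2.v).map fun i => (v.1, i)

/-- the weight of the edges from `p` to `q` -/
def wt (I : WI B) (p q : B × ℕ) : ℕ :=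
  (I.2.1.map fun e => if (p, q) = ((e.1, 0), (e.2.1, 0)) then e.2.2 else 0).sum

/-- the capacities -/
def cp (c : ℕ) (I : WI B) (p q : B × ℕ) : ℕ :=
  if p.1 = q.1 then (if p.2 = q.2 then 0 else c * (I.2.2.1 * ((vs I).length * (vs I).length)))
  else wt I p q + wt I q p

/-- the reduction -/
def red (c : ℕ) (I : WI B) : UI := ((vs I).map fun p => (vs I).map (cp c I p), I.2.2.1, I.2.2.2)

theorem pt_red [Enc B] [EncInj B] (c : ℕ) : PT ∅ (red (B := B) c) := by
  have h1 : PT ∅ (vs (B := B)) := PT.flatMap PT.fst' (PT.map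
    (PT.range PT.snd'.snd.unVal (PBd.unVal (A := ∅) PT.snd'.snd)) (PT.fst'.snd.fst.pair PT.snd'))
  have h2 : PT ∅ fun x : WI B × (B × ℕ) × (B × ℕ) => wt x.1 x.2.1 x.2.2 :=
    (PT.map PT.fst'.snd.fst (PT.ite (PT.eq PT.fst'.snd ((PT.snd'.fst.pair (PT.const 0)).pair
      (PT.snd'.snd.fst.pair (PT.const 0)))) PT.snd'.snd.snd (PT.const 0))).sum
  have h3 : PT ∅ fun x : (WI B × (B × ℕ)) × (B × ℕ) => cp c x.1.1 x.1.2 x.2 :=
    PT.ite (PT.eq PT.fst'.snd.fst PT.snd'.fst) (PT.ite (PT.eq PT.fst'.snd.snd PT.snd'.snd)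
      (PT.const 0) ((PT.const c).mul (PT.fst'.fst.snd.snd.fst.mul
        ((h1.comp PT.fst'.fst).length.mul (h1.comp PT.fst'.fst).length))))
      ((h2.comp (PT.fst'.fst.pair (PT.fst'.snd.pair PT.snd'))).add
        (h2.comp (PT.fst'.fst.pair (PT.snd'.pair PT.fst'.snd))))
  exact (PT.map h1 (PT.map (h1.comp PT.fst') h3)).pair (PT.snd'.snd.fst.pair PT.snd'.snd.snd)

variable {c : ℕ} {I : WI B}

theorem len : (red c I).1.length = (vs I).length := List.length_map _

theorem cp_symm (p q : B × ℕ) : cp c I p q = cp c I q p := by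
  simp only [cp, eq_comm (a := p.1), eq_comm (a := p.2), add_comm]

theorem ucap_eq (i j : ℕ) : ucap (red c I) i j =
    (((vs I)[i]?).bind fun p => ((vs I)[j]?).map (cp c I p)).getD 0 := by
  simp only [ucap, red, List.getD_eq_getElem?_getD, List.getElem?_map]
  cases (vs I)[i]? <;> simp

theorem mem_vs {p : B × ℕ} : p ∈ vs I ↔ ∃ v ∈ I.1, p.2 < v.2.v ∧ v.1 = p.1 := by
  obtain ⟨a, b⟩ := p
  simp only [vs, List.mem_flatMap, List.mem_map, List.mem_range, Prod.mk.injEq]
  exact ⟨fun ⟨v, h, i, h1, h2, h3⟩ => ⟨v, h, h3 ▸ h1, h2⟩,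
    fun ⟨v, h, h1, h2⟩ => ⟨v, h, b, h1, h2, rfl⟩⟩

theorem zero_mem (h : WWF I) {b : B} (hb : b ∈ I.1.map Prod.fst) : (b, 0) ∈ vs I := by
  obtain ⟨v, hv, rfl⟩ := List.mem_map.1 hb
  exact mem_vs.2 ⟨v, hv, h.pos v hv, rfl⟩

theorem nodup_vs (h : WWF I) : (vs I).Nodup := by
  refine List.nodup_flatMap.2 ⟨fun v _ => List.nodup_range.map fun _ _ e => (Prod.ext_iff.1 e).2,
    (List.pairwise_map.1 h.nodup).imp fun {v w} e => ?_⟩
  intro p h1 h2
  obtain ⟨_, -, rfl⟩ := List.mem_map.1 h1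
  obtain ⟨_, -, h3⟩ := List.mem_map.1 h2
  exact e (Prod.ext_iff.1 h3).1.symm

theorem cnt (S : B → Bool) (b : Bool) :
    ((vs I).map fun p => if S p.1 = b then 1 else 0).sum = wmass I S b := by
  unfold vs wmass
  induction I.1 with
  | nil => rfl
  | cons v l ih =>
    rw [List.flatMap_cons, List.map_append, List.sum_append, ih, List.map_cons, List.sum_cons,
      List.map_map]
    congr 1
    by_cases h : S v.1 = b <;> simp [Function.comp_def, h]

/-- the vertex with a given number -/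
def vx (c : ℕ) (I : WI B) (i : Fin (red c I).1.length) : B × ℕ := (vs I)[i.1]'(len ▸ i.2)

theorem sum_list (f : B × ℕ → ℕ) : ∑ i, f (vx c I i) = ((vs I).map f).sum := by
  rw [← Fin.sum_univ_fun_getElem]
  exact Fin.sum_congr' (fun i : Fin (vs I).length => f (vs I)[i.1]) len

theorem sum_vx (h : WWF I) (f : B × ℕ → ℕ) : ∑ i, f (vx c I i) = ∑ p ∈ (vs I).toFinset, f p := by
  rw [sum_list, List.sum_toFinset _ (nodup_vs h)]

theorem ucap_vx (i j) : ucap (red c I) i.1 j.1 = cp c I (vx c I i) (vx c I j) := by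
  rw [ucap_eq, List.getElem?_eq_getElem (len ▸ i.2), List.getElem?_eq_getElem (len ▸ j.2)]
  rfl

theorem uwf (h : WWF I) : UWF (red c I) := by
  refine ⟨?_, fun r hr => ?_, fun i j => ?_, fun i => ?_, h.a_pos, h.b_pos⟩
  · rw [len]
    refine h.two.trans ?_
    rw [← List.length_map (f := fun v : B × Un => (v.1, 0))]
    refine List.Subperm.length_le (List.subperm_of_subset ?_ fun p hp => ?_)
    · rw [show (fun v : B × Un => (v.1, 0)) = (fun b => (b, 0)) ∘ Prod.fst from rfl, ← List.map_map]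
      exact h.nodup.map fun _ _ e => (Prod.ext_iff.1 e).1
    · obtain ⟨v, hv, rfl⟩ := List.mem_map.1 hp
      exact zero_mem h (List.mem_map_of_mem hv)
  · obtain ⟨p, -, rfl⟩ := List.mem_map.1 hr
    rw [len, List.length_map]
  · rw [ucap_eq, ucap_eq]
    cases (vs I)[i]? <;> cases (vs I)[j]? <;> simp [cp_symm]
  · rw [ucap_eq]
    cases (vs I)[i]? <;> simp [cp]

/-- the pulled back cut -/
def pb (c : ℕ) (I : WI B) (S : B → Bool) : Finset (Fin (red c I).1.length) :=
  univ.filter fun i => S (vx c I i).1 = true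

theorem card_pb (S : B → Bool) : (pb c I S).card = wmass I S true ∧
    (red c I).1.length - (pb c I S).card = wmass I S false := by
  have h1 : (pb c I S).card = wmass I S true := by
    rw [pb, card_filter, sum_list (fun p => if S p.1 = true then 1 else 0), cnt]
  have h2 : (pb c I S)ᶜ.card = wmass I S false := by
    rw [pb, compl_filter, card_filter, ← cnt, ← sum_list (c := c)]
    simp
  rw [card_compl, Fintype.card_fin] at h2
  exact ⟨h1, h2⟩

theorem cut_pb (h : WWF I) (S : B → Bool) : ucut (red c I) (pb c I S) = wcut I S := by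
  have key : ∀ l : List (B × B × ℕ), (∀ e ∈ l, (e.1, 0) ∈ vs I ∧ (e.2.1, 0) ∈ vs I) →
      ∀ b : Bool, ∑ p ∈ (vs I).toFinset, ∑ q ∈ (vs I).toFinset,
        (if S p.1 = b ∧ S q.1 = !b then (l.map fun e =>
          if (p, q) = ((e.1, 0), (e.2.1, 0)) then e.2.2 else 0).sum else 0) =
      (l.map fun e => if S e.1 = b ∧ S e.2.1 = !b then e.2.2 else 0).sum := by
    intro l hl b
    induction l with
    | nil => simp
    | cons e l ih =>
      simp only [List.map_cons, List.sum_cons, ite_add_zero, sum_add_distrib,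
        ih fun e he => hl e (List.mem_cons_of_mem _ he)]
      obtain ⟨h1, h2⟩ := hl e List.mem_cons_self
      rw [sum_eq_single (e.1, 0) (fun p _ hp => by simp [hp]) (by simp [h1]),
        sum_eq_single (e.2.1, 0) (fun p _ hp => by simp [hp]) (by simp [h2])]
      simp
  have k := key I.2.1 fun e he => ⟨zero_mem h (h.ends e he).1, zero_mem h (h.ends e he).2⟩
  have e1 : ucut (red c I) (pb c I S) = ∑ p ∈ (vs I).toFinset, ∑ q ∈ (vs I).toFinset,
      ((if S p.1 = true ∧ S q.1 = !true then wt I p q else 0) +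
        if S q.1 = false ∧ S p.1 = !false then wt I q p else 0) := by
    rw [ucut, pb, compl_filter, sum_filter, ← sum_vx (c := c) h]
    refine sum_congr rfl fun i _ => ?_
    rw [sum_filter, ← sum_vx (c := c) h]
    simp only [ucap_vx]
    split_ifs with h1
    · refine sum_congr rfl fun j _ => ?_
      by_cases h2 : S (vx c I j).1 = true
      · simp [h2]
      · have h3 : (vx c I i).1 ≠ (vx c I j).1 := fun e => h2 (e ▸ h1)
        simp [h1, h2, cp, h3]
    · simp [h1]
  simp only [e1, sum_add_distrib]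
  rw [sum_comm (f := fun p q : B × ℕ => if S q.1 = false ∧ S p.1 = !false then wt I q p else 0)]
  simp only [wt, k true, k false, wcut, ← List.sum_map_add]
  refine congrArg List.sum (List.map_congr_left fun e _ => ?_)
  cases S e.1 <;> cases S e.2.1 <;> simp

end Blow

open Blow

theorem blow_proof : BlowStmt := by
  intro B _ _ C hC
  refine ⟨red ⌈C⌉₊, pt_red _, fun I ⟨h, S, h1, h2, h3⟩ => ⟨uwf h, pb _ I S, ?_, ?_, ?_⟩,
    fun I ⟨h, H⟩ => ⟨uwf h, fun S h1 h2 => ?_⟩⟩
  · rwa [← card_pos, (card_pb S).1]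
  · intro e
    rw [← (card_pb (c := ⌈C⌉₊) S).2, e, card_univ, Fintype.card_fin, Nat.sub_self] at h2
    exact h2.false
  · rw [cut_pb h, (card_pb S).2, (card_pb S).1]
    exact h3
  by_cases hc : ∃ i ∈ S, ∃ j ∈ Sᶜ, (vx _ I i).1 = (vx _ I j).1
  · obtain ⟨i, hi, j, hj, e⟩ := hc
    have e2 : (vx _ I i).2 ≠ (vx _ I j).2 := fun e2 => mem_compl.1 hj (by
      rwa [← Fin.ext ((nodup_vs h).getElem_inj_iff.1 (Prod.ext e e2))])
    have k1 : ucap (red ⌈C⌉₊ I) i j ≤ ucut (red ⌈C⌉₊ I) S :=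
      (single_le_sum (f := fun j : Fin _ => ucap (red ⌈C⌉₊ I) i j.1) (fun _ _ => Nat.zero_le _)
        hj).trans (single_le_sum (f := fun i : Fin _ => ∑ j ∈ Sᶜ, ucap (red ⌈C⌉₊ I) i.1 j.1)
        (fun _ _ => Nat.zero_le _) hi)
    rw [ucap_vx, cp, if_pos e, if_neg e2, ← len (c := ⌈C⌉₊)] at k1
    refine (mul_le_mul_of_nonneg_right (Nat.le_ceil C) (Nat.cast_nonneg _)).trans ?_
    rw [← Nat.cast_mul, Nat.cast_le]
    refine le_trans ?_ (k1.trans (Nat.le_mul_of_pos_right _ h.b_pos))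
    exact Nat.mul_le_mul_left _ (Nat.mul_le_mul_left _ (Nat.mul_le_mul
      ((card_le_univ S).trans_eq (Fintype.card_fin _)) (Nat.sub_le _ _)))
  · have e : S = pb _ I fun b => decide (∃ i ∈ S, (vx _ I i).1 = b) := by
      ext j
      simp only [Blow.pb, mem_filter, mem_univ, true_and, decide_eq_true_eq]
      exact ⟨fun hj => ⟨j, hj, rfl⟩, fun ⟨i, hi, e⟩ => by_contra fun hj =>
        hc ⟨i, hi, j, mem_compl.2 hj, e⟩⟩
    have k1 := card_pos.2 h1
    have k2 := Nat.sub_pos_of_lt ((card_lt_card (ssubset_univ_iff.2 h2)).trans_eq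
      (Fintype.card_fin _))
    rw [e] at k1 k2 ⊢
    rw [(card_pb _).1] at k1
    rw [(card_pb _).2] at k2
    rw [cut_pb h, (card_pb _).2, (card_pb _).1]
    exact H _ k1 k2

end

end Vale.Agent.P318.Q
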