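import Mathlib.Algebra.BigOperators.Expect
import Mathlib.Algebra.Polynomial.AlgebraMap
import Mathlib.FieldTheory.Finite.Trace
import Mathlib.LinearAlgebra.Matrix.SpecialLinearGroup
import Vale.Agent.Lib.PCP.Defs

/-!
Track Q (APX-hardness of uniform sparsest cut): all definitions.
-/

namespace Vale.Agent.P318.Q

open Vale.Agent.Lib.PolyTime Vale.Agent.Lib.PCP Finset
open scoped BigOperators Classical

noncomputable section

/-! ### Low degree functions, root subgroup systems -/

/-- `φ` is given by a polynomial of degree at most `l`. -/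
def Deg {F : Type} [Field F] (l : ℕ) (φ : F → F) : Prop :=
  ∃ p : Polynomial F, p.natDegree ≤ l ∧ ∀ a, φ a = p.eval a

/-- Uniform probability. -/
def pr {G : Type} [Fintype G] (P : G → Prop) : ℝ := 𝔼 g, if P g then (1 : ℝ) else 0

/-- Three root subgroups `x i` and the centres `z i` of the Heisenberg groups generated by
`x (i + 1)` and `x (i + 2)`. -/
structure Tri (F G : Type) where
  /-- root subgroups -/
  x : Fin 3 → F → G
  /-- centres -/
  z : Fin 3 → F → G

namespace Tri

variable {F G : Type} [Field F] [Group G] (T : Tri F G)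

/-- Parametrisation of the Heisenberg group number `i`. -/
def k (i : Fin 3) (p : F × F × F) : G := T.x (i + 1) p.1 * T.x (i + 2) p.2.1 * T.z i p.2.2

/-- The Heisenberg group number `i`. -/
def K (i : Fin 3) : Subgroup G :=
  Subgroup.closure (Set.range (T.x (i + 1)) ∪ Set.range (T.x (i + 2)))

/-- The relations, faithfulness of the Heisenberg groups, and generation. -/
structure OK : Prop where
  x_add : ∀ i a b, T.x i (a + b) = T.x i a * T.x i b
  z_add : ∀ i a b, T.z i (a + b) = T.z i a * T.z i b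
  comm : ∀ i a b, T.x (i + 1) a * T.x (i + 2) b = T.x (i + 2) b * T.x (i + 1) a * T.z i (a * b)
  zx1 : ∀ i c a, T.z i c * T.x (i + 1) a = T.x (i + 1) a * T.z i c
  zx2 : ∀ i c a, T.z i c * T.x (i + 2) a = T.x (i + 2) a * T.z i c
  inj : ∀ i, Function.Injective (T.k i)
  gen : Subgroup.closure (⋃ i, Set.range (T.x i)) = ⊤

/-- Invariance under the root subgroup `i` acting on the right. -/
def Inv {β : Type} (i : Fin 3) (f : G → β) : Prop := ∀ g a, f (g * T.x i a) = f g

/-- Invariance under the Heisenberg group `i` acting on the right. -/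
def InvK {β : Type} (i : Fin 3) (f : G → β) : Prop := ∀ g, ∀ u ∈ T.K i, f (g * u) = f g

/-- Average over a coset of the root subgroup `i`. -/
def PX [Fintype F] (i : Fin 3) (f : G → ℝ) (g : G) : ℝ := 𝔼 a, f (g * T.x i a)

/-- Average over a coset of the Heisenberg group `i`. -/
def PK [Fintype G] (i : Fin 3) (f : G → ℝ) (g : G) : ℝ := 𝔼 u : T.K i, f (g * u)

/-- Codewords of level `l`: functions of points (cosets of `K 0`) of degree at most `l` on all
lines (cosets of `x 0`). -/
def Cw (l : ℕ) (f : G → F) : Prop :=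
  T.Inv 1 f ∧ T.Inv 2 f ∧ ∀ g, Deg l fun a => f (g * T.x 0 a)

/-- `f` looks like a codeword on the two planes through `g`. -/
def Loc (l : ℕ) (f : G → F) (g : G) : Prop :=
  (∀ u ∈ T.K 1, (∀ a, f (g * u * T.x 2 a) = f (g * u)) ∧ Deg l fun a => f (g * u * T.x 0 a)) ∧
  (∀ u ∈ T.K 2, (∀ a, f (g * u * T.x 1 a) = f (g * u)) ∧ Deg l fun a => f (g * u * T.x 0 a))

/-- The nine positions of a main check. -/
def mvR (s : Fin 9 → F) (d : (F × F) × (Fin 9 → F × F × F)) (i : Fin 9) : G :=
  T.x 0 (d.1.1 + d.1.2 * s i) * T.k 0 (d.2 i)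

/-- A biorthogonal system of codewords of level one, with respect to the left action of `h`. -/
structure ThOK (N : ℕ) (h : G) (o : ℕ) (Φ Ψ : ℕ → G → F) : Prop where
  cwΦ : ∀ n, T.Cw 1 (Φ n)
  cwΨ : ∀ n, T.Cw 1 (Ψ n)
  pow : h ^ o = 1
  odd : (o : F) ≠ 0
  orth : ∀ n < N, ∀ n' < N, n ≠ n' → ∀ g,
    ∑ e ∈ range o, Ψ n (h ^ e * g) * Φ n' (h ^ e * g) = 0
  norm : ∀ n < N, ∑ e ∈ range o, Ψ n (h ^ e) * Φ n (h ^ e) = 1

end Tri

/-- The diagonal system in a product of three groups. -/
def piTri {F G : Type} (T : Fin 3 → Tri F G) : Tri F (Fin 3 → G) :=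
  ⟨fun i a j => (T j).x i a, fun i a j => (T j).z i a⟩

/-! ### The special linear group and theta functions -/

section SL

variable (F : Type) {K : Type} [Field F] [Field K] [Algebra F K]

/-- `SL(3, K)`. -/
abbrev SL3 (K : Type) [Field K] : Type := Matrix.SpecialLinearGroup (Fin 3) K

theorem fin3_ne_add_two (i : Fin 3) : i + 2 ≠ i := by revert i; decide

/-- The root subgroups `x31(a t)`, `x12(a)`, `x23(a)` and the centres `x13(c)`, `x21(c t)`,
`x32(c t)`. -/
def slTri (t : K) : Tri F (SL3 K) where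
  x i a := Matrix.SpecialLinearGroup.transvection (fin3_ne_add_two i)
    (algebraMap F K a * if i = 0 then t else 1)
  z i c := Matrix.SpecialLinearGroup.transvection (fin3_ne_add_two i).symm
    (algebraMap F K c * if i = 0 then 1 else t)

/-- The torus element `diag(γ, γ⁻¹, 1)`. -/
def torus (γ : K) (hγ : γ ≠ 0) : SL3 K :=
  Matrix.SpecialLinearGroup.diag2n (show (0 : Fin 3) ≠ 1 by decide) γ hγ

/-- The Frobenius exponent of the row `(i, r)`. -/
def rowExp (n : ℕ) (fl : Bool) (i : Fin 3) (r : ℕ) : ℕ :=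
  if i = 0 then 2 * r + (Bool.xor (n.testBit r) fl).toNat
  else if i = 1 then 2 * r + (!Bool.xor (n.testBit r) fl).toNat else r

/-- The matrix whose determinant is a theta function. -/
def thMat (q : ℕ) (t : K) (m n : ℕ) (fl : Bool) (g : Matrix (Fin 3) (Fin 3) K) :
    Matrix (Fin 3 × Fin m) (Fin 3 × Fin m) K :=
  fun u v => (t ^ (v.2 : ℕ) * g u.1 v.1) ^ q ^ rowExp n fl u.1 u.2

/-- Theta functions with values in `K`. -/
def th (q : ℕ) (t : K) (m n : ℕ) (fl : Bool) (g : Matrix (Fin 3) (Fin 3) K) : K :=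
  (thMat q t m n fl g).det

/-- Theta functions with values in `F`. -/
def thΦ [Fintype F] (t : K) (m n : ℕ) (g : SL3 K) : F :=
  Algebra.trace F K (th (Fintype.card F) t m n false g.1)

/-- The dual theta functions. -/
def thΨ [Fintype F] (t : K) (m n : ℕ) (g : SL3 K) : F :=
  Algebra.trace F K ((th (Fintype.card F) t m n false 1 * th (Fintype.card F) t m n true 1)⁻¹ *
    th (Fintype.card F) t m n true g.1)

/-- The conjugates `t ^ q ^ k`, `k < R`, are distinct. -/
def ConjInj [Fintype F] (R : ℕ) (t : K) : Prop :=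
  ∀ k < R, ∀ k' < R, t ^ Fintype.card F ^ k = t ^ Fintype.card F ^ k' → k = k'

/-- Every triple is of the form `t p(t)` for one polynomial `p` over `F`. -/
def Gen3 (t : Fin 3 → K) : Prop :=
  ∀ r : Fin 3 → K, ∃ p : Polynomial F, ∀ j, r j = t j * Polynomial.aeval (t j) p

end SL

/-! ### The constraint system on the product of three groups -/

/-- The seven tables: three clause colours, two variable values, two slack tables. -/
abbrev Tb : Type := Fin 3 ⊕ Bool ⊕ Bool

/-- The neighbours read by a constraint. -/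
abbrev Nb (F : Type) : Type :=
  (Bool × (F × F × F) × Fin 3 × F) ⊕ (Fin 3 × Fin 3 × F) ⊕ Option Bool

/-- The known coefficients of a constraint. -/
abbrev Cf (F : Type) : Type := F × F × (Fin 3 × Bool → F)

/-- The literal number `c` of the clause number `i`. -/
def lit (φ : CNF) (i : ℕ) (c : Fin 3) : Lit :=
  let cl := φ.getD i ((0, false), (0, false), (0, false))
  if c = 0 then cl.1 else if c = 1 then cl.2.1 else cl.2.2

/-- The position of the first occurrence of a variable. -/
def vidx (φ : CNF) (v : ℕ) : ℕ := (φ.flatMap fun c => [c.1.1, c.2.1.1, c.2.2.1]).idxOf v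

section CSP

variable {F G : Type} [Field F] [Group G]

/-- Left factors of the neighbours. -/
def nbL (T : Fin 3 → Tri F G) (h : G) : Nb F → Fin 3 → G
  | Sum.inl _ => 1
  | Sum.inr (Sum.inl p) => Pi.mulSingle p.1 ((T p.1).x p.2.1 p.2.2)
  | Sum.inr (Sum.inr none) => 1
  | Sum.inr (Sum.inr (some b)) => Pi.mulSingle (if b then 1 else 0) h

/-- Right factors of the neighbours. -/
def nbR (T : Fin 3 → Tri F G) : Nb F → Fin 3 → G
  | Sum.inl p => (piTri T).k (if p.1 then 2 else 1) p.2.1 * (piTri T).x p.2.2.1 p.2.2.2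
  | Sum.inr _ => 1

/-- The coefficients at `g`. -/
def cf (φ : CNF) (N : ℕ) (Φ Ψ : Fin 3 → ℕ → G → F) (g : Fin 3 → G) : Cf F :=
  (∑ n ∈ range N, Φ 0 n (g 0), ∑ n ∈ range N, Φ 1 n (g 1), fun cb =>
    ∑ i ∈ range φ.length, if (lit φ i cb.1).2 = !cb.2 then
      Φ 2 (3 * i + cb.1) (g 2) * Ψ 0 i (g 0) * Ψ 1 (vidx φ (lit φ i cb.1).1) (g 1) else 0)

/-- The constraint with coefficients `c` on the values `v` read at the neighbours. -/
def pred (c : Cf F) (v : Nb F → Tb → F) : Prop :=
  (∀ t p, (∀ a, v (Sum.inl (false, p, 2, a)) t = v (Sum.inl (false, p, 2, 0)) t) ∧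
    Deg 5 fun a => v (Sum.inl (false, p, 0, a)) t) ∧
  (∀ t p, (∀ a, v (Sum.inl (true, p, 1, a)) t = v (Sum.inl (true, p, 1, 0)) t) ∧
    Deg 5 fun a => v (Sum.inl (true, p, 0, a)) t) ∧
  (∀ col j i a, j ≠ 0 →
    v (Sum.inr (Sum.inl (j, i, a))) (Sum.inl col) = v (Sum.inr (Sum.inr none)) (Sum.inl col)) ∧
  (∀ b j i a, j ≠ 1 → v (Sum.inr (Sum.inl (j, i, a))) (Sum.inr (Sum.inl b)) =
    v (Sum.inr (Sum.inr none)) (Sum.inr (Sum.inl b))) ∧
  ∑ col, v (Sum.inr (Sum.inr none)) (Sum.inl col) = c.1 ∧
  ∑ b, v (Sum.inr (Sum.inr none)) (Sum.inr (Sum.inl b)) = c.2.1 ∧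
  ∑ cb : Fin 3 × Bool, c.2.2 cb * v (Sum.inr (Sum.inr none)) (Sum.inl cb.1) *
      v (Sum.inr (Sum.inr none)) (Sum.inr (Sum.inl cb.2)) =
    ∑ b, (v (Sum.inr (Sum.inr (some b))) (Sum.inr (Sum.inr b)) -
      v (Sum.inr (Sum.inr none)) (Sum.inr (Sum.inr b)))

/-- The assignment `f` satisfies the constraint at `g`. -/
def okAt (φ : CNF) (N : ℕ) (T : Fin 3 → Tri F G) (h : G) (Φ Ψ : Fin 3 → ℕ → G → F)
    (f : (Fin 3 → G) → Tb → F) (g : Fin 3 → G) : Prop :=
  pred (cf φ N Φ Ψ g) fun e => f (nbL T h e * g * nbR T e)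

end CSP

/-! ### Constraint systems with expanding parity checks -/

/-- Vertices `V`; nine positions for each main check `d`; neighbours and constraints. -/
structure SG (X D E M : Type) where
  /-- the vertices -/
  V : List X
  /-- the positions of the main checks -/
  mv : D → Fin 9 → X → X
  /-- the neighbours read by the constraints -/
  nb : E → X → X
  /-- the constraints -/
  con : X → (E → M) → Bool

/-- A binary code for the alphabet `M`, with nine positions for each main check. -/
structure Had (M A D' : Type) where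
  /-- the bits of a symbol -/
  bit : A → M → Bool
  /-- the bits read by a main check -/
  al : D' → Fin 9 → A

/-- The code is injective and the positions are pairwise independent and uniform. -/
structure Had.OK {M A D' : Type} [Fintype A] [Fintype D'] (H : Had M A D') : Prop where
  sep : ∀ v w, (∀ a, H.bit a v = H.bit a w) → v = w
  pair : ∀ i k, i ≠ k → ∀ e e' : A → ℝ,
    𝔼 d, e (H.al d i) * e' (H.al d k) = (𝔼 a, e a) * 𝔼 a, e' a

/-- The parity check `d` holds for the nine symbols `v`. -/
def Had.even {M A D' : Type} (H : Had M A D') (d : D') (v : Fin 9 → M) : Prop :=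
  Even (univ.filter fun i => H.bit (H.al d i) (v i) = true).card

namespace SG

variable {X D E M : Type} (S : SG X D E M)

/-- All moves permute the vertices, and pairs of positions of main checks expand. -/
structure WF [Fintype D] (lam : ℝ) : Prop where
  nodup : S.V.Nodup
  ne : S.V ≠ []
  mv_bij : ∀ d i, Set.BijOn (S.mv d i) {x | x ∈ S.V} {x | x ∈ S.V}
  nb_bij : ∀ e, Set.BijOn (S.nb e) {x | x ∈ S.V} {x | x ∈ S.V}
  exp : ∀ i k, i ≠ k → ∀ e : X → ℝ,
    𝔼 x ∈ S.V.toFinset, 𝔼 d, e (S.mv d i x) * e (S.mv d k x) ≤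
      (𝔼 x ∈ S.V.toFinset, e x) ^ 2 + lam * 𝔼 x ∈ S.V.toFinset, e x ^ 2

/-- Some assignment satisfies all constraints and all parity checks. -/
def Yes {A D' : Type} (H : Had M A D') : Prop :=
  ∃ f : X → M, (∀ x ∈ S.V, S.con x (fun e => f (S.nb e x)) = true) ∧
    ∀ x ∈ S.V, ∀ d d', H.even d' fun i => f (S.mv d i x)

/-- Every assignment violates an `ε` fraction of the constraints. -/
def No (ε : ℝ) : Prop :=
  ∀ f : X → M, ε * S.V.length ≤ (S.V.countP fun x => !S.con x fun e => f (S.nb e x) : ℕ)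

/-- A family of systems is computable in polynomial time. -/
structure IsPT [Enc X] [Fintype E] [Fintype M] {α : Type} [Enc α] (Fm : α → SG X D E M) :
    Prop where
  V : PT ∅ fun a => (Fm a).V
  mv : ∀ d i, PT ∅ fun p : α × X => (Fm p.1).mv d i p.2
  nb : ∀ e, PT ∅ fun p : α × X => (Fm p.1).nb e p.2
  con : ∀ v, PT ∅ fun p : α × X => (Fm p.1).con p.2 v

end SG

/-! ### Sparsest cut with vertex masses, and uniform sparsest cut -/

/-- Vertices with masses, weighted edges, and a threshold `a / b`. -/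
abbrev WI (B : Type) : Type := List (B × Un) × List (B × B × ℕ) × ℕ × ℕ

/-- The mass of the side `b` of the cut `S`. -/
def wmass {B : Type} (I : WI B) (S : B → Bool) (b : Bool) : ℕ :=
  (I.1.map fun v => if S v.1 = b then v.2.v else 0).sum

/-- The weight of the cut `S`. -/
def wcut {B : Type} (I : WI B) (S : B → Bool) : ℕ :=
  (I.2.1.map fun e => if S e.1 = S e.2.1 then 0 else e.2.2).sum

/-- Well formed instances. -/
structure WWF {B : Type} (I : WI B) : Prop where
  nodup : (I.1.map Prod.fst).Nodup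
  two : 2 ≤ I.1.length
  pos : ∀ v ∈ I.1, 0 < v.2.v
  ends : ∀ e ∈ I.2.1, e.1 ∈ I.1.map Prod.fst ∧ e.2.1 ∈ I.1.map Prod.fst
  a_pos : 0 < I.2.2.1
  b_pos : 0 < I.2.2.2

/-- The gap problem for sparsest cut with product demands. -/
def WSC (B : Type) (C : ℝ) : Promise (WI B) where
  yes I := WWF I ∧ ∃ S, 0 < wmass I S true ∧ 0 < wmass I S false ∧
    wcut I S * I.2.2.2 ≤ I.2.2.1 * (wmass I S true * wmass I S false)
  no I := WWF I ∧ ∀ S, 0 < wmass I S true → 0 < wmass I S false →
    C * (I.2.2.1 * (wmass I S true * wmass I S false) : ℕ) ≤ (wcut I S * I.2.2.2 : ℕ)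

/-- A matrix of capacities and a threshold `a / b`. -/
abbrev UI : Type := List (List ℕ) × ℕ × ℕ

/-- The capacity between `i` and `j`. -/
def ucap (I : UI) (i j : ℕ) : ℕ := (I.1.getD i []).getD j 0

/-- The weight of the cut `S`. -/
def ucut (I : UI) (S : Finset (Fin I.1.length)) : ℕ := ∑ i ∈ S, ∑ j ∈ Sᶜ, ucap I i j

/-- Well formed instances. -/
structure UWF (I : UI) : Prop where
  two : 2 ≤ I.1.length
  row : ∀ r ∈ I.1, r.length = I.1.length
  symm : ∀ i j, ucap I i j = ucap I j i
  diag : ∀ i, ucap I i i = 0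
  a_pos : 0 < I.2.1
  b_pos : 0 < I.2.2

/-- The gap problem for uniform sparsest cut. -/
def USC (C : ℝ) : Promise UI where
  yes I := UWF I ∧ ∃ S : Finset (Fin I.1.length), S.Nonempty ∧ S ≠ univ ∧
    ucut I S * I.2.2 ≤ I.2.1 * (S.card * (I.1.length - S.card))
  no I := UWF I ∧ ∀ S : Finset (Fin I.1.length), S.Nonempty → S ≠ univ →
    C * (I.2.1 * (S.card * (I.1.length - S.card)) : ℕ) ≤ (ucut I S * I.2.2 : ℕ)

/-! ### The gadget -/

section Gad

/-- Literals, the two anchors, main Steiner vertices, small Steiner vertices. -/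
abbrev Bv (X D E A D' : Type) : Type :=
  (X × A × Bool) ⊕ Bool ⊕ (X × D × D' × (Fin 9 → Bool) × Fin 4) ⊕ (X × (E × A → Bool))

variable {X D E M A D' : Type} [Fintype D] [Fintype E] [Fintype A] [Fintype D']

/-- The anchor to which a main Steiner vertex is joined. -/
def anc (ε : Fin 9 → Bool) (j : Fin 4) : Bool :=
  if Even (univ.filter fun i => ε i = true).card then decide (2 ≤ (j : ℕ))
  else decide ((j : ℕ) < 2)

/-- The weight of the anchor edge of a main Steiner vertex. -/
def mag (j : Fin 4) : ℕ := ![7, 3, 1, 5] j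

/-- The bit pattern `σ` encodes symbols which satisfy the constraint `c`. -/
def acc (H : Had M A D') (c : (E → M) → Bool) (σ : E × A → Bool) : Prop :=
  ∃ v : E → M, (∀ e a, σ (e, a) = H.bit a (v e)) ∧ c v = true

/-- The literals. -/
def gLits (S : SG X D E M) : List (X × A × Bool) :=
  S.V.flatMap fun x => (univ : Finset (A × Bool)).toList.map fun p => (x, p)

/-- The main Steiner vertices. -/
def gMain (S : SG X D E M) : List (X × D × D' × (Fin 9 → Bool) × Fin 4) :=
  S.V.flatMap fun x => (univ : Finset (D × D' × (Fin 9 → Bool) × Fin 4)).toList.map fun p => (x, p)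

/-- The small Steiner vertices. -/
def gSmall (S : SG X D E M) : List (X × (E × A → Bool)) :=
  S.V.flatMap fun x => (univ : Finset (E × A → Bool)).toList.map fun p => (x, p)

/-- The vertices with their masses. -/
def gVerts (W : ℕ) (S : SG X D E M) : List (Bv X D E A D' × Un) :=
  (gLits S).map (fun l => (Sum.inl l, Un.mk W)) ++
  [(Sum.inr (Sum.inl true), Un.mk (2 * (S.V.length * Fintype.card A) * W)),
    (Sum.inr (Sum.inl false), Un.mk (2 * (S.V.length * Fintype.card A) * W))] ++
  (gMain S).map (fun w => (Sum.inr (Sum.inr (Sum.inl w)), Un.mk 1)) ++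
  (gSmall S).map (fun w => (Sum.inr (Sum.inr (Sum.inr w)), Un.mk 1))

/-- The edges. -/
def gEdges (am ak : ℕ) (H : Had M A D') (S : SG X D E M) :
    List (Bv X D E A D' × Bv X D E A D' × ℕ) :=
  (gLits S).flatMap (fun l => [(Sum.inl l, Sum.inr (Sum.inl true), ak),
    (Sum.inl l, Sum.inr (Sum.inl false), ak)]) ++
  (gMain S).flatMap (fun w =>
    (Sum.inr (Sum.inr (Sum.inl w)), Sum.inr (Sum.inl (anc w.2.2.2.1 w.2.2.2.2)),
      mag w.2.2.2.2 * am) ::
    (List.finRange 9).map fun i => (Sum.inr (Sum.inr (Sum.inl w)),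
      Sum.inl (S.mv w.2.1 i w.1, H.al w.2.2.1 i, w.2.2.2.1 i), am)) ++
  (gSmall S).flatMap (fun w =>
    (Sum.inr (Sum.inr (Sum.inr w)), Sum.inr (Sum.inl false),
      Fintype.card (E × A) - if acc H (S.con w.1) w.2 then 1 else 0) ::
    (univ : Finset (E × A)).toList.map fun p => (Sum.inr (Sum.inr (Sum.inr w)),
      Sum.inl (S.nb p.1 w.1, p.2, w.2 p), 1))

/-- The instance of sparsest cut with vertex masses; the threshold is the cost of an honest cut
divided by the square of the mass of literals and anchor on one side. -/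
def gad (am ak W : ℕ) (H : Had M A D') (S : SG X D E M) : WI (Bv X D E A D') :=
  (gVerts W S, gEdges am ak H S,
    S.V.length * (2 * Fintype.card A * ak + am * (Fintype.card D * Fintype.card D' * (128 * 67)) +
      (Fintype.card (E × A) * 2 ^ (Fintype.card (E × A) - 1) - 1)),
    (3 * (S.V.length * Fintype.card A) * W) ^ 2)

end Gad

/-! ### Arithmetic on codes -/

section Code

variable {F : Type} [Field F] [Fintype F]

/-- The value of a list of coefficients. -/
def kdec {K : Type} [Field K] [Algebra F K] (τ : K) (l : List F) : K :=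
  l.foldr (fun a r => algebraMap F K a + τ * r) 0

/-- Sum. -/
def kadd (x y : List F) : List F := List.zipWith (· + ·) x y

/-- Scalar multiple. -/
def ksmul (a : F) (x : List F) : List F := x.map fun b => a * b

/-- Multiplication by `τ`, where `τ ^ R = ω`. -/
def kshift (ω : F) (x : List F) : List F := (ω * x.getLastD 0) :: x.dropLast

/-- Product. -/
def kmul (ω : F) (x y : List F) : List F :=
  x.foldr (fun a r => kadd (ksmul a y) (kshift ω r)) (ksmul 0 y)

/-- Constants. -/
def kconst (R : ℕ) (a : F) : List F := a :: List.replicate (R - 1) 0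

/-- The element `τ + c`. -/
def ktau (R : ℕ) (c : F) : List F := c :: 1 :: List.replicate (R - 2) 0

/-- Powers. -/
def kpow (ω : F) (R : ℕ) (x : List F) (e : ℕ) : List F := (kmul ω x)^[e] (kconst R 1)

/-- Iterated Frobenius. -/
def kfrob (ω : F) (R : ℕ) (x : List F) (k : ℕ) : List F :=
  (fun y => kpow ω R y (Fintype.card F))^[k] x

/-- Sum of a list. -/
def ksum (R : ℕ) (l : List (List F)) : List F := l.foldr kadd (kconst R 0)

/-- Product of a list. -/
def kprod (ω : F) (R : ℕ) (l : List (List F)) : List F := l.foldr (kmul ω) (kconst R 1)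

/-- All lists of length `R`. -/
def allK (F : Type) [Fintype F] (R : ℕ) : List (List F) :=
  (fun L : List (List F) => L.flatMap fun l => (univ : Finset F).toList.map fun a => a :: l)^[R]
    [[]]

/-- Inverse. -/
def kinv (ω : F) (R : ℕ) (x : List F) : List F :=
  ((allK F R).find? fun y => decide (kmul ω x y = kconst R 1)).getD (kconst R 0)

/-- A generator of the multiplicative group. -/
def kgen (ω : F) (R : ℕ) : List F :=
  ((allK F R).find? fun y => !decide (y = kconst R 0) &&
    (List.range (Fintype.card F ^ R - 1)).all fun e =>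
      decide (e = 0) || !decide (kpow ω R y e = kconst R 1)).getD (kconst R 0)

/-- Trace. -/
def ktr (ω : F) (R : ℕ) (x : List F) : F :=
  (ksum R ((List.range R).map fun k => kfrob ω R x k)).headD 0

/-- Codes of matrices. -/
abbrev MC (F : Type) : Type := Fin 3 → Fin 3 → List F

/-- Codes of triples of matrices. -/
abbrev XC (F : Type) : Type := Fin 3 → MC F

/-- The matrix given by a code. -/
def mdec {K : Type} [Field K] [Algebra F K] (τ : K) (x : MC F) : Matrix (Fin 3) (Fin 3) K :=
  Matrix.of fun u v => kdec τ (x u v)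

/-- Product of matrices. -/
def mmul (ω : F) (x y : MC F) : MC F := fun u v =>
  kadd (kadd (kmul ω (x u 0) (y 0 v)) (kmul ω (x u 1) (y 1 v))) (kmul ω (x u 2) (y 2 v))

/-- Determinant (characteristic two). -/
def mdet (ω : F) (x : MC F) : List F :=
  kadd (kadd
    (kmul ω (x 0 0) (kadd (kmul ω (x 1 1) (x 2 2)) (kmul ω (x 1 2) (x 2 1))))
    (kmul ω (x 0 1) (kadd (kmul ω (x 1 0) (x 2 2)) (kmul ω (x 1 2) (x 2 0)))))
    (kmul ω (x 0 2) (kadd (kmul ω (x 1 0) (x 2 1)) (kmul ω (x 1 1) (x 2 0))))

/-- All triples of elements of a list. -/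
def tri3 {β : Type} (L : List β) : List (Fin 3 → β) :=
  L.flatMap fun a => L.flatMap fun b => L.map fun c => ![a, b, c]

/-- All matrices of determinant one. -/
def allM (ω : F) (R : ℕ) : List (MC F) :=
  (tri3 (tri3 (allK F R))).filter fun x => decide (mdet ω x = kconst R 1)

/-- All triples of matrices of determinant one. -/
def allX (ω : F) (R : ℕ) : List (XC F) := tri3 (allM ω R)

/-- Product of triples. -/
def xmul (ω : F) (x y : XC F) : XC F := fun j => mmul ω (x j) (y j)

/-- The identity matrix. -/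
def mone (R : ℕ) : MC F := fun u v => kconst R (if u = v then 1 else 0)

/-- The transvection with the entry `y` in position `(i, j)`. -/
def mtv (R : ℕ) (i j : Fin 3) (y : List F) : MC F := fun u v =>
  if u = i ∧ v = j then y else kconst R (if u = v then 1 else 0)

/-- Codes of the root elements for `t = τ + c`. -/
def cTri (R : ℕ) (c : F) : Tri F (MC F) where
  x i a := mtv R (i + 2) i (if i = 0 then ksmul a (ktau R c) else kconst R a)
  z i a := mtv R i (i + 2) (if i = 0 then kconst R a else ksmul a (ktau R c))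

/-- The code of the torus element. -/
def mtor (ω : F) (R : ℕ) : MC F := fun u v =>
  if u = v then (if u = 0 then kgen ω R else if u = 1 then kinv ω R (kgen ω R) else kconst R 1)
  else kconst R 0

/-- The code of `k i p`. -/
def xk (ω : F) (R : ℕ) (c : Fin 3 → F) (i : Fin 3) (p : F × F × F) : XC F := fun j =>
  mmul ω (mmul ω ((cTri R (c j)).x (i + 1) p.1) ((cTri R (c j)).x (i + 2) p.2.1))
    ((cTri R (c j)).z i p.2.2)

/-- The code of `nbL`. -/
def nbLc (ω : F) (R : ℕ) (c : Fin 3 → F) : Nb F → XC F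
  | Sum.inl _ => fun _ => mone R
  | Sum.inr (Sum.inl p) => fun j => if j = p.1 then (cTri R (c j)).x p.2.1 p.2.2 else mone R
  | Sum.inr (Sum.inr none) => fun _ => mone R
  | Sum.inr (Sum.inr (some b)) => fun j => if j = (if b then 1 else 0) then mtor ω R else mone R

/-- The code of `nbR`. -/
def nbRc (ω : F) (R : ℕ) (c : Fin 3 → F) : Nb F → XC F
  | Sum.inl p => xmul ω (xk ω R c (if p.1 then 2 else 1) p.2.1)
      fun j => (cTri R (c j)).x p.2.2.1 p.2.2.2
  | Sum.inr _ => fun _ => mone R

/-- The code of `mvR`. -/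
def mvRc (ω : F) (R : ℕ) (c : Fin 3 → F) (s : Fin 9 → F) (d : (F × F) × (Fin 9 → F × F × F))
    (i : Fin 9) : XC F :=
  xmul ω (fun j => (cTri R (c j)).x 0 (d.1.1 + d.1.2 * s i)) (xk ω R c 0 (d.2 i))

/-- The index set of the rows and of the columns. -/
def idx3 (m : ℕ) : List (Fin 3 × ℕ) :=
  (List.finRange 3).flatMap fun i => (List.range m).map fun r => (i, r)

/-- The theta function by the formula of Ryser (characteristic two): the sum over all sets of
columns of the product of the row sums. -/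
def thc (ω : F) (R : ℕ) (c : F) (m n : ℕ) (fl : Bool) (x : MC F) : List F :=
  ksum R ((List.range (2 ^ (3 * m))).map fun w =>
    kprod ω R ((idx3 m).map fun u =>
      ksum R (((idx3 m).filter fun v => w.testBit (v.1 * m + v.2)).map fun v =>
        kfrob ω R (kmul ω (kpow ω R (ktau R c) v.2) (x u.1 v.1)) (rowExp n fl u.1 u.2))))

/-- The code level version of `thΦ`. -/
def thΦc (ω : F) (R : ℕ) (c : F) (m n : ℕ) (x : MC F) : F := ktr ω R (thc ω R c m n false x)

/-- The code level version of `thΨ`. -/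
def thΨc (ω : F) (R : ℕ) (c : F) (m n : ℕ) (x : MC F) : F :=
  ktr ω R (kmul ω (kinv ω R (kmul ω (thc ω R c m n false (mone R)) (thc ω R c m n true (mone R))))
    (thc ω R c m n true x))

/-- The number of index bits. -/
def parM (φ : CNF) : ℕ := Nat.size (3 * φ.length) + 1

/-- The exponent of the field degree. -/
def parS (φ : CNF) : ℕ :=
  ((List.range (2 * parM φ + 1)).filter fun k => decide (3 ^ k ≤ 2 * parM φ)).length

/-- The field degree. -/
def parR (φ : CNF) : ℕ := 3 ^ parS φ

/-- The code level version of `cf`. -/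
def cfc (ω : F) (c : Fin 3 → F) (φ : CNF) (x : XC F) : Cf F :=
  (((List.range (2 ^ parM φ)).map fun n => thΦc ω (parR φ) (c 0) (parM φ) n (x 0)).sum,
    ((List.range (2 ^ parM φ)).map fun n => thΦc ω (parR φ) (c 1) (parM φ) n (x 1)).sum,
    fun cb => ((List.range φ.length).map fun i => if (lit φ i cb.1).2 = !cb.2 then
      thΦc ω (parR φ) (c 2) (parM φ) (3 * i + cb.1) (x 2) *
        thΨc ω (parR φ) (c 0) (parM φ) i (x 0) *
        thΨc ω (parR φ) (c 1) (parM φ) (vidx φ (lit φ i cb.1).1) (x 1) else 0).sum)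

/-- The constraint system of a formula. -/
def fam (ω : F) (c : Fin 3 → F) (s : Fin 9 → F) (φ : CNF) :
    SG (XC F) ((F × F) × (Fin 9 → F × F × F)) (Nb F) (Tb → F) where
  V := allX ω (parR φ)
  mv d i x := xmul ω x (mvRc ω (parR φ) c s d i)
  nb e x := xmul ω (xmul ω (nbLc ω (parR φ) c e) x) (nbRc ω (parR φ) c e)
  con x v := decide (pred (cfc ω c φ x) v)

/-- The field `K` has the power basis `1, τ, …, τ ^ (R - 1)` and `τ ^ R = ω`. -/
structure KOK {K : Type} [Field K] [Algebra F K] (ω : F) (R : ℕ) (τ : K) : Prop where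
  pow : τ ^ R = algebraMap F K ω
  rank : Module.finrank F K = R
  inj : ∀ l l' : List F, l.length = R → l'.length = R → kdec τ l = kdec τ l' → l = l'
  surj : ∀ y : K, ∃ l : List F, l.length = R ∧ kdec τ l = y

/-- `l` is the code of `y`. -/
def Rep {K : Type} [Field K] [Algebra F K] (R : ℕ) (τ : K) (l : List F) (y : K) : Prop :=
  l.length = R ∧ kdec τ l = y

/-- `x` is the code of the matrix `g`. -/
def MRep {K : Type} [Field K] [Algebra F K] (R : ℕ) (τ : K) (x : MC F) (g : SL3 K) : Prop :=
  ∀ u v, Rep R τ (x u v) (g.1 u v)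

/-- `x` is the code of the triple `g`. -/
def XRep {K : Type} [Field K] [Algebra F K] (R : ℕ) (τ : K) (x : XC F) (g : Fin 3 → SL3 K) :
    Prop := ∀ j, MRep R τ (x j) (g j)

end Code

end

end Vale.Agent.P318.Q
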