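import Vale.Agent.P318.Q.Stmt

/-!
Track Q: the theorem from the statements of the parts.
-/

namespace Vale.Agent.P318.Q

open Vale.Agent.Lib.PolyTime Vale.Agent.Lib.PCP Finset
open scoped BigOperators Classical

theorem hard_of_fam (hY : GadYesStmt) (hN : GadNoStmt) (hGP : GadPTStmt) (hBl : BlowStmt)
    {X D E M A D' : Type} [Fintype D] [Fintype E] [Fintype M] [Fintype A] [Fintype D']
    [Nonempty D] [Enc X] [Enc D] [Enc A] [Enc D'] [EncInj X] [EncInj D] [EncInj A]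
    [EncInj D'] (H : Had M A D') (hH : H.OK) (hk : 2 ≤ Fintype.card (E × A)) {ε : ℝ} (hε : 0 < ε)
    (Fm : CNF → SG X D E M) (hpt : SG.IsPT Fm) (hfam : ∀ φ : CNF, (Fm φ).WF (1 / 72) ∧
      (Satisfiable φ → (Fm φ).Yes H) ∧ (¬ Satisfiable φ → (Fm φ).No ε)) :
    ∃ C : ℝ, 1 < C ∧ Hard (USC C) := by
  obtain ⟨am, ak, W, C, ham, hW, hC, hno⟩ := hN X D E M A D' H hH hk ε hε
  have hyes := fun φ : CNF => hY X D E M A D' H hH hk am ak W ham hW (Fm φ) (1 / 72) C (hfam φ).1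
  exact ⟨C, hC, Hard.red (Q := WSC (Bv X D E A D') C) ⟨fun φ => gad am ak W H (Fm φ),
    hGP X D E M A D' H am ak W Fm hpt, fun φ h => (hyes φ).2 ((hfam φ).2.1 h),
    fun φ h => hno _ (hfam φ).1 (hyes φ).1 ((hfam φ).2.2 h)⟩ (hBl _ C (by linarith))⟩

theorem fam_isPT (hK : KPTStmt) (hG : GPTStmt) (hT : ThPTStmt) (hP : ParStmt) {F : Type}
    [Field F] [Fintype F] [Enc F] [EncInj F] (ω : F) (c : Fin 3 → F) (s : Fin 9 → F) :
    SG.IsPT (fam ω c s) := by
  obtain ⟨g1, g2, g3⟩ := hG F ω c s (hK F ω) (hP.2.2.2.2 F)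
  refine ⟨?_, g2, g3, fun v => ?_⟩
  · simp only [fam]
    exact g1
  · have h1 : PT ∅ fun cf : Cf F => decide (pred cf v) := PT.ofFinite _
    have h2 := h1.comp (hT F ω c (hK F ω) hP)
    simp only [fam]
    exact h2

theorem final_of (hBa : BaseStmt) (hHa : HadStmt) (hY : GadYesStmt) (hN : GadNoStmt)
    (hGP : GadPTStmt) (hBl : BlowStmt) (hBr : BridgeStmt) (hK : KPTStmt) (hG : GPTStmt)
    (hT : ThPTStmt) (hP : ParStmt) (hF : FamStmt) : FinalStmt := by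
  obtain ⟨F, _, _, _, hq, ω, hω⟩ := hBa
  let _ : Enc F := ⟨fun a => enc (Fintype.equivFin F a)⟩
  have : EncInj F := ⟨fun a b h => (Fintype.equivFin F).injective (EncInj.inj h)⟩
  obtain ⟨c⟩ : Nonempty (Fin 3 ↪ F) :=
    Function.Embedding.nonempty_of_card_le (by rw [Fintype.card_fin]; omega)
  obtain ⟨s⟩ : Nonempty (Fin 9 ↪ F) :=
    Function.Embedding.nonempty_of_card_le (by rw [Fintype.card_fin]; omega)
  obtain ⟨H, hH, hH'⟩ := hHa F s s.injective
  obtain ⟨C, hC, h⟩ := hard_of_fam hY hN hGP hBl H hH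
    (Fintype.one_lt_card_iff_nontrivial.2 inferInstance) (by positivity) (fam ω c s)
    (fam_isPT hK hG hT hP ω c s) (hF F ω hω hq c s c.injective s.injective H hH')
  exact hBr C hC h

end Vale.Agent.P318.Q
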