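import Vale.Agent.P318.Q.Stmt

/-!
Track Q, the gadget, all cuts: local computations on Boolean cubes.
-/

namespace Vale.Agent.P318.Q.GadNo

open Finset
open scoped BigOperators Classical

noncomputable section

/-- The sign of a side. -/
def sg (b : Bool) : ℝ := if b = true then 1 else -1

/-- The even part of the signs of a pair of literals. -/
def ev (y : Bool → Bool) : ℝ := (sg (y true) + sg (y false)) / 2

section Cube

variable {ι : Type} [Fintype ι] [DecidableEq ι]

theorem sum_cube (G : ι → Bool → ℝ) :
    ∑ σ : ι → Bool, ∏ l, G l (σ l) =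
      2 ^ Fintype.card ι * ∏ l, (G l true + G l false) / 2 := by
  have h := Finset.prod_univ_sum (fun _ : ι => (univ : Finset Bool)) G
  rw [Fintype.piFinset_univ] at h
  rw [← h, Finset.prod_div_distrib, Finset.prod_const, Finset.card_univ]
  have h2 : (2 : ℝ) ^ Fintype.card ι ≠ 0 := by positivity
  rw [mul_div_cancel₀ _ h2]
  exact Finset.prod_congr rfl fun l _ => by simp

theorem sum_single (i : ι) (f : Bool → ℝ) :
    ∑ σ : ι → Bool, f (σ i) = 2 ^ Fintype.card ι * ((f true + f false) / 2) := by
  have h := sum_cube (fun l b => if l = i then f b else 1)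
  simp only [Finset.prod_ite_eq', Finset.mem_univ, if_true] at h
  rw [h]
  congr 1
  rw [Finset.prod_eq_single i]
  · simp
  · intro l _ hl
    simp [hl]
  · simp

theorem sum_pair {i k : ι} (hik : i ≠ k) (f g : Bool → ℝ) :
    ∑ σ : ι → Bool, f (σ i) * g (σ k) =
      2 ^ Fintype.card ι * ((f true + f false) / 2 * ((g true + g false) / 2)) := by
  have h := sum_cube (fun l b => (if l = i then f b else 1) * if l = k then g b else 1)
  simp only [Finset.prod_mul_distrib, Finset.prod_ite_eq', Finset.mem_univ, if_true] at h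
  rw [h]
  congr 1
  have : ∀ l, ((if l = i then f true else 1) * (if l = k then g true else 1) +
      (if l = i then f false else 1) * if l = k then g false else 1) / 2 =
      (if l = i then (f true + f false) / 2 else 1) *
        if l = k then (g true + g false) / 2 else 1 := by
    intro l
    by_cases h1 : l = i
    · have h2 : l ≠ k := fun h2 => hik (h1.symm.trans h2)
      simp [if_pos h1, if_neg h2]
    · by_cases h2 : l = k
      · simp [if_neg h1, if_pos h2]
      · simp [if_neg h1, if_neg h2]
  simp only [this, Finset.prod_mul_distrib, Finset.prod_ite_eq', Finset.mem_univ, if_true]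

omit [DecidableEq ι] in
theorem prod_neg_sg (z : ι → Bool) :
    ∏ i, -sg (z i) = (-1) ^ (univ.filter fun i => z i = true).card := by
  have : ∀ i, -sg (z i) = if z i = true then -1 else 1 := by
    intro i
    cases z i <;> simp [sg]
  simp only [this]
  rw [Finset.prod_ite]
  simp

omit [DecidableEq ι] in
theorem sum_sg (z : ι → Bool) :
    ∑ i, sg (z i) = 2 * ((univ.filter fun i => z i = true).card : ℝ) - Fintype.card ι := by
  have : ∀ i, sg (z i) = 2 * (if z i = true then 1 else 0) - 1 := by
    intro i
    cases z i <;> norm_num [sg]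
  simp only [this]
  rw [Finset.sum_sub_distrib, ← Finset.mul_sum]
  simp

omit [DecidableEq ι] in
theorem sum_ne (t : Bool) (z : ι → Bool) :
    ∑ i, (if t = z i then (0 : ℝ) else 1) = (Fintype.card ι - sg t * ∑ i, sg (z i)) / 2 := by
  have : ∀ i, (if t = z i then (0 : ℝ) else 1) = (1 - sg t * sg (z i)) / 2 := by
    intro i
    cases t <;> cases z i <;> norm_num [sg]
  simp only [this]
  rw [← Finset.sum_div, Finset.sum_sub_distrib, ← Finset.mul_sum]
  simp

end Cube

theorem sg_mul_self (b : Bool) : sg b * sg b = 1 := by cases b <;> simp [sg]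

theorem one_loc (t a : Bool) (m Z : ℝ) :
    (9 + m - |Z + sg a * m|) / 2 ≤ (if t = a then (0 : ℝ) else m) + (9 - sg t * Z) / 2 := by
  have h1 := le_abs_self (Z + sg a * m)
  have h2 := neg_abs_le (Z + sg a * m)
  cases t <;> cases a <;> simp only [sg] at h1 h2 ⊢ <;> simp at h1 h2 ⊢ <;> linarith

theorem mag0 : mag 0 = 7 := rfl
theorem mag1 : mag 1 = 3 := rfl
theorem mag2 : mag 2 = 1 := rfl
theorem mag3 : mag 3 = 5 := rfl

/-- The four main Steiner vertices of one sign pattern. -/
theorem main_loc (z ε : Fin 9 → Bool) (t : Fin 4 → Bool) :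
    145 / 8 - (∑ i, sg (z i)) ^ 2 / 8 -
      (∏ i, -sg (ε i)) * (∏ i, sg (z i) - ∑ i, sg (z i)) / 4 ≤
    ∑ j, ((if t j = anc ε j then (0 : ℝ) else mag j) + ∑ i, if t j = z i then 0 else 1) := by
  have h1 : ∏ i, sg (z i) = -(-1) ^ (univ.filter fun i => z i = true).card := by
    rw [← prod_neg_sg z, Finset.prod_neg]
    norm_num
  simp only [sum_ne, Fintype.card_fin, Nat.cast_ofNat]
  refine le_trans ?_ (Finset.sum_le_sum fun j _ => one_loc (t j) (anc ε j) (mag j) _)
  rw [h1, sum_sg, prod_neg_sg, Fin.sum_univ_four, mag0, mag1, mag2, mag3]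
  have hc : (univ.filter fun i => z i = true).card ≤ 9 := by
    simpa using Finset.card_filter_le (univ : Finset (Fin 9)) fun i => z i = true
  generalize (univ.filter fun i => z i = true).card = c at hc
  unfold anc
  rcases Nat.even_or_odd (univ.filter fun i => ε i = true).card with he | he
  · rw [he.neg_one_pow]
    simp only [if_pos he]
    interval_cases c <;> norm_num [sg]
  · rw [he.neg_one_pow]
    simp only [if_neg (Nat.not_even_iff_odd.2 he)]
    interval_cases c <;> norm_num [sg]

theorem abs_odd (y : Bool → Bool) : |(-sg (y true) + sg (y false)) / 2| = 1 - ev y ^ 2 := by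
  unfold ev
  cases y true <;> cases y false <;> norm_num [sg]

theorem ev_sq_nonneg (y : Bool → Bool) : 0 ≤ ev y ^ 2 := sq_nonneg _

theorem ev_sq_le (y : Bool → Bool) : ev y ^ 2 ≤ 1 := by
  have := abs_nonneg ((-sg (y true) + sg (y false)) / 2)
  rw [abs_odd] at this
  linarith

theorem sum_Z_sq (y : Fin 9 → Bool → Bool) :
    ∑ ε : Fin 9 → Bool, (∑ i, sg (y i (ε i))) ^ 2 =
      512 * (9 + ∑ i, ∑ k, if i = k then 0 else ev (y i) * ev (y k)) := by
  have h : ∀ i k, ∑ ε : Fin 9 → Bool, sg (y i (ε i)) * sg (y k (ε k)) =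
      512 * ((if i = k then 1 else 0) + if i = k then 0 else ev (y i) * ev (y k)) := by
    intro i k
    by_cases hik : i = k
    · subst hik
      simp only [sg_mul_self]
      simp
    · rw [sum_pair hik (fun b => sg (y i b)) fun b => sg (y k b)]
      simp only [if_neg hik, ev, Fintype.card_fin]
      norm_num
  simp only [sq, Finset.sum_mul_sum]
  rw [Finset.sum_comm]
  have : ∀ i, ∑ ε : Fin 9 → Bool, ∑ k, sg (y i (ε i)) * sg (y k (ε k)) =
      512 * (1 + ∑ k, if i = k then 0 else ev (y i) * ev (y k)) := by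
    intro i
    rw [Finset.sum_comm]
    simp only [h]
    rw [← Finset.mul_sum, Finset.sum_add_distrib]
    simp
  simp only [this]
  rw [← Finset.mul_sum, Finset.sum_add_distrib]
  simp

theorem sum_chi_Z (y : Fin 9 → Bool → Bool) :
    ∑ ε : Fin 9 → Bool, (∏ l, -sg (ε l)) * ∑ i, sg (y i (ε i)) = 0 := by
  simp only [Finset.mul_sum]
  rw [Finset.sum_comm]
  refine Finset.sum_eq_zero fun i _ => ?_
  have h := sum_cube (fun l b => -sg b * if l = i then sg (y i b) else 1)
  simp only [Finset.prod_mul_distrib, Finset.prod_ite_eq', Finset.mem_univ, if_true] at h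
  rw [h]
  have hi : i + 1 ≠ i := (by decide : ∀ i : Fin 9, i + 1 ≠ i) i
  rw [Finset.prod_eq_zero (Finset.mem_univ (i + 1)), mul_zero]
  simp [hi, sg]

theorem sum_chi_P (y : Fin 9 → Bool → Bool) :
    ∑ ε : Fin 9 → Bool, (∏ l, -sg (ε l)) * ∏ l, sg (y l (ε l)) ≤ 512 * (1 - ev (y 0) ^ 2) := by
  have h := sum_cube (fun l b => -sg b * sg (y l b))
  simp only [Finset.prod_mul_distrib] at h
  rw [h]
  have h1 : ∀ l, (-sg true * sg (y l true) + -sg false * sg (y l false)) / 2 =
      (-sg (y l true) + sg (y l false)) / 2 := by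
    intro l
    have h3 : sg true = 1 := rfl
    have h4 : sg false = -1 := rfl
    rw [h3, h4]
    ring
  simp only [h1, Fintype.card_fin]
  have h2 : ∏ l, (-sg (y l true) + sg (y l false)) / 2 ≤ 1 - ev (y 0) ^ 2 := by
    refine (le_abs_self _).trans ?_
    rw [Finset.abs_prod, Fin.prod_univ_succ]
    simp only [abs_odd]
    refine mul_le_of_le_one_right (by linarith [ev_sq_le (y 0)]) ?_
    exact Finset.prod_le_one (fun l _ => by linarith [ev_sq_le (y l.succ)])
      fun l _ => by linarith [ev_sq_nonneg (y l.succ)]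
  have h5 : (2 : ℝ) ^ 9 = 512 := by norm_num
  rw [h5]
  exact mul_le_mul_of_nonneg_left h2 (by norm_num)

/-- All main Steiner vertices of one check. -/
theorem check_loc (y : Fin 9 → Bool → Bool) (t : (Fin 9 → Bool) → Fin 4 → Bool) :
    512 * (67 / 4 - (∑ i, ∑ k, if i = k then 0 else ev (y i) * ev (y k)) / 8 +
      ev (y 0) ^ 2 / 4) ≤
    ∑ ε, ∑ j, ((if t ε j = anc ε j then (0 : ℝ) else mag j) +
      ∑ i, if t ε j = y i (ε i) then 0 else 1) := by
  refine le_trans ?_ (Finset.sum_le_sum fun ε _ => main_loc (fun i => y i (ε i)) ε (t ε))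
  simp only [mul_sub, sub_div, Finset.sum_sub_distrib, ← Finset.sum_div]
  rw [sum_Z_sq, sum_chi_Z]
  have := sum_chi_P y
  simp only [Finset.sum_const, Finset.card_univ, Fintype.card_pi, Fintype.card_bool,
    Finset.prod_const, Fintype.card_fin, nsmul_eq_mul]
  norm_num
  linarith

section Small

variable {ι : Type} [Fintype ι] [DecidableEq ι]

/-- All small Steiner vertices of one constraint. -/
theorem small_loc (hk : 1 ≤ Fintype.card ι) (y : ι → Bool → Bool) (t : (ι → Bool) → Bool)
    (ac : (ι → Bool) → Prop) :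
    (Fintype.card ι * 2 ^ Fintype.card ι / 2 : ℝ) * (1 - ∑ p, ev (y p) ^ 2) -
      (if ac (fun p => y p true) then 1 else 0) ≤
    ∑ σ, ((if t σ = false then (0 : ℝ) else
        ((Fintype.card ι - if ac σ then 1 else 0 : ℕ) : ℝ)) +
      ∑ p, if t σ = y p (σ p) then 0 else 1) := by
  have hite : (0 : ℝ) ≤ if ac (fun p => y p true) then 1 else 0 := by split_ifs <;> norm_num
  by_cases hodd : ∀ p, y p false = !y p true
  · have h0 : ∑ p, ev (y p) ^ 2 = 0 := Finset.sum_eq_zero fun p _ => by
      rw [ev, hodd p]
      cases y p true <;> simp [sg]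
    have hT : ∑ σ : ι → Bool, ∑ p, (if false = y p (σ p) then (0 : ℝ) else 1) =
        Fintype.card ι * 2 ^ Fintype.card ι / 2 := by
      rw [Finset.sum_comm]
      have : ∀ p, ∑ σ : ι → Bool, (if false = y p (σ p) then (0 : ℝ) else 1) =
          2 ^ Fintype.card ι / 2 := by
        intro p
        rw [sum_single p fun b => if false = y p b then (0 : ℝ) else 1, hodd p]
        cases y p true <;> simp [div_eq_mul_inv]
      simp only [this]
      simp [mul_div_assoc]
    have hI : ∑ σ : ι → Bool, (if σ = (fun p => y p true) then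
        (if ac σ then (1 : ℝ) else 0) else 0) = if ac (fun p => y p true) then 1 else 0 := by
      rw [Finset.sum_ite_eq']
      simp
    rw [h0, sub_zero, mul_one, ← hT, ← hI, ← Finset.sum_sub_distrib]
    refine Finset.sum_le_sum fun σ _ => ?_
    have hI0 : (0 : ℝ) ≤ if σ = (fun p => y p true) then (if ac σ then (1 : ℝ) else 0) else 0 := by
      split_ifs <;> norm_num
    cases ht : t σ
    · simp only [if_true]
      linarith
    · have hle : ∑ p, (if false = y p (σ p) then (0 : ℝ) else 1) ≤ Fintype.card ι := by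
        calc ∑ p, (if false = y p (σ p) then (0 : ℝ) else 1) ≤ ∑ _p : ι, (1 : ℝ) :=
              Finset.sum_le_sum fun p _ => by split_ifs <;> norm_num
          _ = Fintype.card ι := by simp
      have hc : ((Fintype.card ι - if ac σ then 1 else 0 : ℕ) : ℝ) =
          Fintype.card ι - if ac σ then 1 else 0 := by
        split_ifs
        · rw [Nat.cast_sub hk, Nat.cast_one]
        · simp
      have hnn : ∀ p, (0 : ℝ) ≤ if true = y p (σ p) then 0 else 1 := fun p => by
        split_ifs <;> norm_num
      rw [if_neg (show ¬(true = false) by simp), hc]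
      by_cases hσ : σ = fun p => y p true
      · rw [if_pos hσ]
        have := Finset.sum_nonneg fun p (_ : p ∈ univ) => hnn p
        linarith
      · rw [if_neg hσ]
        obtain ⟨p, hp⟩ := Function.ne_iff.1 hσ
        have h1 := Finset.single_le_sum (fun p (_ : p ∈ univ) => hnn p) (Finset.mem_univ p)
        have h2 : (if true = y p (σ p) then (0 : ℝ) else 1) = 1 := by
          rw [if_neg]
          have := hodd p
          revert hp this
          cases σ p <;> cases y p true <;> cases y p false <;> simp
        have h3 : (if ac σ then (1 : ℝ) else 0) ≤ 1 := by split_ifs <;> norm_num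
        linarith
  · obtain ⟨p, hp⟩ := not_forall.1 hodd
    have h1 : ev (y p) ^ 2 = 1 := by
      rw [ev]
      revert hp
      cases y p true <;> cases y p false <;> simp [sg]
    have h2 := Finset.single_le_sum (fun p (_ : p ∈ univ) => ev_sq_nonneg (y p))
      (Finset.mem_univ p)
    have h3 : (Fintype.card ι * 2 ^ Fintype.card ι / 2 : ℝ) * (1 - ∑ p, ev (y p) ^ 2) ≤ 0 :=
      mul_nonpos_of_nonneg_of_nonpos (by positivity) (by linarith)
    refine le_trans (by linarith) (Finset.sum_nonneg fun σ _ => add_nonneg ?_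
      (Finset.sum_nonneg fun p _ => ?_)) <;> split_ifs <;> positivity

end Small

end

end Vale.Agent.P318.Q.GadNo
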