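import Vale.Agent.P318.Q.GadNo0

/-!
Track Q, the gadget, all cuts: the weight of a cut and the masses of its sides as finite sums.
-/

namespace Vale.Agent.P318.Q.GadNo

open Finset
open scoped BigOperators Classical

noncomputable section

theorem sum_flatMap {α β : Type} (l : List α) (g : α → List β) (f : β → ℕ) :
    ((l.flatMap g).map f).sum = (l.map fun a => ((g a).map f).sum).sum := by
  induction l with
  | nil => simp
  | cons c l ih => simp [List.flatMap_cons, ih]

theorem sum_flat {X P : Type} [Fintype P] (l : List X) (hl : l.Nodup) (f : X × P → ℕ) :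
    ((l.flatMap fun x => (univ : Finset P).toList.map fun p => (x, p)).map f).sum =
      ∑ x ∈ l.toFinset, ∑ p, f (x, p) := by
  rw [sum_flatMap, List.sum_toFinset _ hl]
  congr 1
  refine List.map_congr_left fun x _ => ?_
  rw [List.map_map, Finset.sum_map_toList]
  rfl

variable {X D E M A D' : Type} [Fintype D] [Fintype E] [Fintype A] [Fintype D']

/-- The side of a literal. -/
def tl (T : Bv X D E A D' → Bool) (x : X) (a : A) (s : Bool) : Bool := T (Sum.inl (x, a, s))

/-- The side of an anchor. -/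
def ta (T : Bv X D E A D' → Bool) (b : Bool) : Bool := T (Sum.inr (Sum.inl b))

/-- The side of a main Steiner vertex. -/
def tm (T : Bv X D E A D' → Bool) (x : X) (d : D) (d' : D') (ε : Fin 9 → Bool) (j : Fin 4) :
    Bool := T (Sum.inr (Sum.inr (Sum.inl (x, d, d', ε, j))))

/-- The side of a small Steiner vertex. -/
def ts (T : Bv X D E A D' → Bool) (x : X) (σ : E × A → Bool) : Bool :=
  T (Sum.inr (Sum.inr (Sum.inr (x, σ))))

theorem wcut_nat (am ak W : ℕ) (H : Had M A D') (S : SG X D E M) (hV : S.V.Nodup)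
    (T : Bv X D E A D' → Bool) :
    wcut (gad am ak W H S) T =
      ∑ x ∈ S.V.toFinset, ∑ a, ∑ s, ((if tl T x a s = ta T true then 0 else ak) +
        if tl T x a s = ta T false then 0 else ak) +
      ∑ x ∈ S.V.toFinset, ∑ d, ∑ d', ∑ ε, ∑ j,
        ((if tm T x d d' ε j = ta T (anc ε j) then 0 else mag j * am) +
          ∑ i, if tm T x d d' ε j = tl T (S.mv d i x) (H.al d' i) (ε i) then 0 else am) +
      ∑ x ∈ S.V.toFinset, ∑ σ,
        ((if ts T x σ = ta T false then 0 else
            Fintype.card (E × A) - if acc H (S.con x) σ then 1 else 0) +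
          ∑ p, if ts T x σ = tl T (S.nb p.1 x) p.2 (σ p) then 0 else 1) := by
  unfold wcut gad gEdges
  simp only [List.map_append, List.sum_append, sum_flatMap, List.map_cons, List.sum_cons,
    List.map_map, List.map_nil, List.sum_nil, add_zero]
  unfold gLits gMain gSmall
  rw [sum_flat _ hV, sum_flat _ hV, sum_flat _ hV]
  simp only [Fintype.sum_prod_type, Finset.sum_map_toList, ← Fin.sum_univ_def]
  rfl

theorem wmass_nat (am ak W : ℕ) (H : Had M A D') (S : SG X D E M) (hV : S.V.Nodup)
    (T : Bv X D E A D' → Bool) (b : Bool) :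
    wmass (gad am ak W H S) T b =
      ∑ x ∈ S.V.toFinset, ∑ a, ∑ s, (if tl T x a s = b then W else 0) +
      ((if ta T true = b then 2 * (S.V.length * Fintype.card A) * W else 0) +
        if ta T false = b then 2 * (S.V.length * Fintype.card A) * W else 0) +
      ∑ x ∈ S.V.toFinset, ∑ d, ∑ d', ∑ ε, ∑ j, (if tm T x d d' ε j = b then 1 else 0) +
      ∑ x ∈ S.V.toFinset, ∑ σ, if ts T x σ = b then 1 else 0 := by
  unfold wmass gad gVerts
  simp only [List.map_append, List.sum_append, List.map_cons, List.sum_cons,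
    List.map_map, List.map_nil, List.sum_nil, add_zero]
  unfold gLits gMain gSmall
  rw [sum_flat _ hV, sum_flat _ hV, sum_flat _ hV]
  simp only [Fintype.sum_prod_type]
  rfl

theorem wcut_not {B : Type} (I : WI B) (T : B → Bool) : wcut I (fun v => !T v) = wcut I T := by
  unfold wcut
  congr 1
  refine List.map_congr_left fun e _ => ?_
  exact if_congr (by simp) rfl rfl

theorem wmass_not {B : Type} (I : WI B) (T : B → Bool) (b : Bool) :
    wmass I (fun v => !T v) b = wmass I T (!b) := by
  unfold wmass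
  congr 1
  refine List.map_congr_left fun e _ => ?_
  exact if_congr (by cases b <;> simp) rfl rfl

/-! ### Averages -/

theorem sum_bij_V {V : List X} {φ : X → X} (h : Set.BijOn φ {x | x ∈ V} {x | x ∈ V})
    (g : X → ℝ) : ∑ x ∈ V.toFinset, g (φ x) = ∑ x ∈ V.toFinset, g x := by
  refine Finset.sum_nbij φ (fun x hx => ?_) ?_ ?_ fun _ _ => rfl
  · exact List.mem_toFinset.2 (h.mapsTo (List.mem_toFinset.1 hx))
  · simpa using h.injOn
  · simpa using h.surjOn

/-- The mean of `e`. -/
def mm (S : SG X D E M) (e : X → A → ℝ) : ℝ := 𝔼 x ∈ S.V.toFinset, 𝔼 a, e x a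

/-- The mean square of `e`. -/
def uu (S : SG X D E M) (e : X → A → ℝ) : ℝ := 𝔼 x ∈ S.V.toFinset, 𝔼 a, e x a ^ 2

omit [Fintype D] [Fintype E] in
theorem sum_mm (S : SG X D E M) (hV : S.V.Nodup) (e : X → A → ℝ) :
    ∑ x ∈ S.V.toFinset, ∑ a, e x a = S.V.length * Fintype.card A * mm S e := by
  rw [mm, ← List.toFinset_card_of_nodup hV, mul_right_comm, Finset.card_mul_expect,
    Finset.sum_mul]
  exact Finset.sum_congr rfl fun x _ => by rw [mul_comm, Fintype.card_mul_expect]

omit [Fintype D] [Fintype E] in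
theorem sum_uu (S : SG X D E M) (hV : S.V.Nodup) (e : X → A → ℝ) :
    ∑ x ∈ S.V.toFinset, ∑ a, e x a ^ 2 = S.V.length * Fintype.card A * uu S e :=
  sum_mm S hV fun x a => e x a ^ 2

omit [Fintype E] in
theorem pair_glob [Nonempty A] {H : Had M A D'} (hH : H.OK) {S : SG X D E M}
    (hS : S.WF (1 / 72)) (e : X → A → ℝ) {i k : Fin 9} (hik : i ≠ k) :
    ∑ x ∈ S.V.toFinset, ∑ d, ∑ d', e (S.mv d i x) (H.al d' i) * e (S.mv d k x) (H.al d' k) ≤
      S.V.length * Fintype.card D * Fintype.card D' * (mm S e ^ 2 + uu S e / 72) := by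
  have h1 : ∀ x d, ∑ d', e (S.mv d i x) (H.al d' i) * e (S.mv d k x) (H.al d' k) =
      Fintype.card D' * ((𝔼 a, e (S.mv d i x) a) * 𝔼 a, e (S.mv d k x) a) := by
    intro x d
    rw [← Fintype.card_mul_expect, hH.pair i k hik]
  have h2 := hS.exp i k hik fun x => 𝔼 a, e x a
  have h3 : 𝔼 x ∈ S.V.toFinset, (𝔼 a, e x a) ^ 2 ≤ uu S e := by
    refine Finset.expect_le_expect fun x _ => ?_
    have := Finset.expect_mul_sq_le_sq_mul_sq univ (e x) fun _ => (1 : ℝ)
    simpa using this
  simp only [h1, ← Finset.mul_sum]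
  have h4 : ∑ x ∈ S.V.toFinset, ∑ d, (𝔼 a, e (S.mv d i x) a) * 𝔼 a, e (S.mv d k x) a =
      S.V.length * Fintype.card D * 𝔼 x ∈ S.V.toFinset, 𝔼 d,
        (𝔼 a, e (S.mv d i x) a) * 𝔼 a, e (S.mv d k x) a := by
    rw [← List.toFinset_card_of_nodup hS.nodup, mul_right_comm, Finset.card_mul_expect,
      Finset.sum_mul]
    exact Finset.sum_congr rfl fun x _ => by rw [mul_comm _ (Fintype.card D : ℝ),
      Fintype.card_mul_expect]
  rw [h4, mul_left_comm, ← mul_assoc]
  refine mul_le_mul_of_nonneg_left (h2.trans ?_) (by positivity)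
  unfold mm
  linarith

omit [Fintype E] in
theorem sq_glob [Nonempty A] {H : Had M A D'} (hH : H.OK) {S : SG X D E M}
    (hS : S.WF (1 / 72)) (e : X → A → ℝ) :
    ∑ x ∈ S.V.toFinset, ∑ d, ∑ d', e (S.mv d 0 x) (H.al d' 0) ^ 2 =
      S.V.length * Fintype.card D * Fintype.card D' * uu S e := by
  have h1 : ∀ x d, ∑ d', e (S.mv d 0 x) (H.al d' 0) ^ 2 =
      Fintype.card D' * 𝔼 a, e (S.mv d 0 x) a ^ 2 := by
    intro x d
    have := hH.pair 0 1 (by decide) (fun a => e (S.mv d 0 x) a ^ 2) fun _ => 1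
    simp only [mul_one, Fintype.expect_const] at this
    rw [← Fintype.card_mul_expect, this]
  simp only [h1, ← Finset.mul_sum]
  rw [Finset.sum_comm]
  have h2 : ∀ d, ∑ x ∈ S.V.toFinset, 𝔼 a, e (S.mv d 0 x) a ^ 2 = S.V.length * uu S e := by
    intro d
    rw [sum_bij_V (hS.mv_bij d 0) fun x => 𝔼 a, e x a ^ 2, uu,
      ← List.toFinset_card_of_nodup hS.nodup, Finset.card_mul_expect]
  simp only [h2, Finset.sum_const, Finset.card_univ, nsmul_eq_mul]
  ring

omit [Fintype E] in
theorem main_glob [Nonempty A] {H : Had M A D'} (hH : H.OK) {S : SG X D E M}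
    (hS : S.WF (1 / 72)) (e : X → A → ℝ) :
    S.V.length * Fintype.card D * Fintype.card D' * (67 / 4 - 9 * mm S e ^ 2 + uu S e / 8) ≤
    ∑ x ∈ S.V.toFinset, ∑ d, ∑ d', (67 / 4 - (∑ i, ∑ k, if i = k then 0 else
      e (S.mv d i x) (H.al d' i) * e (S.mv d k x) (H.al d' k)) / 8 +
      e (S.mv d 0 x) (H.al d' 0) ^ 2 / 4) := by
  have h1 : ∑ x ∈ S.V.toFinset, ∑ d, ∑ d', (∑ i, ∑ k, if i = k then 0 else
      e (S.mv d i x) (H.al d' i) * e (S.mv d k x) (H.al d' k)) ≤
      72 * (S.V.length * Fintype.card D * Fintype.card D' * (mm S e ^ 2 + uu S e / 72)) := by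
    have h2 : ∑ x ∈ S.V.toFinset, ∑ d, ∑ d', (∑ i, ∑ k, if i = k then 0 else
        e (S.mv d i x) (H.al d' i) * e (S.mv d k x) (H.al d' k)) =
        ∑ i, ∑ k, ∑ x ∈ S.V.toFinset, ∑ d, ∑ d', if i = k then 0 else
          e (S.mv d i x) (H.al d' i) * e (S.mv d k x) (H.al d' k) := by
      simp only [Finset.sum_comm (s := (univ : Finset D')) (t := (univ : Finset (Fin 9))),
        Finset.sum_comm (s := (univ : Finset D)) (t := (univ : Finset (Fin 9))),
        Finset.sum_comm (s := S.V.toFinset) (t := (univ : Finset (Fin 9)))]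
    rw [h2]
    generalize hB : S.V.length * Fintype.card D * Fintype.card D' *
      (mm S e ^ 2 + uu S e / 72) = B
    calc _ ≤ ∑ i : Fin 9, ∑ k : Fin 9, if i = k then 0 else B := by
          refine Finset.sum_le_sum fun i _ => Finset.sum_le_sum fun k _ => ?_
          by_cases hik : i = k
          · simp [hik]
          · simp only [if_neg hik]
            exact hB ▸ pair_glob hH hS e hik
      _ = 72 * B := by
          have : ∀ i k : Fin 9, (if i = k then 0 else B) = B - if i = k then B else 0 := by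
            intro i k
            split_ifs <;> simp
          simp only [this, Finset.sum_sub_distrib, Finset.sum_ite_eq, Finset.mem_univ, if_true,
            Finset.sum_const, Finset.card_univ, Fintype.card_fin, nsmul_eq_mul]
          push_cast
          ring
  simp only [Finset.sum_add_distrib, Finset.sum_sub_distrib, ← Finset.sum_div, Finset.sum_const,
    Finset.card_univ, nsmul_eq_mul, List.toFinset_card_of_nodup hS.nodup]
  rw [sq_glob hH hS e]
  nlinarith

theorem small_glob {S : SG X D E M} {lam : ℝ} (hS : S.WF lam) (e : X → A → ℝ) :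
    ∑ x ∈ S.V.toFinset, ∑ p : E × A, e (S.nb p.1 x) p.2 ^ 2 =
      S.V.length * Fintype.card (E × A) * uu S e := by
  rw [Finset.sum_comm]
  have : ∀ p : E × A, ∑ x ∈ S.V.toFinset, e (S.nb p.1 x) p.2 ^ 2 =
      ∑ x ∈ S.V.toFinset, e x p.2 ^ 2 := fun p =>
    sum_bij_V (hS.nb_bij p.1) fun x => e x p.2 ^ 2
  simp only [this]
  rw [Fintype.sum_prod_type]
  simp only [Finset.sum_comm (s := (univ : Finset A)) (t := S.V.toFinset), sum_uu S hS.nodup e,
    Finset.sum_const, Finset.card_univ, nsmul_eq_mul, Fintype.card_prod]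
  push_cast
  ring

omit [Fintype D] [Fintype E] [Fintype A] [Fintype D'] in
theorem dec_glob [Fintype A] [Fintype D'] [Nonempty E] {H : Had M A D'} (hH : H.OK)
    {S : SG X D E M} (hV : S.V.Nodup) {ε : ℝ} (hε : ε ≤ 1) (hN : S.No ε) (y : X → A → Bool) :
    ∑ x ∈ S.V.toFinset, (if acc H (S.con x) (fun p => y (S.nb p.1 x) p.2) then (1 : ℝ) else 0) ≤
      S.V.length * (1 - ε) := by
  rcases isEmpty_or_nonempty M with hM | hM
  · rw [Finset.sum_eq_zero]
    · exact mul_nonneg (by positivity) (by linarith)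
    · intro x _
      rw [if_neg]
      rintro ⟨v, -⟩
      exact hM.elim (v (Classical.arbitrary E))
  · let f : X → M := fun x => Classical.epsilon fun v => ∀ a, y x a = H.bit a v
    have h1 := hN f
    have h2 : ((S.V.countP fun x => !S.con x fun e => f (S.nb e x) : ℕ) : ℝ) =
        ∑ x ∈ S.V.toFinset, if (S.con x fun e => f (S.nb e x)) = true then 0 else 1 := by
      rw [List.countP_eq_length_filter, ← List.toFinset_card_of_nodup (hV.filter _),
        List.toFinset_filter, Finset.card_filter]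
      push_cast
      refine Finset.sum_congr rfl fun x _ => ?_
      cases S.con x fun e => f (S.nb e x) <;> simp
    have h3 : ∑ x ∈ S.V.toFinset,
        ((if acc H (S.con x) (fun p => y (S.nb p.1 x) p.2) then (1 : ℝ) else 0) +
          if (S.con x fun e => f (S.nb e x)) = true then 0 else 1) ≤
        ∑ _x ∈ S.V.toFinset, (1 : ℝ) := by
      refine Finset.sum_le_sum fun x _ => ?_
      by_cases ha : acc H (S.con x) fun p => y (S.nb p.1 x) p.2
      · obtain ⟨v, hv, hc⟩ := id ha
        have : (fun e => f (S.nb e x)) = v := by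
          funext e
          have h4 : ∀ a, y (S.nb e x) a = H.bit a (f (S.nb e x)) :=
            Classical.epsilon_spec (p := fun v => ∀ a, y (S.nb e x) a = H.bit a v)
              ⟨v e, fun a => hv e a⟩
          exact hH.sep _ _ fun a => (h4 a).symm.trans (hv e a)
        rw [if_pos ha, this, if_pos hc, add_zero]
      · rw [if_neg ha]
        split_ifs <;> norm_num
    rw [Finset.sum_add_distrib, ← h2, Finset.sum_const, List.toFinset_card_of_nodup hV,
      nsmul_eq_mul] at h3
    linarith

end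

end Vale.Agent.P318.Q.GadNo
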