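import Vale.Agent.P318.Q.GadNo1

/-!
Track Q, the gadget, all cuts: cuts which separate the anchors and cuts which do not.
-/

namespace Vale.Agent.P318.Q.GadNo

open Finset
open scoped BigOperators Classical

noncomputable section

variable {X D E M A D' : Type} [Fintype D] [Fintype E] [Fintype A] [Fintype D']

/-- The even parts of the literals. -/
def el (T : Bv X D E A D' → Bool) (x : X) (a : A) : ℝ := ev (tl T x a)

/-- The number of Steiner vertices on the side `b`. -/
def st (S : SG X D E M) (T : Bv X D E A D' → Bool) (b : Bool) : ℕ :=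
  ∑ x ∈ S.V.toFinset, ∑ d, ∑ d', ∑ ε, ∑ j, (if tm T x d d' ε j = b then 1 else 0) +
    ∑ x ∈ S.V.toFinset, ∑ σ, if ts T x σ = b then 1 else 0

theorem st_le (S : SG X D E M) (hV : S.V.Nodup) (T : Bv X D E A D' → Bool) (b : Bool) :
    (st S T b : ℝ) ≤ S.V.length * (4 * (512 * Fintype.card D * Fintype.card D') +
      2 ^ Fintype.card (E × A)) := by
  have h1 : ∀ c : Bool, (if c = b then (1 : ℝ) else 0) ≤ 1 := fun c => by split_ifs <;> simp
  calc (st S T b : ℝ) ≤ ∑ _x ∈ S.V.toFinset, ∑ _d : D, ∑ _d' : D', ∑ _ε : Fin 9 → Bool,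
        ∑ _j : Fin 4, (1 : ℝ) + ∑ _x ∈ S.V.toFinset, ∑ _σ : E × A → Bool, (1 : ℝ) := by
        unfold st
        push_cast
        gcongr <;> exact h1 _
    _ = _ := by
        simp only [Finset.sum_const, Finset.card_univ, nsmul_eq_mul, Fintype.card_pi,
          Fintype.card_bool, Finset.prod_const, Fintype.card_fin,
          List.toFinset_card_of_nodup hV]
        push_cast
        ring

theorem mass_real (am ak W : ℕ) (H : Had M A D') (S : SG X D E M) (hV : S.V.Nodup)
    (T : Bv X D E A D' → Bool) (b : Bool) :
    (wmass (gad am ak W H S) T b : ℝ) =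
      S.V.length * Fintype.card A * W * (1 + sg b * mm S (el T)) +
      ((if ta T true = b then 2 * (S.V.length * Fintype.card A) * W else 0) +
        if ta T false = b then 2 * (S.V.length * Fintype.card A) * W else 0) + st S T b := by
  rw [wmass_nat am ak W H S hV, add_assoc, ← st]
  have h1 : ∀ x a, ∑ s, (if tl T x a s = b then (W : ℝ) else 0) = W * (1 + sg b * el T x a) := by
    intro x a
    rw [Fintype.sum_bool, el, ev]
    cases tl T x a true <;> cases tl T x a false <;> cases b <;> simp [sg] <;> ring
  push_cast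
  simp only [h1, ← Finset.mul_sum, Finset.sum_add_distrib, Finset.sum_const, Finset.card_univ,
    nsmul_eq_mul, List.toFinset_card_of_nodup hV, sum_mm S hV]
  ring

theorem sep_cut [Nonempty A] [Nonempty E] (am ak W : ℕ) {H : Had M A D'} (hH : H.OK)
    {S : SG X D E M} (hS : S.WF (1 / 72)) {ε : ℝ} (hε : ε ≤ 1) (hN : S.No ε)
    (T : Bv X D E A D' → Bool) (h1 : ta T true = true) (h0 : ta T false = false) :
    2 * (S.V.length * Fintype.card A) * ak +
      am * (512 * (S.V.length * Fintype.card D * Fintype.card D' *
        (67 / 4 - 9 * mm S (el T) ^ 2 + uu S (el T) / 8))) +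
      S.V.length * (Fintype.card (E × A) * 2 ^ Fintype.card (E × A) / 2 *
        (1 - Fintype.card (E × A) * uu S (el T)) - (1 - ε)) ≤
    (wcut (gad am ak W H S) T : ℝ) := by
  have hta : ∀ b, ta T b = b := fun b => by cases b <;> assumption
  rw [wcut_nat am ak W H S hS.nodup]
  simp only [hta]
  rw [Nat.cast_add, Nat.cast_add]
  refine add_le_add (add_le_add (le_of_eq ?_) ?_) ?_
  · have : ∀ c : Bool, ((if c = true then 0 else ak) + if c = false then 0 else ak) = ak := by
      intro c
      cases c <;> simp
    simp only [this, Finset.sum_const, Finset.card_univ, smul_eq_mul, Fintype.card_bool,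
      List.toFinset_card_of_nodup hS.nodup]
    push_cast
    ring
  · refine le_trans (mul_le_mul_of_nonneg_left (mul_le_mul_of_nonneg_left
      (main_glob hH hS (el T)) (by norm_num)) (by positivity)) ?_
    push_cast
    simp only [Finset.mul_sum]
    refine Finset.sum_le_sum fun x _ => Finset.sum_le_sum fun d _ =>
      Finset.sum_le_sum fun d' _ => ?_
    refine le_trans (mul_le_mul_of_nonneg_left (check_loc
      (fun i => tl T (S.mv d i x) (H.al d' i)) (tm T x d d')) (by positivity)) (le_of_eq ?_)
    simp only [Finset.mul_sum, mul_add, mul_ite, mul_zero, mul_one]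
    simp only [mul_comm (am : ℝ)]
  · have h2 := dec_glob hH hS.nodup hε hN fun x a => tl T x a true
    have h3 := small_glob hS (el T)
    have h4 := Finset.sum_le_sum fun x (_ : x ∈ S.V.toFinset) =>
      small_loc (ι := E × A) Fintype.card_pos (fun p => tl T (S.nb p.1 x) p.2) (ts T x)
        (acc H (S.con x))
    rw [Finset.sum_sub_distrib, ← Finset.mul_sum, Finset.sum_sub_distrib, Finset.sum_const,
      List.toFinset_card_of_nodup hS.nodup, nsmul_eq_mul] at h4
    unfold el at h3 ⊢
    rw [h3] at h4
    refine le_trans (by linarith) (h4.trans (le_of_eq ?_))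
    simp only [Nat.cast_sum, Nat.cast_add, Nat.cast_ite, Nat.cast_zero, Nat.cast_one]

theorem tog_cut (am ak W : ℕ) (ham : 0 < am) (hk : 2 ≤ Fintype.card (E × A)) (H : Had M A D')
    (S : SG X D E M) (hV : S.V.Nodup) (T : Bv X D E A D' → Bool) (h1 : ta T true = false)
    (h0 : ta T false = false) :
    2 * (S.V.length * Fintype.card A * ak * (1 + mm S (el T))) + st S T true ≤
      (wcut (gad am ak W H S) T : ℝ) := by
  have hta : ∀ b, ta T b = false := fun b => by cases b <;> assumption
  rw [wcut_nat am ak W H S hV, add_assoc, Nat.cast_add]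
  simp only [hta]
  refine add_le_add (le_of_eq ?_) (Nat.cast_le.2 (add_le_add ?_ ?_))
  · have h1 : ∀ x a, ∑ s, ((if tl T x a s = false then (0 : ℝ) else ak) +
        if tl T x a s = false then (0 : ℝ) else ak) = 2 * ak * (1 + el T x a) := by
      intro x a
      rw [Fintype.sum_bool, el, ev]
      cases tl T x a true <;> cases tl T x a false <;> simp [sg] <;> ring
    push_cast
    simp only [h1, ← Finset.mul_sum, Finset.sum_add_distrib, Finset.sum_const, Finset.card_univ,
      nsmul_eq_mul, List.toFinset_card_of_nodup hV, sum_mm S hV]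
    ring
  · refine Finset.sum_le_sum fun x _ => Finset.sum_le_sum fun d _ => Finset.sum_le_sum fun d' _ =>
      Finset.sum_le_sum fun ε _ => Finset.sum_le_sum fun j _ => le_trans ?_ (Nat.le_add_right _ _)
    have : 0 < mag j := (by decide : ∀ j, 0 < mag j) j
    cases tm T x d d' ε j
    · simp
    · exact Nat.mul_pos this ham
  · refine Finset.sum_le_sum fun x _ => Finset.sum_le_sum fun σ _ =>
      le_trans ?_ (Nat.le_add_right _ _)
    cases ts T x σ
    · simp
    · rw [if_pos rfl, if_neg (show ¬(true = false) by simp)]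
      split_ifs <;> omega

omit [Fintype D] [Fintype E] [Fintype D'] in
theorem mm_ge [Nonempty A] (S : SG X D E M) (hne : S.V ≠ []) (T : Bv X D E A D' → Bool) :
    -1 ≤ mm S (el T) := by
  have h : ∀ x a, -1 ≤ el T x a := fun x a => by
    have := ev_sq_le (tl T x a)
    unfold el
    nlinarith
  exact Finset.le_expect (by simpa using hne) fun x _ =>
    Finset.le_expect Finset.univ_nonempty fun a _ => h x a

omit [Fintype D] [Fintype E] in
theorem uu_nonneg (S : SG X D E M) (e : X → A → ℝ) : 0 ≤ uu S e :=
  Finset.expect_nonneg fun _ _ => Finset.expect_nonneg fun _ _ => sq_nonneg _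

end

end Vale.Agent.P318.Q.GadNo
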