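import Vale.Agent.P318.Q.Stmt

/-!
Track Q: the parameters.
-/

namespace Vale.Agent.P318.Q

open Vale.Agent.Lib.PolyTime Vale.Agent.Lib.PCP Finset
open scoped BigOperators Classical

namespace Par

theorem filter_range {a b : ℕ} (h : a ≤ b) (p : ℕ → Bool) (hp : ∀ k, p k = true ↔ k < a) :
    ((List.range b).filter p).length = a := by
  obtain ⟨c, rfl⟩ := Nat.exists_eq_add_of_le h
  rw [List.range_add, List.filter_append, List.filter_eq_self.2, List.filter_eq_nil_iff.2]
  · simp
  · intro k hk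
    obtain ⟨j, -, rfl⟩ := List.mem_map.1 hk
    rw [hp]
    omega
  · intro k hk
    exact (hp k).2 (List.mem_range.1 hk)

theorem one_le_parM (φ : CNF) : 1 ≤ parM φ := Nat.le_add_left _ _

theorem parS_eq (φ : CNF) : parS φ = Nat.log 3 (2 * parM φ) + 1 := by
  have h := one_le_parM φ
  refine filter_range (Nat.succ_le_succ (Nat.log_le_self _ _)) _ fun k => ?_
  rw [decide_eq_true_eq, Nat.lt_succ_iff]
  exact (Nat.le_log_iff_pow_le (by norm_num) (by omega)).symm

theorem lt_parR (φ : CNF) : 2 * parM φ < parR φ := by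
  rw [parR, parS_eq]
  exact Nat.lt_pow_succ_log_self (by norm_num) _

theorem parR_le (φ : CNF) : parR φ ≤ 6 * parM φ := by
  have h := one_le_parM φ
  have h1 := Nat.pow_log_le_self 3 (show 2 * parM φ ≠ 0 by omega)
  rw [parR, parS_eq, pow_succ]
  omega

theorem two_pow_size_le (n : ℕ) : 2 ^ Nat.size n ≤ 2 * n + 1 := by
  rcases h : Nat.size n with _ | k
  · omega
  · have h1 : 2 ^ k ≤ n := Nat.lt_size.1 (by omega)
    rw [pow_succ]
    omega

theorem two_pow_parM_le (φ : CNF) : 2 ^ parM φ ≤ 12 * φ.length + 2 := by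
  have h := two_pow_size_le (3 * φ.length)
  rw [parM, pow_succ]
  omega

theorem pt_parM : PT ∅ parM :=
  (PT.natSize ((PT.const 3).mul (PT.length PT.id))).add (PT.const 1)

theorem pbd_two_pow : PBd fun φ : CNF => 2 ^ parM φ :=
  (((PBd.const 12).mul (PBd.length (A := ∅) PT.id)).add (PBd.const 2)).mono two_pow_parM_le

theorem pbd_parM : PBd parM := pbd_two_pow.mono fun _ => Nat.lt_two_pow_self.le

theorem pt_parS : PT ∅ parS := by
  have h2 : PT ∅ fun φ => 2 * parM φ := (PT.const 2).mul pt_parM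
  have h2b : PBd fun φ => 2 * parM φ := (PBd.const 2).mul pbd_parM
  have h3 : PT ∅ fun p : CNF × ℕ => 2 * parM p.1 := h2.comp PT.fst'
  have h4 : PT ∅ fun p : CNF × ℕ => decide (3 ^ min p.2 (2 * parM p.1) ≤ 2 * parM p.1) :=
    PT.le (PT.pow (PT.const 3) (PT.min PT.snd' h3)
      ((h2b.comp (A := ∅) PT.fst').mono fun _ => min_le_right _ _)) h3
  refine (PT.filter (f := fun φ k => decide (3 ^ min k (2 * parM φ) ≤ 2 * parM φ))
    (PT.range (h2.add (PT.const 1)) (h2b.add (PBd.const 1))) h4).length.congr fun φ => ?_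
  unfold parS
  congr 1
  refine List.filter_congr fun k hk => ?_
  rw [min_eq_left (Nat.lt_succ_iff.1 (List.mem_range.1 hk))]

theorem pbd_parR : PBd parR := ((PBd.const 6).mul pbd_parM).mono parR_le

theorem pt_parR : PT ∅ parR :=
  PT.pow (PT.const 3) pt_parS (pbd_parR.mono fun _ => (Nat.lt_pow_self (by norm_num)).le)

end Par

open Par in
theorem par_proof : ParStmt := by
  refine ⟨fun φ => ⟨?_, one_le_parM φ, ?_, lt_parR φ⟩, pt_parM, pbd_parM, ?_, fun F _ =>
    ⟨pt_parR, pbd_parR, ?_⟩⟩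
  · have h := Nat.lt_size_self (3 * φ.length)
    rw [parM, pow_succ]
    omega
  · rw [parS_eq]
    omega
  · exact (pbd_two_pow.pow 3).mono fun φ => by rw [← pow_mul, mul_comm]
  · refine (pbd_two_pow.pow (6 * Nat.size (Fintype.card F))).mono fun φ => ?_
    calc Fintype.card F ^ parR φ ≤ (2 ^ Nat.size (Fintype.card F)) ^ parR φ :=
          Nat.pow_le_pow_left (Nat.lt_size_self _).le _
      _ ≤ (2 ^ Nat.size (Fintype.card F)) ^ (6 * parM φ) :=
          Nat.pow_le_pow_right (by positivity) (parR_le φ)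
      _ = _ := by rw [← pow_mul, ← pow_mul]; congr 1; ring

end Vale.Agent.P318.Q
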