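import Vale.Agent.P318.Q.Stmt

/-!
Track Q: trickling down (helper40).
-/

namespace Vale.Agent.P318.Q

open Finset
open scoped BigOperators Classical

namespace SpecGlob

section general

variable {G A : Type} [Group G] [Fintype G] [Fintype A]

/-- The scalar product. -/
noncomputable def ip (f f' : G → ℝ) : ℝ := 𝔼 g, f g * f' g

/-- The averaging operator. -/
noncomputable def av (m : A → G) (f : G → ℝ) (g : G) : ℝ := 𝔼 a, f (g * m a)

/-- Invariance. -/
def Iv (m : A → G) (f : G → ℝ) : Prop := ∀ g a, f (g * m a) = f g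

/-- `m` parametrises a subgroup uniformly. -/
structure Good (m : A → G) : Prop where
  ne : Nonempty A
  inv : ∃ σ : A ≃ A, ∀ a, m (σ a) = (m a)⁻¹
  mul : ∀ a, ∃ τ : A ≃ A, ∀ b, m (τ b) = m a * m b

theorem expect_right (φ : G → ℝ) (h : G) : 𝔼 g, φ (g * h) = 𝔼 g, φ g :=
  Fintype.expect_equiv (Equiv.mulRight h) _ _ fun _ => rfl

theorem expect_left (φ : G → ℝ) (h : G) : 𝔼 g, φ (h * g) = 𝔼 g, φ g :=
  Fintype.expect_equiv (Equiv.mulLeft h) _ _ fun _ => rfl

theorem expect_av [Nonempty A] (m : A → G) (φ : G → ℝ) : 𝔼 g, av m φ g = 𝔼 g, φ g := by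
  unfold av
  rw [expect_comm]
  simp only [expect_right, Fintype.expect_const]

omit [Group G] in
theorem ip_comm (f f' : G → ℝ) : ip f f' = ip f' f := by simp only [ip, mul_comm]

omit [Group G] in
theorem ip_self (f : G → ℝ) : 𝔼 g, f g ^ 2 = ip f f := by simp only [ip, sq]

omit [Group G] in
theorem ip_nonneg (f : G → ℝ) : 0 ≤ ip f f := expect_nonneg fun _ _ => mul_self_nonneg _

omit [Group G] in
theorem ip_sub_left (f f' h : G → ℝ) : ip (f - f') h = ip f h - ip f' h := by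
  simp only [ip, Pi.sub_apply, sub_mul, expect_sub_distrib]

omit [Group G] in
theorem ip_sub_right (f f' h : G → ℝ) : ip h (f - f') = ip h f - ip h f' := by
  simp only [ip, Pi.sub_apply, mul_sub, expect_sub_distrib]

omit [Group G] in
theorem ip_smul_left (c : ℝ) (f h : G → ℝ) : ip (c • f) h = c * ip f h := by
  simp only [ip, Pi.smul_apply, smul_eq_mul, mul_assoc, mul_expect]

omit [Group G] in
theorem two_ip_le {t : ℝ} (ht : 0 < t) (u v : G → ℝ) : 2 * ip u v ≤ t * ip u u + t⁻¹ * ip v v := by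
  simp only [ip, mul_expect, ← expect_add_distrib]
  refine expect_le_expect fun g _ => ?_
  have h : t * (u g * u g) + t⁻¹ * (v g * v g) - 2 * (u g * v g) = t⁻¹ * (t * u g - v g) ^ 2 := by
    field_simp
    ring
  have : 0 ≤ t⁻¹ * (t * u g - v g) ^ 2 := by positivity
  linarith

omit [Group G] in
theorem expect_sq_le (u v : G → ℝ) :
    𝔼 g, (u g + v g) ^ 2 ≤ 2 * 𝔼 g, u g ^ 2 + 2 * 𝔼 g, v g ^ 2 := by
  simp only [mul_expect, ← expect_add_distrib]
  exact expect_le_expect fun g _ => by nlinarith [sq_nonneg (u g - v g)]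

theorem expect_sub_mean (f : G → ℝ) :
    𝔼 g, (f g - 𝔼 g', f g') ^ 2 = 𝔼 g, f g ^ 2 - (𝔼 g', f g') ^ 2 := by
  simp only [sub_sq, expect_add_distrib, expect_sub_distrib, Fintype.expect_const, ← expect_mul,
    ← mul_expect]
  ring

variable {m : A → G}

omit [Fintype G] in
theorem Iv.av [Nonempty A] {f : G → ℝ} (h : Iv m f) : av m f = f := funext fun g => by
  simp only [SpecGlob.av, h g, Fintype.expect_const]

omit [Fintype G] in
theorem av_sub (m : A → G) (f f' : G → ℝ) : av m (f - f') = av m f - av m f' := funext fun g => by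
  simp only [av, Pi.sub_apply, expect_sub_distrib]

namespace Good

variable (hm : Good m)
include hm

omit [Fintype G] in
theorem iv (f : G → ℝ) : Iv m (av m f) := fun g a => by
  obtain ⟨τ, h⟩ := hm.mul a
  exact Fintype.expect_equiv τ _ _ fun b => by rw [h, mul_assoc]

theorem adj (f f' : G → ℝ) : ip (av m f) f' = ip f (av m f') := by
  obtain ⟨σ, h⟩ := hm.inv
  simp only [ip, av, expect_mul, mul_expect]
  rw [expect_comm, expect_comm univ univ fun g a => f g * f' (g * m a)]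
  refine Fintype.expect_equiv σ _ _ fun a => ?_
  rw [← expect_right (fun g => f g * f' (g * m (σ a))) (m a)]
  simp only [h, mul_inv_cancel_right]

theorem ip_av {f f' : G → ℝ} (h : Iv m f') : ip (av m f) f' = ip f f' := by
  have := hm.ne
  rw [hm.adj, h.av]

theorem ip_split (f f' : G → ℝ) :
    ip f f' = ip (av m f) (av m f') + ip (f - av m f) (f' - av m f') := by
  rw [ip_sub_left, ip_sub_right, ip_sub_right, hm.ip_av (hm.iv f'), hm.adj]
  ring

theorem ip_sub_le (f : G → ℝ) : ip (f - av m f) (f - av m f) ≤ ip f f := by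
  linarith [hm.ip_split f f, ip_nonneg (av m f)]

theorem ip_av_le (f : G → ℝ) : ip (av m f) (av m f) ≤ ip f f := by
  linarith [hm.ip_split f f, ip_nonneg (f - av m f)]

end Good

omit [Fintype G] in
theorem good_val (K : Subgroup G) : Good (Subtype.val : K → G) :=
  ⟨⟨1⟩, ⟨Equiv.inv K, fun _ => rfl⟩, fun a => ⟨Equiv.mulLeft a, fun _ => rfl⟩⟩

end general

variable {F G : Type} [Field F] [Fintype F] [Group G] [Fintype G] {T : Tri F G}

omit [Fintype F] [Fintype G] in
theorem x_zero (hT : T.OK) (i : Fin 3) : T.x i 0 = 1 := by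
  simpa using hT.x_add i 0 0

omit [Fintype F] [Fintype G] in
theorem good_x (hT : T.OK) (i : Fin 3) : Good (T.x i) :=
  ⟨⟨0⟩, ⟨Equiv.neg F, fun a => eq_inv_of_mul_eq_one_left (by
    rw [← hT.x_add, Equiv.neg_apply, neg_add_cancel, x_zero hT])⟩,
    fun a => ⟨Equiv.addLeft a, fun b => hT.x_add i a b⟩⟩

omit [Field F] [Fintype F] [Fintype G] in
theorem x_mem {i j : Fin 3} (h : j ≠ i) (a : F) : T.x j a ∈ T.K i := by
  obtain rfl | rfl : j = i + 1 ∨ j = i + 2 := by
    revert i j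
    decide
  · exact Subgroup.subset_closure (.inl ⟨a, rfl⟩)
  · exact Subgroup.subset_closure (.inr ⟨a, rfl⟩)

omit [Field F] [Fintype F] [Fintype G] in
theorem invK_of_inv {β : Type} {i : Fin 3} {f : G → β} (h1 : T.Inv (i + 1) f)
    (h2 : T.Inv (i + 2) f) : T.InvK i f := fun g u hu => by
  induction hu using Subgroup.closure_induction generalizing g with
  | mem x hx =>
    obtain ⟨a, rfl⟩ | ⟨a, rfl⟩ := hx
    · exact h1 g a
    · exact h2 g a
  | one => rw [mul_one]
  | mul x y _ _ hx hy => rw [← mul_assoc, hy, hx]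
  | inv x _ hx => rw [← hx (g * x⁻¹), inv_mul_cancel_right]

omit [Field F] [Fintype F] in
theorem invK_PK (i : Fin 3) (f : G → ℝ) : T.InvK i (T.PK i f) := fun g u hu =>
  (good_val (T.K i)).iv f g ⟨u, hu⟩

omit [Field F] [Fintype F] in
theorem expect_PK (i : Fin 3) (f : G → ℝ) : 𝔼 g, T.PK i f g = 𝔼 g, f g :=
  expect_av (Subtype.val : T.K i → G) f

/-- the local bound, averaged -/
theorem loc_avg (h : SpecLocStmt) (hT : T.OK) {i j l : Fin 3} (hij : i ≠ j) (hi : i ≠ l)
    (hj : j ≠ l) {f : G → ℝ} (hf : T.Inv i f) :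
    ip (T.PX j f - T.PK l f) (T.PX j f - T.PK l f) ≤
      1 / (Fintype.card F : ℝ) * ip (f - T.PK l f) (f - T.PK l f) := by
  rw [← ip_self, ← ip_self, ← expect_av (Subtype.val : T.K l → G),
    ← expect_av (Subtype.val : T.K l → G) fun g => (f - T.PK l f) g ^ 2, mul_expect]
  refine expect_le_expect fun g _ => ?_
  simp only [av, Pi.sub_apply, fun u : T.K l => invK_PK l f g u u.2]
  obtain ⟨rfl, rfl⟩ | ⟨rfl, rfl⟩ := (by decide : ∀ i j l : Fin 3, i ≠ j → i ≠ l → j ≠ l →
    i = l + 1 ∧ j = l + 2 ∨ i = l + 2 ∧ j = l + 1) i j l hij hi hj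
  · exact (h F G T hT l f g).1 hf
  · exact (h F G T hT l f g).2 hf

/-- the angles between the Heisenberg groups are bounded by `ρ` -/
def Ang (T : Tri F G) (ρ : ℝ) : Prop :=
  ∀ i j, i ≠ j → ∀ f : G → ℝ, T.InvK i f → 𝔼 g, f g = 0 →
    ip (T.PK j f) (T.PK j f) ≤ ρ ^ 2 * ip f f

theorem Ang.step (h : SpecLocStmt) (hT : T.OK) {γ ρ : ℝ} (h0 : 0 < γ) (h1 : γ ≤ 1)
    (hγ : γ ^ 2 = 1 / (Fintype.card F : ℝ)) (hρ : Ang T ρ) : Ang T (γ + (1 - γ) * ρ ^ 2) := by
  have key : ∀ i j, i ≠ j → ∀ f f' : G → ℝ, T.InvK i f → T.InvK j f' → 𝔼 g, f g = 0 →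
      𝔼 g, f' g = 0 → 2 * ip f f' ≤ (γ + (1 - γ) * ρ ^ 2) * (ip f f + ip f' f') := by
    intro i j hij f f' hf hf' m m'
    obtain ⟨l, hi, hj⟩ := (by decide : ∀ i j : Fin 3, ∃ l, i ≠ l ∧ j ≠ l) i j
    have g := good_val (T.K l)
    have a1 := hρ i l hi f hf m
    have a2 := hρ j l hj f' hf' m'
    have a3 : ip f f' = _ := g.ip_split f f'
    have a4 : ip f f = _ := g.ip_split f f
    have a5 : ip f' f' = _ := g.ip_split f' f'
    have a6 := two_ip_le one_pos (T.PK l f) (T.PK l f')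
    have a7 := loc_avg h hT hij hi hj (f := f') fun g a => hf' g _ (x_mem hij a)
    have a8 := two_ip_le h0 (f - T.PK l f) (T.PX j f' - T.PK l f')
    have i1 : Iv (T.x j) (T.PK l f') := fun g a => invK_PK l f' g _ (x_mem hj a)
    have a9 : ip (f - T.PK l f) (T.PX j f' - T.PK l f') = ip (f - T.PK l f) (f' - T.PK l f') := by
      rw [ip_comm, ip_comm (f - _), ← (good_x hT j).ip_av (f := f' - T.PK l f') fun g a => by
        rw [Pi.sub_apply, Pi.sub_apply, hf g _ (x_mem hij.symm a), invK_PK l f g _ (x_mem hj a)],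
        av_sub, i1.av]
      rfl
    rw [← hγ] at a7
    have a10 := mul_le_mul_of_nonneg_left a7 (inv_nonneg.2 h0.le)
    rw [← mul_assoc, sq, inv_mul_cancel_left₀ h0.ne'] at a10
    change ip f f' = ip (T.PK l f) (T.PK l f') + ip (f - T.PK l f) (f' - T.PK l f') at a3
    change ip f f = ip (T.PK l f) (T.PK l f) + ip (f - T.PK l f) (f - T.PK l f) at a4
    change ip f' f' = ip (T.PK l f') (T.PK l f') + ip (f' - T.PK l f') (f' - T.PK l f') at a5
    rw [inv_one] at a6
    have a11 := mul_le_mul_of_nonneg_left (add_le_add a1 a2) (sub_nonneg.2 h1)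
    have a12 := congrArg (γ * ·) a4
    have a13 := congrArg (γ * ·) a5
    linarith
  intro i j hij f hf m
  have hκ : 0 < γ + (1 - γ) * ρ ^ 2 := add_pos_of_pos_of_nonneg h0
    (mul_nonneg (sub_nonneg.2 h1) (sq_nonneg _))
  set κ := γ + (1 - γ) * ρ ^ 2
  have a1 := key i j hij (κ • f) (T.PK j f) (fun g u hu => congrArg (κ * ·) (hf g u hu))
    (invK_PK j f) (by simp only [Pi.smul_apply, smul_eq_mul, ← mul_expect, m, mul_zero])
    ((expect_PK j f).trans m)
  have a2 : ip (T.PK j f) (T.PK j f) = ip f (T.PK j f) :=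
    (good_val (T.K j)).ip_av ((good_val (T.K j)).iv f)
  rw [ip_smul_left, ip_smul_left, ip_comm f (κ • f), ip_smul_left, ← a2] at a1
  exact le_of_mul_le_mul_left (by linarith) hκ

omit [Fintype F] in
theorem exists_const (hT : T.OK) (h : G) : ∃ C : ℝ, ∀ i j, i ≠ j → ∀ f : G → ℝ, T.InvK i f →
    𝔼 g, (f (g * h) - f g) ^ 2 ≤ C * ip (f - T.PK j f) (f - T.PK j f) := by
  have hh : h ∈ Subgroup.closure (⋃ i, Set.range (T.x i)) := hT.gen ▸ Subgroup.mem_top h
  induction hh using Subgroup.closure_induction with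
  | mem x hx =>
    obtain ⟨k, a, rfl⟩ := Set.mem_iUnion.1 hx
    refine ⟨4, fun i j hij f hf => ?_⟩
    by_cases hk : k = i
    · have e : ∀ g, f (g * T.x k a) - f g =
          (f - T.PK j f) (g * T.x k a) + -(f - T.PK j f) g := fun g => by
        rw [Pi.sub_apply, Pi.sub_apply, invK_PK j f g _ (x_mem (hk ▸ hij) a)]
        ring
      simp only [e]
      refine (expect_sq_le _ _).trans_eq ?_
      rw [expect_right fun g => (f - T.PK j f) g ^ 2]
      simp only [neg_sq, ip_self]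
      ring
    · simp only [fun g => hf g _ (x_mem hk a), sub_self, zero_pow two_ne_zero, expect_const_zero]
      exact mul_nonneg (by norm_num) (ip_nonneg _)
  | one => exact ⟨0, fun i j _ f _ => by simp⟩
  | mul x y _ _ hx hy =>
    obtain ⟨C, hC⟩ := hx
    obtain ⟨C', hC'⟩ := hy
    refine ⟨2 * C' + 2 * C, fun i j hij f hf => ?_⟩
    have e : ∀ g, f (g * (x * y)) - f g = (f (g * x * y) - f (g * x)) + (f (g * x) - f g) :=
      fun g => by rw [mul_assoc, sub_add_sub_cancel]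
    simp only [e]
    refine (expect_sq_le _ _).trans ?_
    rw [expect_right fun g => (f (g * y) - f g) ^ 2]
    linarith [hC i j hij f hf, hC' i j hij f hf]
  | inv x _ hx =>
    obtain ⟨C, hC⟩ := hx
    refine ⟨C, fun i j hij f hf => le_of_eq_of_le ?_ (hC i j hij f hf)⟩
    rw [← expect_right _ x]
    simp only [mul_inv_cancel_right, sub_sq_comm]

omit [Fintype F] in
theorem exists_ang (hT : T.OK) : ∃ ρ, 0 ≤ ρ ∧ ρ < 1 ∧ Ang T ρ := by
  choose C hC using exists_const hT
  obtain ⟨D, hD⟩ := (Set.finite_range C).bddAbove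
  have h1 : 1 ≤ max D 1 := le_max_right _ _
  have h2 : 0 < (max D 1)⁻¹ := by positivity
  refine ⟨1 - (max D 1)⁻¹, sub_nonneg.2 (inv_le_one_of_one_le₀ h1), by linarith,
    fun i j hij f hf m => ?_⟩
  have a1 : 𝔼 h, 𝔼 g, (f (g * h) - f g) ^ 2 ≤ max D 1 * ip (f - T.PK j f) (f - T.PK j f) :=
    expect_le univ_nonempty fun h _ => (hC h i j hij f hf).trans
      (mul_le_mul_of_nonneg_right ((hD ⟨h, rfl⟩).trans (le_max_left _ _)) (ip_nonneg _))
  have a2 : 𝔼 h, 𝔼 g, (f (g * h) - f g) ^ 2 = 2 * ip f f := by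
    rw [expect_comm]
    simp only [sub_sq, expect_add_distrib, expect_sub_distrib, Fintype.expect_const, ← expect_mul,
      ← mul_expect, expect_left f, expect_left fun g => f g ^ 2, m, ip_self]
    ring
  have a3 : ip f f = ip (T.PK j f) (T.PK j f) + ip (f - T.PK j f) (f - T.PK j f) :=
    (good_val (T.K j)).ip_split f f
  have a4 := mul_le_mul_of_nonneg_left (a2 ▸ a1) h2.le
  rw [inv_mul_cancel_left₀ (by positivity)] at a4
  nlinarith [mul_nonneg (sq_nonneg (max D 1)⁻¹) (ip_nonneg f)]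

theorem ang (h : SpecLocStmt) (hT : T.OK) (hq : 4 ≤ Fintype.card F) {i j : Fin 3} (hij : i ≠ j)
    {f : G → ℝ} (hf : T.InvK i f) (m : 𝔼 g, f g = 0) :
    ip (T.PK j f) (T.PK j f) ≤ 4 / (Fintype.card F : ℝ) * ip f f := by
  have hq' : (4 : ℝ) ≤ Fintype.card F := by exact_mod_cast hq
  let γ := √(1 / (Fintype.card F : ℝ))
  have h0 : 0 < γ := Real.sqrt_pos.2 (by positivity)
  have hγ : γ ^ 2 = 1 / (Fintype.card F : ℝ) := Real.sq_sqrt (by positivity)
  have h1 : γ ≤ 1 / 2 := by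
    refine Real.sqrt_le_iff.2 ⟨by norm_num, ?_⟩
    exact (one_div_le_one_div_of_le (by norm_num) hq').trans_eq (by norm_num)
  let S := {ρ | 0 ≤ ρ ∧ Ang T ρ}
  have hS : IsClosed S := by
    simp only [S, Ang, Set.ofPred_and, Set.ofPred_forall]
    refine isClosed_Ici.inter (isClosed_iInter fun i => isClosed_iInter fun j =>
      isClosed_iInter fun _ => isClosed_iInter fun f => isClosed_iInter fun _ =>
        isClosed_iInter fun _ => isClosed_le continuous_const (by fun_prop))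
  obtain ⟨ρ₀, h2, h3, h4⟩ := exists_ang hT
  have hb : BddBelow S := ⟨0, fun _ h => h.1⟩
  obtain ⟨h5, h6⟩ := hS.csInf_mem ⟨ρ₀, h2, h4⟩ hb
  have h7 : sInf S < 1 := (csInf_le hb ⟨h2, h4⟩).trans_lt h3
  have h8 : sInf S ≤ _ := csInf_le hb ⟨add_nonneg h0.le (mul_nonneg (by linarith) (sq_nonneg _)),
    h6.step h hT h0 (by linarith) hγ⟩
  have h9 : sInf S ≤ γ * (1 + sInf S) :=
    le_of_mul_le_mul_right (a := 1 - sInf S) (by linarith) (by linarith)
  have h10 : sInf S ≤ 2 * γ := by nlinarith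
  refine (h6 i j hij f hf m).trans (mul_le_mul_of_nonneg_right ?_ (ip_nonneg f))
  refine (pow_le_pow_left₀ h5 h10 2).trans_eq ?_
  rw [mul_pow, hγ]
  ring

end SpecGlob

open SpecGlob in
theorem specGlob_proof (h : SpecLocStmt) : SpecGlobStmt := by
  intro F G _ _ _ _ T hT hq i j hij f hf
  have := ang h hT hq hij (f := fun g => f g - 𝔼 g', f g')
    (fun g u hu => by simp only [hf g u hu])
    (by rw [expect_sub_distrib, Fintype.expect_const, sub_self])
  rw [← ip_self, ← ip_self] at this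
  simpa only [Tri.PK, expect_sub_distrib, Fintype.expect_const] using this

end Vale.Agent.P318.Q
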